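import Vale.Agent.P280Z.Ma.Defs
import Vale.Agent.P281Z.Mf.Api
import Vale.Agent.P281Z.Sc.Bd

/-!
# P280Z, block Ma: the theorem of Leray and Hirsch for bundles of projective lines
-/

open scoped Manifold ContDiff Topology Matrix
open Set Filter
open Vale.Agent.P272.K Vale.Agent.P285.H281.FD Vale.Agent.P281Z Vale.Agent.P280Z.Mp
open Vale.Agent.P277Z.Slc (lin)
open Vale.Agent.P277.HD (pull)

noncomputable section

namespace Vale.Agent.P280Z.Ma

/-- the binomial convolution with powers -/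
def cv {A : Type} [CommRing A] [Algebra ℝ A] (s : ℕ → A) (x : A) (l : ℕ) : A :=
  ∑ j ∈ Finset.range (l + 1), (l.choose j : ℝ) • (s j * x ^ (l - j))

section alg
variable {A B : Type} [CommRing A] [Algebra ℝ A] [CommRing B] [Algebra ℝ B]

theorem cv_succ (s : ℕ → A) (x : A) (l : ℕ) :
    cv s x (l + 1) = cv (fun j => s (j + 1)) x l + x * cv s x l := by
  unfold cv
  have h := Finset.sum_choose_succ_mul (R := A) (fun i j => s i * x ^ j) l
  simp only [Algebra.smul_def, map_natCast]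
  rw [h, add_comm, Finset.mul_sum]
  refine congrArg₂ (· + ·) (Finset.sum_congr rfl fun i _ => rfl)
    (Finset.sum_congr rfl fun i hi => ?_)
  have : l + 1 - i = l - i + 1 := by have := Finset.mem_range.1 hi; omega
  rw [this]; ring

theorem cv_add (s s' : ℕ → A) (x : A) (l : ℕ) :
    cv (fun j => s j + s' j) x l = cv s x l + cv s' x l := by
  simp only [cv, add_mul, smul_add, Finset.sum_add_distrib]

theorem cv_mul (s : ℕ → A) (a x : A) (l : ℕ) : cv (fun j => a * s j) x l = a * cv s x l := by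
  simp only [cv, Finset.mul_sum, mul_smul_comm, mul_assoc]

theorem cv_cv (x y : A) (l : ℕ) : ∀ s : ℕ → A, cv (cv s x) y l = cv s (x + y) l := by
  induction l with
  | zero => intro s; simp [cv]
  | succ l ih =>
    intro s
    rw [cv_succ, cv_succ, ← ih, ← ih]
    simp only [cv_succ]
    rw [cv_add, cv_mul]
    ring

theorem cv_map (f : A →ₐ[ℝ] B) (s : ℕ → A) (x : A) (l : ℕ) :
    f (cv s x l) = cv (fun j => f (s j)) (f x) l := by
  simp only [cv, map_sum, map_smul, map_mul, map_pow]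

end alg

variable {T : CT}

theorem push_one (hT : T.OK) {m : ℕ} {V : Mf (m + 1)} {W : Mf m} {f : V.X → W.X}
    (hf : Sub (m + 1) m f) : T.push f 1 = 0 := by
  rw [← hT.rg.pr_sum W (T.push f 1)]
  refine Finset.sum_eq_zero fun k _ => ?_
  rw [hT.pu.deg hf 1 rfl, ← hT.rg.dg_one V, hT.rg.pr_pr, if_neg (by omega), map_zero]

theorem trv_c1 (hT : T.OK) {n : ℕ} (V : Mf n) {α : Type} [Fintype α] (L : α → Bd V.X) (k : α → ℤ)
    (hL : ∀ a, IsLB n (L a)) (h : Trv n (lin L k)) : ∑ a, (k a : ℝ) • T.c1 V (L a) = 0 := by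
  obtain ⟨s, hs, hz⟩ := h
  rw [← hT.c1.lin V L k hL]
  exact hT.c1.triv V _ s (lb_lin hL k) hs hz

theorem lb2 {n : ℕ} {V : Mf n} {L M : Bd V.X} (hL : IsLB n L) (hM : IsLB n M) :
    ∀ a, IsLB n (![L, M] a) := by
  intro a; fin_cases a; exacts [hL, hM]

theorem lb3 {n : ℕ} {V : Mf n} {L M R : Bd V.X} (hL : IsLB n L) (hM : IsLB n M) (hR : IsLB n R) :
    ∀ a, IsLB n (![L, M, R] a) := by
  intro a; fin_cases a; exacts [hL, hM, hR]

section p1
variable {k : ℕ} {U : Mf (k + 1)} {K : Mf k} {p : U.X → K.X} {Tb : Bd U.X} (Q : P1D p Tb)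

theorem two_delta (hT : T.OK) : (2 : ℝ) • T.c1 Q.U2 Q.D =
    T.pull Q.cart.sf'.hol (T.c1 U Tb) + T.pull Q.cart.hg' (T.c1 U Tb) := by
  have h := trv_c1 hT Q.U2 _ _ (lb3 Q.cut.lb (Q.cart.sf'.hol.lb Q.lb) (Q.cart.hg'.lb Q.lb)) Q.tv1
  simp only [Fin.sum_univ_three, Matrix.cons_val_zero, Matrix.cons_val_one, Matrix.cons_val_two,
    Matrix.head_cons, Matrix.tail_cons] at h
  rw [hT.c1.pull Q.cart.sf'.hol _ Q.lb, hT.c1.pull Q.cart.hg' _ Q.lb] at h
  push_cast at h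
  linear_combination (norm := module) h

theorem dg_delta (hT : T.OK) : T.pull Q.cut.emb.hol (T.c1 Q.U2 Q.D) = T.c1 U Tb := by
  have h := trv_c1 hT U _ _ (lb2 (Q.cut.emb.hol.lb Q.cut.lb) Q.lb) Q.tv2
  simp only [Fin.sum_univ_two, Matrix.cons_val_zero, Matrix.cons_val_one] at h
  rw [hT.c1.pull Q.cut.emb.hol _ Q.cut.lb] at h
  push_cast at h
  linear_combination (norm := module) h

theorem dg_q1 (hT : T.OK) (a : T.H U) : T.pull Q.cut.emb.hol (T.pull Q.cart.sf'.hol a) = a := by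
  rw [← hT.rg.pull_comp Q.cut.emb.hol Q.cart.sf'.hol holM_id fun x => (Q.h1 x).symm, hT.rg.pull_id]

theorem dg_q2 (hT : T.OK) (a : T.H U) : T.pull Q.cut.emb.hol (T.pull Q.cart.hg' a) = a := by
  rw [← hT.rg.pull_comp Q.cut.emb.hol Q.cart.hg' holM_id fun x => (Q.h2 x).symm, hT.rg.pull_id]

theorem dem_eq (hT : T.OK) (a : T.H U) :
    T.dem Q.cart.hg a = T.push Q.q1 (T.pull Q.cart.hg' a) := hT.pu.bc Q.cart a

theorem diag (hT : T.OK) (hU : U.Kah) (a : T.H U) :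
    T.push Q.q1 (T.c1 Q.U2 Q.D * T.pull Q.cart.hg' a) = a := by
  refine sub_eq_zero.1 (hT.ho.pd U hU _ fun b => ?_)
  rw [sub_mul, map_sub, ← hT.pu.proj Q.cart.sf', hT.pu.int Q.cart.sf', mul_assoc, hT.pl Q.cut,
    map_mul, dg_q1 Q hT, dg_q2 Q hT, sub_self]

theorem lh (hT : T.OK) (hU : U.Kah) (b : T.H U) :
    T.c1 U Tb * T.dem Q.cart.hg b + T.dem Q.cart.hg (T.c1 U Tb * b) = (2 : ℝ) • b := by
  conv_rhs => rw [← diag Q hT hU b, ← map_smul, ← smul_mul_assoc, two_delta Q hT]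
  rw [dem_eq Q hT, dem_eq Q hT, add_mul, map_add, map_mul, mul_comm (T.pull Q.cart.sf'.hol _),
    hT.pu.proj Q.cart.sf', mul_comm]

end p1

theorem lha_of (hR : REL) (hV : VBL) : LHA := by
  intro T hT u k U K p Tb Q hU
  obtain rfl := Q.dim
  have h1 : T.dem Q.cart.hg 1 = 0 := by
    change T.pull Q.cart.hg (T.push p 1) = 0
    rw [push_one hT Q.cart.sf, map_zero]
  refine ⟨lh Q hT hU, ?_, fun j => ?_, fun E hE hI l => ?_⟩
  · have h := lh Q hT hU 1
    rw [h1, mul_zero, zero_add, mul_one] at h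
    rw [h, two_smul, one_add_one_eq_two]
  · obtain ⟨E, hE⟩ := hR.ex p 1 Q.cart.sf rfl
    obtain ⟨E', hE'⟩ := hR.ex Q.q1 1 Q.cart.sf' rfl
    have a1 := (hR.ps T hT Q.cart.hg hE).2.2 j
    have a2 := congrArg (T.pull Q.cut.emb.hol) ((hR.ps T hT Q.cart.sf'.hol hE').2.2 j)
    rw [hR.bc T hT Q.cart hE hE' j, map_add, dg_q1 Q hT, dg_q2 Q hT, hR.adj T hT Q.cut j,
      dg_delta Q hT] at a2
    linear_combination a1 - a2
  · obtain ⟨φ, hφ, hb⟩ := hI
    have q1 := Q.cart.sf'.hol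
    have q2 := Q.cart.hg'
    have hM := lb2 (q1.lb Q.lb) Q.cut.lb
    have e1 : ∀ j, T.pull q2 (T.ps U E j) = cv (fun j => T.pull q1 (T.ps U E j))
        (T.pull q1 (T.c1 U Tb) - T.c1 Q.U2 Q.D) j := fun j => by
      rw [← hT.ch.pull q2 E hE, ← hT.ch.iso Q.U2 (hV.tw _ _ _ (hV.pull E q1 hE) (lb_lin hM _))
        (hV.pull E q2 hE) hφ hb, hT.ch.tw _ _ _ (hV.pull E q1 hE) (lb_lin hM _),
        hT.c1.lin _ _ _ hM]
      simp only [Fin.sum_univ_two, Matrix.cons_val_zero, Matrix.cons_val_one, hT.ch.pull q1 E hE,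
        hT.c1.pull q1 _ Q.lb, cv, Int.cast_one, one_smul, Int.cast_neg, neg_smul, sub_eq_add_neg]
    change T.dem Q.cart.hg (cv (T.ps U E) ((2 : ℝ)⁻¹ • T.c1 U Tb) l) = 0
    have e2 : T.pull q2 (cv (T.ps U E) ((2 : ℝ)⁻¹ • T.c1 U Tb) l) =
        1 * T.pull q1 (cv (T.ps U E) ((2 : ℝ)⁻¹ • T.c1 U Tb) l) := by
      rw [cv_map, cv_map, funext e1, cv_cv, one_mul, map_smul, map_smul]
      congr 1
      linear_combination (norm := module) (-2⁻¹ : ℝ) • two_delta Q hT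
    rw [dem_eq Q hT, e2, hT.pu.proj Q.cart.sf', push_one hT Q.cart.sf', zero_mul]

end Vale.Agent.P280Z.Ma
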