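import Vale.Agent.P280Z.Ma.Sk
import Vale.Agent.P280Z.Ma.Lha
import Vale.Agent.P281Z.Rs.Zero

/-!
# P280Z, block Ma: assembly
-/

open scoped Manifold ContDiff Topology Matrix
open Set Filter
open Vale.Agent.P272.K Vale.Agent.P285.H281.FD Vale.Agent.P281Z Vale.Agent.P280Z.Mp
open Vale.Agent.P277Z.Slc (lin at_chartAt)
open Vale.Agent.P277.HD (pull)

noncomputable section

namespace Vale.Agent.P280Z.Ma

theorem p1x_of (hF : FP) (hL : LBS) (hC : P1C) (hI : INV) : P1X := by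
  intro n N r e d D k V P pt F H
  have sp : Sub (k + 1) k F.p := ⟨F.p_hol, F.p_sbm⟩
  obtain ⟨Z, q1, q2, hc, h2, -, hu⟩ := hF (k + 1 + 1) F.p F.p (by omega) sp F.p_hol
  obtain ⟨δ, hδ, hd⟩ := hu F.U (fun x => x) (fun x => x) holM_id holM_id fun _ => rfl
  obtain ⟨c1, c2, c3⟩ := hC F H Z q1 q2 hc δ hδ (fun x => (hd x).1) fun x => (hd x).2
  exact ⟨⟨Z, q1, q2, δ, Dg F q1 q2, ds F q1 q2, rfl, (hL F H).2.1, hc, ⟨hc.hg', h2 F.p_sbm⟩, c1,
    fun x => (hd x).1, fun x => (hd x).2, c2, c3⟩, fun m E hE => hI F H Z q1 q2 hc m E hE⟩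

variable {T : CT}

theorem ga_ok (hT : T.OK) {n : ℕ} (V : Mf n) (h : V.Kah) : (T.ga V).OK n :=
  ⟨hT.rg.pr_pr V, hT.rg.pr_sum V, hT.rg.pr_zero V, hT.rg.dg_one V, hT.rg.dg_mul V, hT.rg.int_pr V,
    hT.ho.pd V h⟩

theorem dg_pull (hT : T.OK) {n m : ℕ} {V : Mf n} {W : Mf m} {f : V.X → W.X} (hf : HolM n m f)
    {j : ℕ} {a : T.H W} (h : T.Dg W j a) : T.Dg V j (T.pull hf a) := by
  unfold CT.Dg; rw [← hT.rg.pull_pr, h]

theorem dg_pow (hT : T.OK) {n : ℕ} {V : Mf n} {a : T.H V} (h : T.Dg V 1 a) (j : ℕ) :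
    T.Dg V j (a ^ j) := by
  induction j with
  | zero => rw [pow_zero]; exact hT.rg.dg_one V
  | succ j ih => rw [pow_succ]; exact hT.rg.dg_mul V _ _ _ _ ih h

theorem dem_pull (hT : T.OK) {k : ℕ} {U : Mf (k + 1)} {K : Mf k} {p : U.X → K.X}
    (hp : Sub (k + 1) k p) (a : T.H K) : T.dem hp.hol (T.pull hp.hol a) = 0 := by
  change T.pull hp.hol (T.push p (T.pull hp.hol a)) = 0
  rw [← one_mul (T.pull hp.hol a), hT.pu.proj hp, push_one hT hp, zero_mul, map_zero]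

theorem kc_pull (hT : T.OK) {n m : ℕ} {Z : Mf m} {V : Mf n} {i : Z.X → V.X} (hi : HolM m n i)
    (h : ∀ z v, Df m n i z v = 0 → v = 0) {w : T.H V} (hw : T.Kc V w) : T.Kc Z (T.pull hi w) :=
  hT.po.mono (hT.po.pull hi hw) fun z v hv => h z v hv

theorem nn_pull (hT : T.OK) {n m : ℕ} {Z : Mf m} {V : Mf n} {i : Z.X → V.X} (hi : HolM m n i)
    {w : T.H V} {N} (hw : (w, N) ∈ T.Sp V) : T.Nn Z (T.pull hi w) :=
  hT.po.mono (hT.po.pull hi hw) fun _ => le_top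

theorem kc_add (hT : T.OK) {n : ℕ} {V : Mf n} {a b : T.H V} (ha : T.Kc V a) (hb : T.Nn V b) :
    T.Kc V (a + b) := hT.po.mono (hT.po.add ha hb) fun _ => inf_le_left

theorem kc_vol (hT : T.OK) {n : ℕ} {V : Mf n} {w : T.H V} (hw : T.Kc V w) (x : V.X) :
    0 < T.int V (w ^ n) := by
  have h := hT.po.pos n 0 x hw hw rfl rfl (by simp)
  rwa [pow_zero, mul_one] at h

theorem pull_const (hT : T.OK) {n m : ℕ} {Z : Mf m} {V : Mf n} (x : V.X) {a : T.H V} {j : ℕ}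
    (ha : T.Dg V (j + 1) a) : T.pull (holM_const (n := m) (X := Z.X) x) a = 0 := by
  rw [← ha]
  refine hT.rg.van _ _ (fun z => ?_) a
  have : Df m n (fun _ : Z.X => x) z = 0 := by
    ext v : 1
    simp [Df, df]
  rw [this, LinearMap.range_zero, finrank_bot]
  omega

/-- the fibre of a submersion over a point, and the value there of a push forward -/
theorem fibre (hT : T.OK) (hF : FP) {u n m : ℕ} {U : Mf u} {V : Mf n} {e : U.X → V.X}
    (he : Sub u n e) (hm : u = n + m) (x : V.X) :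
    ∃ (Z : Mf m) (i : Z.X → U.X) (h : Emb m u i (e ⁻¹' {x})),
      ∀ a c, T.push e a = algebraMap ℝ _ c → T.int Z (T.pull h.hol a) = c := by
  obtain ⟨Z, f', i, hc, -⟩ := hF m (W' := Rs.Zr.mf Unit) e (fun _ => x) (by omega) he (holM_const x)
  have : Subsingleton (Rs.Zr.mf Unit).X := inferInstanceAs (Subsingleton Unit)
  refine ⟨Z, i, ⟨hc.hg', fun z z' h => ?_, fun z => ?_, ?_⟩, fun a c h => ?_⟩
  · obtain ⟨w, -, hw⟩ := hc.uniq (f' z) (i z) (hc.comm z).symm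
    rw [hw z ⟨rfl, rfl⟩, hw z' ⟨Subsingleton.elim _ _, h.symm⟩]
  · refine Imm.of_chart (hc.hg'.at z) (at_chartAt z) (at_chartAt _)
      ((injective_iff_map_eq_zero _).2 fun v hv => hc.imm z v (Subsingleton.elim _ _) hv)
  · ext y
    refine ⟨fun ⟨z, hz⟩ => hz ▸ hc.comm z, fun hy => ?_⟩
    obtain ⟨z, hz, -⟩ := hc.uniq () y (Eq.symm hy)
    exact ⟨z, hz.2⟩
  · rw [← hT.pu.int hc.sf', ← hT.pu.bc hc, h, AlgHom.commutes, Algebra.algebraMap_eq_smul_one,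
      map_smul, hT.rg.int_pt]
    change c * ((Nat.card Unit : ℕ) : ℝ) = c
    simp

theorem nsx_of (hF : FP) (hV : VBL) (hO : O1P) (hL : LBS) (hP : P1X) (hK : KN) (hU : UP)
    (hR : REL) (hA : LHA) : NSX := by
  intro T hT n N r e d D k V P pt F H hc hne m hm E hE
  have sp : Sub (k + 1) k F.p := ⟨F.p_hol, F.p_sbm⟩
  have se : Sub (k + 1) n F.e := ⟨F.e_hol, F.e_sbm⟩
  obtain ⟨o1, o2, -⟩ := hO V P pt H.cone
  obtain ⟨l1, l2, l3⟩ := hL F H
  obtain ⟨Q, hQ⟩ := hP F H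
  obtain ⟨c, hc'⟩ := hU F H (hK F H)
  have kH := hT.c1.pos V _ o1 o2
  have kL := hT.c1.pos _ _ l1 (hK F H)
  have kU := hT.c1.pos _ _ (lb_mul l2 (F.p_hol.lb (lb_pow l1 c))) hc'
  rw [hT.c1.mul _ _ _ l2 (F.p_hol.lb (lb_pow l1 c)), hT.c1.pull F.p_hol _ (lb_pow l1 c),
    hT.c1.pow _ _ _ l1, map_smul] at kU
  have uk : F.U.Kah := (hT.po.kah _).2 ⟨_, kU⟩
  have d0 : (0 : ℝ) < d := by exact_mod_cast H.pos
  have kη := hT.po.smul _ (inv_pos.2 d0) kH
  obtain ⟨a1, a2, a3, a4⟩ := hA T hT Q uk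
  obtain ⟨r1, r2, r3⟩ := hR.ps T hT F.e_hol hE
  have rel := trv_c1 hT F.U _ _ (lb3 (F.e_hol.lb o1) (F.p_hol.lb l1) l2) l3
  simp only [Fin.sum_univ_three, Matrix.cons_val_zero, Matrix.cons_val_one, Matrix.cons_val_two,
    Matrix.head_cons, Matrix.tail_cons] at rel
  rw [hT.c1.pull F.e_hol _ o1, hT.c1.pull F.p_hol _ l1] at rel
  push_cast at rel
  have fib : ∀ (Z : Mf m) (i : Z.X → F.U.X) (x : V.X) (h : Emb m (k + 1) i (F.e ⁻¹' {x})),
      T.Kc Z (T.pull h.hol (-T.c1 F.U (Tb F))) := fun Z i x h => by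
    have b1 := kc_pull hT h.hol (fun z v hv => h.imm z _ _ (at_chartAt z) (at_chartAt _)
      (hv.trans (map_zero _).symm)) kU
    have b2 := nn_pull hT h.hol (hT.po.smul 2 two_pos (nn_pull hT F.p_hol kL))
    have b3 : T.pull h.hol (T.pull F.e_hol (T.c1 V (O1 P pt))) = 0 := by
      rw [← hT.rg.pull_comp h.hol F.e_hol (holM_const x) fun z =>
        (show F.e (i z) = x from h.rng.subset (mem_range_self z)).symm]
      exact pull_const hT x (hT.c1.deg V _)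
    have b4 := congrArg (T.pull h.hol) rel
    simp only [map_add, map_smul, b3, map_zero] at b4
    have d1 : (1 : ℝ) ≤ d := by exact_mod_cast H.pos
    have p0 : (0 : ℝ) < (c + 2) * d - 1 := by nlinarith [(Nat.cast_nonneg c : (0 : ℝ) ≤ c)]
    have b5 := hT.po.smul _ (inv_pos.2 p0) (kc_add hT b1 b2)
    have b6 : T.pull h.hol (T.c1 F.U (Tb F) + (c : ℝ) • T.pull F.p_hol (T.c1 F.K (Lam F))) +
        T.pull h.hol ((2 : ℝ) • T.pull F.p_hol (T.c1 F.K (Lam F))) =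
        (((c : ℝ) + 2) * d - 1) • T.pull h.hol (-T.c1 F.U (Tb F)) := by
      simp only [map_add, map_smul, map_neg]
      linear_combination (norm := module) (-((c : ℝ) + 2)) • b4
    rwa [b6, smul_smul, inv_mul_cancel₀ p0.ne', one_smul] at b5
  have ses : ∀ j, T.ps F.U E j + T.pull F.e_hol (T.ps V (VB.tan n V.X) j) =
      T.c1 F.U (Tb F) ^ j + T.pull F.p_hol (T.ps F.K (VB.tan k F.K.X) j) := fun j =>
    (r3 j).symm.trans (a3 j)
  have e0 : T.ps F.U E 0 = m := by rw [hT.ch.zero _ _ r1, r2]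
  have a2' : T.dem F.p_hol (T.c1 F.U (Tb F)) = 2 := a2
  refine ⟨⟨ga_ok hT V ((hT.po.kah _).2 ⟨_, kH⟩), hm ▸ ga_ok hT F.U uk,
    hT.rg.h0 V hc.toPreconnectedSpace, hT.rg.pull_pr F.e_hol, fun j b => hT.pu.deg se m hm j b,
    hT.pu.proj se, hT.pu.int se, fun j b => ?_, fun b b' => ?_, fun b b' => ?_, a1,
    hT.po.deg kη, hT.c1.deg _ _, ?_, a2, kc_vol hT kη hc.toNonempty.some, hT.ho.hl kη,
    hT.ho.one kη, hT.ch.deg _ _, hT.ch.deg _ _, fun j => dg_pull hT F.p_hol (hT.ch.deg _ _ j),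
    hT.ch.zero V _ (hV.tan V), e0, ses, fun j => dem_pull hT sp _, a4 E r1 (hQ m E hE),
    fun s hs j hj => hT.ch.rank _ E r1 s hs j (r2 ▸ hj), ?_⟩, uk, (hT.po.kah _).2 ⟨_, kL⟩, ?_, fib⟩
  · change T.pr F.U j (T.pull F.p_hol (T.push F.p b)) = T.pull F.p_hol (T.push F.p _)
    rw [← hT.rg.pull_pr, hT.pu.deg sp 1 rfl]; rfl
  · change T.pull F.p_hol (T.push F.p (b * T.pull sp.hol (T.push F.p b'))) =
      T.pull F.p_hol (T.push F.p b) * T.pull F.p_hol (T.push F.p b')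
    rw [hT.pu.proj sp, map_mul]
  · change T.int F.U (T.pull sp.hol (T.push F.p b) * b') =
      T.int F.U (b * T.pull sp.hol (T.push F.p b'))
    rw [mul_comm, ← hT.pu.int sp, ← hT.pu.int sp, hT.pu.proj sp, hT.pu.proj sp, mul_comm]
  · change T.dem F.p_hol (T.pull F.e_hol ((d : ℝ)⁻¹ • T.c1 V (O1 P pt))) = 1
    have b := congrArg (T.dem F.p_hol) rel
    simp only [map_add, map_smul, map_zero, a2', dem_pull hT sp] at b
    have b' : T.dem F.p_hol (T.pull F.e_hol (T.c1 V (O1 P pt))) = (d : ℝ) • 1 := by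
      rw [← one_add_one_eq_two (R := T.H F.U)] at b
      linear_combination (norm := module) (2⁻¹ : ℝ) • b
    rw [map_smul, map_smul, b', smul_smul, inv_mul_cancel₀ d0.ne', one_smul]
  · have g1 : T.Dg F.U 1 (-T.c1 F.U (Tb F)) := by
      unfold CT.Dg; rw [map_neg, hT.c1.deg]
    have g2 : T.Dg V 0 (T.push F.e ((-T.c1 F.U (Tb F)) ^ m)) := by
      unfold CT.Dg; rw [hT.pu.deg se m hm, zero_add, dg_pow hT g1]
    obtain ⟨D', hD⟩ := hT.rg.h0 V hc.toPreconnectedSpace _ g2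
    obtain ⟨u⟩ := hne
    obtain ⟨Z, i, h, hi⟩ := fibre hT hF se hm (F.e u)
    obtain ⟨z, -⟩ : u ∈ range i := h.rng.symm ▸ rfl
    refine ⟨D', ?_, hD⟩
    rw [← hi _ _ hD, map_pow]
    exact kc_vol hT (fib Z i _ h) z
  · have b1 := congrArg (T.dem F.p_hol) (ses 1)
    have b2 : T.dem F.p_hol _ = 0 := a4 E r1 (hQ m E hE) 1
    simp only [Finset.sum_range_succ, Finset.range_zero, Finset.sum_empty, e0, zero_add,
      Nat.choose_zero_right, Nat.choose_self, Nat.cast_one, one_smul, tsub_zero, pow_one, tsub_self,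
      pow_zero, mul_one, map_add, ← nsmul_eq_mul, map_nsmul, map_smul, a2'] at b2
    simp only [map_add, pow_one, a2', dem_pull hT sp, add_zero] at b1
    rw [Algebra.algebraMap_eq_smul_one, ← Nat.cast_smul_eq_nsmul ℝ] at *
    rw [← one_add_one_eq_two (R := T.H F.U)] at b1 b2
    linear_combination (norm := module) b1 - b2

end Vale.Agent.P280Z.Ma
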