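import Vale.Agent.P281Z.Mf.Api
import Vale.Agent.P284Y.Lib.GlC
import Vale.Agent.P272.K.INT.Part

/-!
# P280Z, block Ma: metrics which are positive along the fibres
-/

open scoped Manifold ContDiff Topology ComplexOrder
open Set Filter
open Vale.Agent.P272.K Vale.Agent.P285.H281.FD Vale.Agent.P281Z
open Vale.Agent.P277Z (at_chart trans_an)
open Vale.Agent.P277Z.Slc (tr)
open Vale.Agent.P277.HD (pull)
open Vale.Agent.P284Z (levi cHess_quad diff_fderiv hess_symm)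
open Vale.Agent.P284Y.Lib

noncomputable section

namespace Vale.Agent.P280Z.Ma.Up

section flat

variable {n : ℕ} {u f : Cm n → ℝ} {z v : Cm n}

theorem pd_iff (hu : ContDiffAt ℝ 2 u z) : (cHess u z).PosDef ↔ ∀ w, w ≠ 0 → 0 < levi u z w := by
  refine ⟨fun h w hw => ?_, fun h => .of_dotProduct_mulVec_pos ?_ fun x hx => ?_⟩
  · have := h.dotProduct_mulVec_pos (star_ne_zero.2 hw)
    rw [cHess_quad hu, star_star, Complex.zero_lt_real] at this
    linarith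
  · rw [N.cHess_eq_lev (diff_fderiv hu)]
    exact N.lev_isHermitian (hess_symm hu)
  · rw [cHess_quad hu, Complex.zero_lt_real]
    linarith [h (star x) (star_ne_zero.2 hx)]

theorem levi_zero {W : Type} [NormedAddCommGroup W] [NormedSpace ℝ W] [NormedSpace ℂ W]
    (u : W → ℝ) (z : W) : levi u z 0 = 0 := by simp [levi]

theorem levi_log (ε : ℝ) {t : ℂ} (h : ε + ‖t‖ ^ 2 ≠ 0) (s : ℂ) :
    levi (fun y : ℂ => Real.log (ε + ‖y‖ ^ 2)) t s = 4 * ε * ‖s‖ ^ 2 / (ε + ‖t‖ ^ 2) ^ 2 := by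
  have h1 : ContDiff ℝ 2 fun y : ℂ => ε + ‖y‖ ^ 2 := contDiff_const.add (contDiff_norm_sq ℝ)
  have h2 : (fderiv ℝ fun y : ℂ => ε + ‖y‖ ^ 2) = fun y => 2 • innerSL ℝ y := funext fun y => by
    rw [fderiv_const_add, fderiv_norm_sq_apply]
  have h3 : ∀ w, fderiv ℝ (fun y : ℂ => 2 • innerSL ℝ y) t w = 2 • innerSL ℝ w := fun w =>
    congrArg (fun L => L w) (2 • innerSL ℝ (E := ℂ)).fderiv
  rw [levi_comp (χ := Real.log) (χ' := fun x => x⁻¹) h1.contDiffAt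
    ((eventually_ne_nhds h).mono fun x hx => Real.hasDerivAt_log hx) (hasDerivAt_inv h), levi, gsq,
    h2, h3, h3]
  simp only [Complex.sq_norm, Complex.normSq_apply] at h ⊢
  simp [Complex.sq_norm, Complex.normSq_apply]
  field_simp
  ring

theorem sm_log {g : Cm n → ℂ} (hg : AnalyticAt ℂ g z) (ε : ℝ) (h : ε + ‖g z‖ ^ 2 ≠ 0) :
    ContDiffAt ℝ ∞ (fun y => Real.log (ε + ‖g y‖ ^ 2)) z :=
  (contDiffAt_const.add ((hg.contDiffAt.restrict_scalars ℝ).norm_sq ℝ)).log h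

theorem levi_lg {g : Cm n → ℂ} (hg : AnalyticAt ℂ g z) (ε : ℝ) (h : ε + ‖g z‖ ^ 2 ≠ 0) :
    levi (fun y => Real.log (ε + ‖g y‖ ^ 2)) z v =
      4 * ε * ‖fderiv ℂ g z v‖ ^ 2 / (ε + ‖g z‖ ^ 2) ^ 2 := by
  rw [← levi_log ε h]
  exact levi_hol hg (u := fun y : ℂ => Real.log (ε + ‖y‖ ^ 2))
    ((contDiff_const.add (contDiff_norm_sq ℝ)).contDiffAt.log h)

theorem pos_gen (hu : ContDiffAt ℝ 2 u z) (hf : ContDiffAt ℝ 2 f z) (h0 : ∀ v, 0 ≤ levi f z v)
    (h : ∀ v, v ≠ 0 → levi f z v = 0 → 0 < levi u z v) :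
    ∃ t : ℝ, ∀ᶠ w in 𝓝 z, ∀ v, v ≠ 0 → 0 < levi u w v + t * levi f w v := by
  have hc : ∀ (t : ℝ) ξ, ContinuousAt (fun q : Cm n × Cm n =>
      levi u q.1 q.2 + t * levi f q.1 q.2) (z, ξ) := fun t ξ =>
    (levi_contAt hu).add (continuousAt_const.mul (levi_contAt hf))
  obtain ⟨t, ht⟩ : ∃ t : ℝ, ∀ v ∈ Metric.sphere (0 : Cm n) 1, 0 < levi u z v + t * levi f z v := by
    refine (isCompact_sphere (0 : Cm n) 1).induction_on
      (p := fun S => ∃ t : ℝ, ∀ v ∈ S, 0 < levi u z v + t * levi f z v)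
      ⟨0, fun _ h => h.elim⟩ (fun S T hST ⟨t, ht⟩ => ⟨t, fun ξ hξ => ht ξ (hST hξ)⟩)
      (fun S T ⟨t, ht⟩ ⟨t', ht'⟩ => ⟨max t t', fun ξ hξ => ?_⟩) fun ξ hξ => ?_
    · rcases hξ with hξ | hξ
      · linarith [ht ξ hξ, mul_le_mul_of_nonneg_right (le_max_left t t') (h0 ξ)]
      · linarith [ht' ξ hξ, mul_le_mul_of_nonneg_right (le_max_right t t') (h0 ξ)]
    · obtain ⟨t, ht⟩ : ∃ t : ℝ, 0 < levi u z ξ + t * levi f z ξ := by
        rcases (h0 ξ).eq_or_lt with k | k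
        · exact ⟨0, by simpa using h ξ (ne_zero_of_mem_unit_sphere ⟨ξ, hξ⟩) k.symm⟩
        · refine ⟨(1 - levi u z ξ) / levi f z ξ, ?_⟩
          rw [div_mul_cancel₀ _ k.ne']
          linarith
      have k1 : ContinuousAt (fun ξ => levi u z ξ + t * levi f z ξ) ξ :=
        ContinuousAt.comp (f := fun ξ : Cm n => (z, ξ)) (hc t ξ) (by fun_prop)
      exact ⟨_, nhdsWithin_le_nhds (k1.eventually (lt_mem_nhds ht)), t, fun _ h => h⟩
  refine ⟨t, ((isCompact_sphere (0 : Cm n) 1).eventually_forall_of_forall_eventually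
    (P := fun w v => 0 < levi u w v + t * levi f w v) fun v hv =>
      (hc t v).eventually (lt_mem_nhds (ht v hv))).mono fun w hw v hv => ?_⟩
  have h1 := norm_pos_iff.2 hv
  have h2 := hw (‖v‖⁻¹ • v) (by simp [norm_smul, h1.ne'])
  rw [levi_smul, levi_smul, mul_left_comm, ← mul_add] at h2
  exact (mul_pos_iff_of_pos_left (by positivity)).1 h2

end flat

variable {n k : ℕ} {X Y : Type} [TopologicalSpace X] [ChartedSpace (Cm n) X]
  [IsManifold 𝓘(ℂ, Cm n) ω X] [TopologicalSpace Y] [ChartedSpace (Cm k) Y]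
  [IsManifold 𝓘(ℂ, Cm k) ω Y] {p : X → Y} {x : X} {e e' : Chart n X} {c : Chart k Y}
  {L M : Bd X} {ψ : L.ι → X → ℝ} {φ : M.ι → X → ℝ} {v : Cm n}

/-- the Levi form in a chart -/
abbrev Lv (u : X → ℝ) (e : Chart n X) (x : X) (v : Cm n) : ℝ :=
  levi (fun z => u (e.symm z)) (e x) v

theorem pull_sm (hp : HolM n k p) (he : At e x) (hc : At c (p x)) {u : Y → ℝ}
    (hu : ContDiffAt ℝ ∞ (fun z => u (c.symm z)) (c (p x))) :
    ContDiffAt ℝ ∞ (fun z => u (p (e.symm z))) (e x) ∧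
      (∀ v, Lv (fun y => u (p y)) e x v = Lv u c (p x) (df p e c x v)) ∧
      ∀ v, df p e c x v = 0 → fderiv ℝ (fun z => u (p (e.symm z))) (e x) v = 0 := by
  have h1 := (hp.at x).an he hc
  have h2 : (fun z => u (p (e.symm z))) =ᶠ[𝓝 (e x)] fun z => u (c.symm (c (p (e.symm z)))) :=
    (at_map hp.cont.continuousAt he hc).mono fun z hz => by simp only [hz.left_inv]
  have h3 : ContDiffAt ℝ ∞ (fun z => u (c.symm z)) (c (p (e.symm (e x)))) := by
    rwa [he.left_inv]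
  refine ⟨(ContDiffAt.comp (g := fun z => u (c.symm z)) (e x) h3
    (h1.contDiffAt.restrict_scalars ℝ)).congr_of_eventuallyEq h2, fun v => ?_, fun v hv => ?_⟩
  · rw [Lv, levi_congr h2, levi_hol h1 (h3.of_le two_le_inf), he.left_inv]
    rfl
  · rw [h2.fderiv_eq, fderiv_hol h1.differentiableAt (h3.differentiableAt (by simp))]
    exact (congrArg _ hv).trans (map_zero _)

omit [IsManifold 𝓘(ℂ, Cm n) ω X] in
theorem lg_sm (hL : IsLB n L) {i j : L.ι} (he : At e x) (hi : x ∈ L.U i) (hj : x ∈ L.U j) :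
    ContDiffAt ℝ ∞ (fun z => Real.log (‖L.g i j (e.symm z)‖ ^ 2)) (e x) ∧
      ∀ v, levi (fun z => Real.log (‖L.g i j (e.symm z)‖ ^ 2)) (e x) v = 0 := by
  have h1 := (hL.holo i j e x he hi hj).analyticAt
  have h2 : 0 + ‖L.g i j (e.symm (e x))‖ ^ 2 ≠ 0 := by
    rw [zero_add, he.left_inv]
    exact pow_ne_zero _ (norm_ne_zero_iff.2 (hL.ne_zero i j x hi hj))
  exact ⟨by simpa using sm_log h1 0 h2, fun v => by simpa using levi_lg (v := v) h1 0 h2⟩

theorem lv_chg (hL : IsLB n L) (hψ : IsMet n L ψ) {i j : L.ι} (he : At e x) (he' : At e' x)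
    (hi : x ∈ L.U i) (hj : x ∈ L.U j) : Lv (ψ i) e x v = Lv (ψ j) e' x (tr e' e x v) := by
  have h1 : (fun z => ψ i (e.symm z)) =ᶠ[𝓝 (e x)]
      fun z => ψ j (e.symm z) + Real.log (‖L.g i j (e.symm z)‖ ^ 2) :=
    (at_ev he (((hL.isOpen i).eventually_mem hi).and ((hL.isOpen j).eventually_mem hj))).mono
      fun z hz => hψ.change i j _ hz.1 hz.2
  have h2 := lg_sm hL he hi hj
  rw [Lv, levi_congr h1, levi_add ((hψ.smooth j e x he hj).of_le two_le_inf)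
    (h2.1.of_le two_le_inf), h2.2, add_zero]
  exact (pull_sm holM_id he he' (hψ.smooth j e' x he' hj)).2.1 v

theorem big [CompactSpace X] (hL : IsLB n L) (hM : IsLB n M) (hψ : IsMet n L ψ)
    (hφ : IsMet n M φ) (h0 : ∀ m (e : Chart n X) x, At e x → x ∈ M.U m → ∀ v, 0 ≤ Lv (φ m) e x v)
    (h : ∀ i m (e : Chart n X) x, At e x → x ∈ L.U i → x ∈ M.U m → ∀ v, v ≠ 0 →
      Lv (φ m) e x v = 0 → 0 < Lv (ψ i) e x v) : ∃ c : ℕ, Pos n (L.mul (M.pow c)) := by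
  let Q := fun (t : ℝ) (x : X) => ∀ i m (e : Chart n X), At e x → x ∈ L.U i → x ∈ M.U m →
    ∀ v, v ≠ 0 → 0 < Lv (ψ i) e x v + t * Lv (φ m) e x v
  have hQ : ∀ t t' x, t ≤ t' → Q t x → Q t' x := fun t t' x ht k i m e he hi hm v hv => by
    linarith [k i m e he hi hm v hv, mul_le_mul_of_nonneg_right ht (h0 m e x he hm v)]
  obtain ⟨t, ht⟩ : ∃ t : ℝ, ∀ x ∈ univ, Q t x := by
    refine isCompact_univ.induction_on (p := fun S => ∃ t : ℝ, ∀ x ∈ S, Q t x)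
      ⟨0, fun _ h => h.elim⟩ (fun S T hST ⟨t, ht⟩ => ⟨t, fun x hx => ht x (hST hx)⟩)
      (fun S T ⟨t, ht⟩ ⟨t', ht'⟩ => ⟨max t t', fun x hx => hx.elim
        (fun k => hQ _ _ x (le_max_left _ _) (ht x k))
        fun k => hQ _ _ x (le_max_right _ _) (ht' x k)⟩) fun x _ => ?_
    obtain ⟨i, hi⟩ := hL.cover x
    obtain ⟨m, hm⟩ := hM.cover x
    have he := at_chart (n := n) x
    obtain ⟨t, ht⟩ := pos_gen ((hψ.smooth i _ x he hi).of_le two_le_inf)
      ((hφ.smooth m _ x he hm).of_le two_le_inf) (h0 m _ x he hm) (h i m _ x he hi hm)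
    refine ⟨_, nhdsWithin_le_nhds ((((chartAt (Cm n) x).continuousAt he.2).eventually ht).and
      ((at_near he).and (((hL.isOpen i).eventually_mem hi).and
        ((hM.isOpen m).eventually_mem hm)))), t, fun y hy i' m' e he' hi' hm' v hv => ?_⟩
    rw [lv_chg hL hψ he' hy.2.1 hi' hy.2.2.1, lv_chg hM hφ he' hy.2.1 hm' hy.2.2.2]
    exact hy.1 _ fun k => hv (tr_inj hy.2.1 he' (k.trans (map_zero _).symm))
  obtain ⟨c, hc⟩ := exists_nat_ge t
  have h1 : ∀ (i : L.ι × M.ι) (e : Chart n X) x, At e x → x ∈ L.U i.1 ∩ M.U i.2 →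
      ContDiffAt ℝ ∞ (fun z => ψ i.1 (e.symm z) + c * φ i.2 (e.symm z)) (e x) :=
    fun i e x he hi => (hψ.smooth _ e x he hi.1).add
      (contDiffAt_const.mul (hφ.smooth _ e x he hi.2))
  refine ⟨c, fun i x => ψ i.1 x + c * φ i.2 x, ⟨h1, fun i j x hi hj => ?_⟩, fun i e x he hi =>
    (pd_iff ((h1 i e x he hi).of_le two_le_inf)).2 fun v hv => ?_⟩
  · have h2 := norm_ne_zero_iff.2 (hL.ne_zero _ _ x hi.1 hj.1)
    have h3 := norm_ne_zero_iff.2 (hM.ne_zero _ _ x hi.2 hj.2)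
    show _ = _ + Real.log (‖L.g i.1 j.1 x * M.g i.2 j.2 x ^ c‖ ^ 2)
    rw [hψ.change _ _ x hi.1 hj.1, hφ.change _ _ x hi.2 hj.2, norm_mul, norm_pow]
    simp only [Real.log_pow, Real.log_mul h2 (pow_ne_zero c h3)]
    ring
  · have h2 := (hφ.smooth _ e x he hi.2).of_le two_le_inf
    rw [levi_add ((hψ.smooth _ e x he hi.1).of_le two_le_inf) (contDiffAt_const.mul h2),
      levi_const_mul h2]
    exact hQ _ _ x hc (ht x trivial) _ _ e he hi.1 hi.2 v hv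

theorem pou [T2Space X] [CompactSpace X] {ι : Type} (U : ι → Set X)
    (hU : ∀ i, IsOpen (U i)) (hc : ∀ x, ∃ i, x ∈ U i) :
    ∃ (s : Finset ι) (ρ : ι → X → ℝ), (∀ a, SmoothFn (n := n) (ρ a)) ∧
      (∀ a x, 0 ≤ ρ a x) ∧ (∀ a, tsupport (ρ a) ⊆ U a) ∧ ∀ x, ∑ a ∈ s, ρ a x = 1 := by
  have := INT.isManifold_real n X
  obtain ⟨f, hf⟩ := SmoothPartitionOfUnity.exists_isSubordinate 𝓘(ℝ, Cm n)
    isClosed_univ U hU fun x _ => mem_iUnion.2 (hc x)
  have h1 := f.locallyFinite.finite_nonempty_of_compact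
  refine ⟨h1.toFinset, fun a => f a, fun a => INT.smoothFn_of_contMDiff (f a).contMDiff,
    fun a x => f.nonneg a x, hf, fun x => ?_⟩
  rw [← f.sum_eq_one (mem_univ x), finsum_eq_sum_of_support_subset]
  exact fun a ha => h1.mem_toFinset.2 ⟨x, ha⟩

theorem glue [T2Space Y] [CompactSpace Y] (hp : HolM n k p) {ι : Type} (O : ι → Set Y)
    (hO : ∀ a, IsOpen (O a)) (hc : ∀ y, ∃ a, y ∈ O a) (ψ : ι → L.ι → X → ℝ)
    (h1 : ∀ a i x (e : Chart n X), p x ∈ O a → x ∈ L.U i → At e x →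
      ContDiffAt ℝ ∞ (fun z => ψ a i (e.symm z)) (e x) ∧ ∀ v, v ≠ 0 →
        (∀ c : Chart k Y, At c (p x) → df p e c x v = 0) → 0 < Lv (ψ a i) e x v)
    (h2 : ∀ a i j x, p x ∈ O a → x ∈ L.U i → x ∈ L.U j →
      ψ a i x = ψ a j x + Real.log (‖L.g i j x‖ ^ 2)) :
    ∃ ψ, IsMet n L ψ ∧ ∀ i (e : Chart n X) x, At e x → x ∈ L.U i → ∀ v, v ≠ 0 →
      (∀ c : Chart k Y, At c (p x) → df p e c x v = 0) → 0 < Lv (ψ i) e x v := by
  obtain ⟨s, ρ, r1, r2, r3, r4⟩ := pou (n := k) O hO hc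
  have k1 := fun y x (e : Chart n X) (he : At e x) =>
    pull_sm hp he (at_chart (p x)) (r1 y _ _ (at_chart (p x)))
  have k2 : ∀ y x (e : Chart n X) i, At e x → p x ∉ O y →
      (fun z => ρ y (p (e.symm z)) * ψ y i (e.symm z)) =ᶠ[𝓝 (e x)] fun _ => 0 :=
    fun y x e i he hx => (at_ev he (hp.cont.continuousAt.eventually
      (notMem_tsupport_iff_eventuallyEq.1 fun h => hx (r3 y h)))).mono fun z hz => by
        simp only [hz, Pi.zero_apply, zero_mul]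
  have k3 : ∀ y x (e : Chart n X) i, At e x → x ∈ L.U i →
      ContDiffAt ℝ ∞ (fun z => ρ y (p (e.symm z)) * ψ y i (e.symm z)) (e x) :=
    fun y x e i he hi => by
      by_cases hx : p x ∈ O y
      · exact (k1 y x e he).1.mul (h1 y i x e hx hi he).1
      · exact contDiffAt_const.congr_of_eventuallyEq (k2 y x e i he hx)
  refine ⟨fun i x => ∑ y ∈ s, ρ y (p x) * ψ y i x, ⟨fun i e x he hi => ContDiffAt.sum fun y _ =>
    k3 y x e i he hi, fun i j x hi hj => ?_⟩, fun i e x he hi v hv h0 => ?_⟩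
  · rw [← one_mul (Real.log _), ← r4 (p x), Finset.sum_mul, ← Finset.sum_add_distrib]
    refine Finset.sum_congr rfl fun y _ => ?_
    by_cases hy : ρ y (p x) = 0
    · simp [hy]
    · rw [h2 y i j x (r3 y (subset_tsupport _ hy)) hi hj]
      ring
  · have c1 := h0 _ (at_chart (p x))
    have c2 : ∀ y, p x ∈ O y → levi (fun z => ρ y (p (e.symm z)) * ψ y i (e.symm z)) (e x) v =
        ρ y (p x) * Lv (ψ y i) e x v := fun y hy => by
      have c3 := (k1 y x e he).2.1 v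
      rw [c1, Lv, Lv, levi_zero] at c3
      rw [levi_mul ((k1 y x e he).1.of_le two_le_inf) ((h1 y i x e hy hi he).1.of_le two_le_inf),
        c3, (k1 y x e he).2.2 v c1, (k1 y x e he).2.2 _ (by rw [map_smul, c1, smul_zero]),
        he.left_inv]
      ring
    obtain ⟨y, hy, c3⟩ := Finset.exists_ne_zero_of_sum_ne_zero ((r4 (p x)).trans_ne one_ne_zero)
    have c4 := r3 y (subset_tsupport _ c3)
    rw [Lv, levi_sum s fun y _ => (k3 y x e i he hi).of_le two_le_inf]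
    refine Finset.sum_pos' (fun y _ => ?_) ⟨y, hy, ?_⟩
    · by_cases hx : p x ∈ O y
      · rw [c2 y hx]
        exact mul_nonneg (r2 _ _) ((h1 y i x e hx hi he).2 v hv h0).le
      · rw [levi_congr (k2 y x e i he hx), levi_const]
    · rw [c2 y c4]
      exact mul_pos ((r2 _ _).lt_of_ne' c3) ((h1 y i x e c4 hi he).2 v hv h0)

/-- a metric which is positive along the fibres becomes positive after a twist from the base -/
theorem rel_pos [CompactSpace X] (hp : HolM n k p) (hL : IsLB n L) {Λ : Bd Y} (hΛ : IsLB k Λ)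
    (hP : Pos k Λ) (hψ : IsMet n L ψ) (h : ∀ i (e : Chart n X) x, At e x → x ∈ L.U i → ∀ v, v ≠ 0 →
      (∀ c : Chart k Y, At c (p x) → df p e c x v = 0) → 0 < Lv (ψ i) e x v) :
    ∃ c : ℕ, Pos n (L.mul (pull p (Λ.pow c))) := by
  obtain ⟨φ, h1, h2⟩ := hP
  have k1 := fun m x (e : Chart n X) (he : At e x) hm c (hc : At c (p x)) =>
    pull_sm hp he hc (h1.smooth m c _ hc hm)
  have k2 := fun m (c : Chart k Y) y hc hm =>
    (pd_iff ((h1.smooth m c y hc hm).of_le two_le_inf)).1 (h2 m c y hc hm)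
  refine big (M := pull p Λ) (φ := fun m x => φ m (p x)) hL (hp.lb hΛ) hψ
    ⟨fun m e x he hm => (k1 m x e he hm _ (at_chart _)).1, fun i j x => h1.change i j (p x)⟩
    (fun m e x he hm v => ?_) fun i m e x he hi hm v hv h0 => h i e x he hi v hv fun c hc => ?_
  · rw [(k1 m x e he hm _ (at_chart _)).2.1]
    by_cases h3 : df p e (chartAt (Cm k) (p x)) x v = 0
    · rw [h3, Lv, levi_zero]
    · exact (k2 m _ _ (at_chart _) hm _ h3).le
  · by_contra h3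
    exact (k2 m _ _ hc hm _ h3).ne' (((k1 m x e he hm c hc).2.1 v).symm.trans h0)

end Vale.Agent.P280Z.Ma.Up
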