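import Vale.Agent.P280Z.Ma.Sk
import Vale.Agent.P280Z.Co.Vbl

/-!
# P280Z, row REL: adjunction and relative tangent bundles
-/

open scoped Manifold ContDiff Topology Matrix
open Set Filter Function
open Vale.Agent.P272.K Vale.Agent.P285.H281.FD Vale.Agent.P281Z
open Vale.Agent.P277Z (Hol at_chart)
open Vale.Agent.P277Z.Slc (dd dd_mul dd_congr dd_chart)
open Vale.Agent.P231.ChW (NewtonRec)

noncomputable section

namespace Vale.Agent.P280Z.Ma

namespace RelH

section alg
variable {R : Type} [CommRing R] [Algebra ℝ R]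

/-- the solution of the recursion of Newton -/
def nE (s : ℕ → R) : ℕ → R
  | 0 => 1
  | (j + 1) => ((j : ℝ) + 1)⁻¹ • ∑ i : Fin (j + 1), (-1 : ℝ) ^ (i : ℕ) • (s (i + 1) * nE s (j - i))
  decreasing_by exact Nat.lt_succ_of_le (Nat.sub_le _ _)

theorem nE_spec (s : ℕ → R) : NewtonRec ℝ s (nE s) := by
  refine ⟨by rw [nE], fun j => ?_⟩
  rw [nE, smul_smul, mul_inv_cancel₀ (Nat.cast_add_one_ne_zero j), one_smul,
    ← Fin.sum_univ_eq_sum_range (fun i => (-1 : ℝ) ^ i • (s (i + 1) * nE s (j - i))) (j + 1)]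

theorem pow_of {s e : ℕ → R} (h : NewtonRec ℝ s e) (h0 : ∀ j, 1 < j → e j = 0) (j : ℕ) :
    s (j + 1) = s 1 ^ (j + 1) := by
  have h1 : e 1 = s 1 := by simpa [h.1] using h.2 0
  induction j with
  | zero => simp
  | succ j ih =>
    have h2 := h.2 (j + 1)
    rw [h0 _ (by omega), smul_zero, Finset.sum_range_succ, Finset.sum_range_succ,
      Finset.sum_eq_zero fun i hi => by
        rw [h0 _ (by have := Finset.mem_range.1 hi; omega), mul_zero, smul_zero],
      zero_add, Nat.sub_self, h.1, mul_one, Nat.add_sub_cancel_left, h1, ih, pow_succ (-1 : ℝ),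
      mul_neg_one, neg_smul, ← sub_eq_add_neg, eq_comm, sub_eq_zero] at h2
    rw [pow_succ _ (j + 1)]
    exact (smul_right_injective R (pow_ne_zero j (by norm_num)) h2).symm

end alg

section
variable {n : ℕ} {X : Type} [TopologicalSpace X] [ChartedSpace (Cm n) X]

theorem rk {E : VB X} (hE : IsVB n E) (x : X) : Module.finrank ℂ (E.A x) = E.r :=
  let ⟨i, hi⟩ := hE.cover x
  (LinearEquiv.ofBijective _ (hE.bij i x hi)).finrank_eq.symm.trans (Module.finrank_fin_fun ℂ)

/-- a linear form as a map to `ℂ¹` -/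
def row (l : Cm n →L[ℂ] ℂ) : Cm n →ₗ[ℂ] (Fin 1 → ℂ) := LinearMap.pi fun _ => (l : Cm n →ₗ[ℂ] ℂ)

theorem row_surj {l : Cm n →L[ℂ] ℂ} (h : l ≠ 0) : Surjective (row l) := fun u => by
  obtain ⟨w, hw⟩ := DFunLike.ne_iff.1 h
  refine ⟨(u 0 / l w) • w, funext fun k => ?_⟩
  rw [Subsingleton.elim k 0]
  exact (l.map_smul _ _).trans (div_mul_cancel₀ _ hw)

theorem sm_dd [IsManifold 𝓘(ℂ, Cm n) ω X] {a : X → ℂ} {x : X} {e : Chart n X} (ha : Hol n a x)
    (he : At e x) : SmAt n (fun y => LinearMap.toMatrix' (row (dd a e y))) x := fun c hc i j => by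
  have h1 := (ha e he).fderiv
  rw [← congrArg e hc.left_inv] at h1
  have h2 : ContDiffAt ℂ ω (fun z => dd a e (c.symm z) (Pi.single j 1)) (c x) :=
    (h1.comp_of_eq (P277Z.trans_an he hc) rfl).contDiffAt.clm_apply contDiffAt_const
  exact (h2.restrict_scalars ℝ).of_le le_top

end

section cut
variable {m n : ℕ} {V : Mf m} {Z : Mf n} {L : Bd V.X} {s : L.ι → V.X → ℂ} {i : Z.X → V.X}

theorem s_hol (h : Cut L s i) {a : L.ι} {x : V.X} (ha : x ∈ L.U a) : Hol m (s a) x :=
  fun e he => (h.sec.holo a e x he ha).analyticAt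

theorem s_zero (h : Cut L s i) {a : L.ι} {z : Z.X} (ha : i z ∈ L.U a) : s a (i z) = 0 := by
  have h1 : i z ∈ {x | ¬ NZ L s x} := h.emb.rng ▸ mem_range_self z
  by_contra h2
  exact h1 fun b hb h3 => h2 (by rw [h.sec.change a b _ ha hb, h3, mul_zero])

theorem dd_change (h : Cut L s i) {a b : L.ι} {z : Z.X} (ha : i z ∈ L.U a) (hb : i z ∈ L.U b)
    {e : Chart m V.X} (he : At e (i z)) :
    cf L a (i z) • dd (s a) e (i z) = cf L b (i z) • dd (s b) e (i z) := by
  rw [dd_congr (b := fun y => L.g a b y * s b y) (by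
      filter_upwards [(h.lb.isOpen a).mem_nhds ha, (h.lb.isOpen b).mem_nhds hb] with y k1 k2
        using h.sec.change a b y k1 k2) he,
    dd_mul (fun c hc => (h.lb.holo a b c _ hc ha hb).analyticAt) (s_hol h hb) (s_zero h hb) he,
    smul_smul, (VblH.cf_mul h.lb ha hb).2]

/-- the differential of the section along its zero set -/
def dσ (h : Cut L s i) (z : Z.X) : Cm m →ₗ[ℂ] (Fin 1 → ℂ) :=
  row (cf L (h.lb.cover (i z)).choose (i z) •
    dd (s (h.lb.cover (i z)).choose) (chartAt (Cm m) (i z)) (i z))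

theorem ds_surj (h : Cut L s i) (z : Z.X) : Surjective (dσ h z) :=
  have ha := (h.lb.cover (i z)).choose_spec
  row_surj (smul_ne_zero (VblH.cf_mul h.lb ha ha).1 (h.tr z _ ha _ (at_chart _)))

theorem ds_df (h : Cut L s i) (z : Z.X) (w : Cm n) : dσ h z (Df n m i z w) = 0 := by
  have ha := (h.lb.cover (i z)).choose_spec
  have h1 := dd_comp (s_hol h ha) (h.emb.hol.at z) (at_chart z) (at_chart (i z))
  rw [dd_congr (b := fun _ => 0) ((h.emb.hol.cont.continuousAt.eventually
    ((h.lb.isOpen _).mem_nhds ha)).mono fun y hy => s_zero h hy) (at_chart z)] at h1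
  have h2 : dd (fun _ : Z.X => (0 : ℂ)) (chartAt (Cm n) z) z = 0 := fderiv_const_apply _
  have h3 := DFunLike.congr_fun (h1.symm.trans h2) w
  exact funext fun _ => (congrArg (_ * ·) h3).trans (mul_zero _)

theorem ds_ex (h : Cut L s i) (z : Z.X) : Function.Exact (Df n m i z) (dσ h z) := by
  have h1 := (dσ h z).finrank_range_add_finrank_ker
  rw [LinearMap.range_eq_top.2 (ds_surj h z), finrank_top, Module.finrank_fin_fun,
    Module.finrank_fin_fun] at h1
  have h2 := LinearMap.finrank_range_of_inj (f := Df n m i z)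
    (h.emb.imm z _ _ (at_chart z) (at_chart _))
  rw [Module.finrank_fin_fun] at h2
  refine LinearMap.exact_iff.2 (Submodule.eq_of_le_of_finrank_eq ?_ ?_).symm
  · rintro _ ⟨w, rfl⟩
    exact ds_df h z w
  · have := h.dim
    omega

theorem ds_hom (h : Cut L s i) :
    IsHom n ((VB.tan m V.X).pull i) ((VB.ln L).pull i) (dσ h) := fun z => by
  obtain ⟨a, ha⟩ := h.lb.cover (i z)
  have he := at_chart (n := m) (i z)
  refine ⟨_, ((), a), he, ⟨trivial, ha⟩, _,
    VblH.sm_comp (h.emb.hol.at z) (sm_dd (s_hol h ha) he), ?_⟩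
  filter_upwards [h.emb.hol.cont.continuousAt.eventually (at_near he),
    h.emb.hol.cont.continuousAt.eventually ((h.lb.isOpen a).mem_nhds ha)] with y k1 k2
  refine Eq.trans ?_ (congrArg (LinearMap.comp _) (Matrix.toLin'_toMatrix' _).symm)
  refine LinearMap.ext fun v => funext fun _ => ?_
  refine (DFunLike.congr_fun (dd_change h (h.lb.cover (i y)).choose_spec k2 (at_chart _)) _).trans ?_
  exact congrArg (cf L a (i y) * ·)
    (DFunLike.congr_fun (dd_chart (s_hol h k2) (at_chart _) k1) v).symm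

end cut

theorem ps_ln (v : VBL) {T : CT} (hT : T.Ch) {n : ℕ} (V : Mf n) {L : Bd V.X} (hL : IsLB n L)
    (j : ℕ) : T.ps V (VB.ln L) j = T.c1 V L ^ j := by
  rw [VB.ln, hT.tw V _ L (v.triv V 1) hL, Finset.sum_range_succ', hT.zero V _ (v.triv V 1)]
  simp only [hT.triv]
  simp [VB.triv]

section cart
variable {n m n' m' : ℕ} {V : Mf n} {W : Mf m} {V' : Mf n'} {W' : Mf m'}
  {f : V.X → W.X} {g : W'.X → W.X} {f' : V'.X → W'.X} {g' : V'.X → V.X}

theorem df_ker (h : Cart f g f' g') (z : V'.X) (w : LinearMap.ker (Df n' m' f' z)) :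
    Df n m f (g' z) (Df n' n g' z w) = 0 := by
  have h1 := df_comp (h.sf.hol.at _) (h.hg'.at z) (at_chart z) (at_chart _) (at_chart _)
  rw [funext h.comm, df_comp (h.hg.at _) (h.sf'.hol.at z) (at_chart z) (at_chart _)
    (h.comm z ▸ at_chart _)] at h1
  refine (DFunLike.congr_fun h1 w.1).symm.trans ?_
  exact (congrArg (df g _ _ (f' z)) w.2).trans (map_zero _)

/-- the restriction of the differential of `g'` -/
def res (h : Cart f g f' g') (z : V'.X) :
    LinearMap.ker (Df n' m' f' z) →ₗ[ℂ] LinearMap.ker (Df n m f (g' z)) :=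
  ((Df n' n g' z).comp (LinearMap.ker (Df n' m' f' z)).subtype).codRestrict _ (df_ker h z)

theorem res_inj (h : Cart f g f' g') (z : V'.X) : Injective (res h z) :=
  (injective_iff_map_eq_zero _).2 fun w hw =>
    Subtype.ext (h.imm z _ w.2 (congrArg Subtype.val hw))

end cart

end RelH

open RelH in
/-- row REL -/
theorem rel_of (v : VBL) : REL where
  ex {n m V W} f r hf hr :=
    let ⟨ι, O, b, h⟩ := v.ker r (v.tan V) (v.pull _ hf.hol (v.tan W)) (v.df hf.hol)
      (fun x => hf.sbm x _ _ (at_chart x) (at_chart _)) (show r + m = n by omega)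
    ⟨_, ι, O, b, rfl, h⟩
  ps T hT n m V W f hf r E := by
    rintro ⟨ι, O, b, rfl, h⟩
    exact ⟨h.v1, rfl, fun j => by rw [hT.ch.ses V h j, hT.ch.pull hf _ (v.tan W)]⟩
  bc T hT n m n' m' V W V' W' f g f' g' h r E E' := by
    rintro ⟨ι, O, b, rfl, k⟩ ⟨ι', O', b', rfl, k'⟩ j
    have h1 := v.pull _ h.hg' k.v1
    rw [← hT.ch.pull h.hg' _ k.v1]
    refine hT.ch.iso V' (φ := res h) k'.v1 h1 (v.lift h1 (v.pull _ h.hg' k.v2)
      (v.hpull h.hg' k.h1) (fun x => k.inj _) (v.comp k'.v2 k'.h1 (v.df h.hg')))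
      (fun z => ⟨res_inj h z, ?_⟩) j
    exact (LinearMap.injective_iff_surjective_of_finrank_eq_finrank
      ((rk k'.v1 z).trans (rk k.v1 (g' z)).symm)).1 (res_inj h z)
  adj T hT m n V Z L s i h j := by
    have h1 := v.tw V _ L (v.triv V 1) h.lb
    have h2 : Ses n (VB.tan n Z.X) ((VB.tan m V.X).pull i) ((VB.ln L).pull i) (Df n m i) (dσ h) :=
      ⟨v.tan Z, v.pull _ h.emb.hol (v.tan V), v.pull _ h.emb.hol h1, v.df h.emb.hol, ds_hom h,
        fun z => h.emb.imm z _ _ (at_chart z) (at_chart _), ds_ex h, ds_surj h⟩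
    rw [← hT.ch.pull h.emb.hol _ (v.tan V), hT.ch.ses Z h2 j, hT.ch.pull h.emb.hol (VB.ln L) h1,
      ps_ln v hT.ch V h.lb, map_pow]
  one T hT n V E hE hr j := by
    cases j with
    | zero => rw [hT.ch.zero V E hE, hr, pow_zero, Nat.cast_one]
    | succ j => exact pow_of (nE_spec _) (fun j hj => hT.ch.rank V E hE _ (nE_spec _) j (hr ▸ hj)) j

end Vale.Agent.P280Z.Ma
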