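import Vale.Agent.P280Z.Al.Defs

/-!
# P280Z: more numerical properties of a family of rational curves (pure algebra)
-/

noncomputable section

namespace Vale.Agent.P280Z.NS
variable {A B : Type} [CommRing A] [Algebra ℝ A] [CommRing B] [Algebra ℝ B] (S : NS A B)

/-- the classes of type `(p, p)` -/
structure Tys (n k : ℕ) (TA : Subalgebra ℝ A) (TB : Subalgebra ℝ B) : Prop where
  η : S.η ∈ TA
  τ : S.τ ∈ TB
  es : ∀ a ∈ TA, S.es a ∈ TB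
  el : ∀ b ∈ TB, S.el b ∈ TA
  T : ∀ b ∈ TB, S.T b ∈ TB
  prA : ∀ j, ∀ a ∈ TA, S.GX.pr j a ∈ TA
  prB : ∀ j, ∀ b ∈ TB, S.GU.pr j b ∈ TB
  hrX : ∀ i j, i + i + j = n → ∀ a ∈ TA, S.GX.Dg i a → S.η ^ (j + 1) * a = 0 → a ≠ 0 →
    0 < (-1) ^ i * S.GX.int (a * a * S.η ^ j)
  hrK : ∀ i j, i + i + j = k → ∀ x ∈ TB, S.T x = 0 → S.GU.Dg i x → S.aa ^ (j + 1) * x = 0 → x ≠ 0 →
    0 < (-1) ^ i * S.GU.int (S.hh * (x * x * S.aa ^ j))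

/-- the weakly positive classes -/
structure Wps (WA : Set A) (WB : Set B) : Prop where
  oneA : 1 ∈ WA
  oneB : 1 ∈ WB
  η : S.η ∈ WA
  hh : S.hh ∈ WB
  aa : S.aa ∈ WB
  mulA : ∀ a ∈ WA, S.GX.Dg 1 a → ∀ b ∈ WA, a * b ∈ WA
  mulB : ∀ a ∈ WB, S.GU.Dg 1 a → ∀ b ∈ WB, a * b ∈ WB
  es : ∀ a ∈ WA, S.es a ∈ WB
  el : ∀ b ∈ WB, S.el b ∈ WA
  T : ∀ b ∈ WB, S.T b ∈ WB
  intA : ∀ a ∈ WA, 0 ≤ S.GX.int a
  intB : ∀ b ∈ WB, 0 ≤ S.GU.int b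

/-- Hodge theory on the space of curves, of dimension `k` (its ring is the kernel of `T`, its
integral is `x ↦ int (hh * x)`, and `aa` is a Kähler class), types and positivity -/
structure Ex (n k : ℕ) : Prop where
  vol : 0 < S.GU.int (S.hh * S.aa ^ k)
  hlK : ∀ i j, i + i + j = k → (∀ x, S.T x = 0 → S.GU.Dg i x → S.aa ^ j * x = 0 → x = 0) ∧
    ∀ y, S.T y = 0 → S.GU.Dg (i + j) y → ∃ x, S.T x = 0 ∧ S.GU.Dg i x ∧ S.aa ^ j * x = y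
  oneK : ∀ i j, i + i + j = k → ∀ x, S.T x = 0 → S.GU.Dg i x → S.aa ^ (j + 1) * x = 0 →
    (∀ y, S.T y = 0 → S.GU.Dg i y → S.aa ^ (j + 1) * y = 0 → ∃ c : ℝ, y = c • x) → x ≠ 0 →
    0 < (-1) ^ i * S.GU.int (S.hh * (x * x * S.aa ^ j))
  tys : ∃ TA TB, S.Tys n k TA TB
  wps : ∃ WA WB, S.Wps WA WB

end Vale.Agent.P280Z.NS
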