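import Vale.Agent.P280Z.Ma.All
import Vale.Agent.P280Z.Ma.Nx

/-!
# P280Z, block Ma: Hodge theory on the space of curves, types and positivity
-/

open scoped Manifold ContDiff Topology Matrix
open Set Filter
open Vale.Agent.P272.K Vale.Agent.P285.H281.FD Vale.Agent.P281Z Vale.Agent.P280Z.Mp
open Vale.Agent.P277Z.Slc (lin at_chartAt)
open Vale.Agent.P277.HD (pull)

noncomputable section

namespace Vale.Agent.P280Z.Ma

variable {T : CT} {n N r e d D k : ℕ} {V : Mf n} {P : Eqs r N} {pt : Cm N → V.X}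

/-- the relation `2 H = Λ + d τ` -/
theorem rel_c1 (hT : T.OK) (F : Fam V P pt d D k) (H : Hyp V P e pt d) :
    (2 : ℝ) • T.pull F.e_hol (T.c1 V (O1 P pt)) =
      T.pull F.p_hol (T.c1 F.K (Lam F)) + (d : ℝ) • T.c1 F.U (Tb F) := by
  obtain ⟨o1, -⟩ := o1p V P pt H.cone
  obtain ⟨l1, l2, l3⟩ := lbs F H
  have rel := trv_c1 hT F.U _ _ (lb3 (F.e_hol.lb o1) (F.p_hol.lb l1) l2) l3
  simp only [Fin.sum_univ_three, Matrix.cons_val_zero, Matrix.cons_val_one, Matrix.cons_val_two,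
    Matrix.head_cons, Matrix.tail_cons] at rel
  rw [hT.c1.pull F.e_hol _ o1, hT.c1.pull F.p_hol _ l1] at rel
  push_cast at rel
  linear_combination (norm := module) rel

theorem aa_eq (hT : T.OK) (F : Fam V P pt d D k) (H : Hyp V P e pt d) (E : VB F.U.X) :
    (T.ns F.p_hol F.e_hol ((d : ℝ)⁻¹ • T.c1 V (O1 P pt)) (Tb F) E).aa =
      T.pull F.p_hol ((d : ℝ)⁻¹ • T.c1 F.K (Lam F)) := by
  have d0 : (d : ℝ) ≠ 0 := by exact_mod_cast H.pos.ne'
  change T.pull F.e_hol ((d : ℝ)⁻¹ • T.c1 V (O1 P pt)) +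
    (T.pull F.e_hol ((d : ℝ)⁻¹ • T.c1 V (O1 P pt)) - T.c1 F.U (Tb F)) = _
  have h := congrArg ((d : ℝ)⁻¹ • ·) (rel_c1 hT F H)
  simp only [smul_add, smul_smul, inv_mul_cancel₀ d0, one_smul] at h
  simp only [map_smul]
  linear_combination (norm := module) h

/-- the Kähler class on the space of curves -/
theorem kc_lam (hT : T.OK) (F : Fam V P pt d D k) (H : Hyp V P e pt d) :
    T.Kc F.K ((d : ℝ)⁻¹ • T.c1 F.K (Lam F)) :=
  hT.po.smul _ (inv_pos.2 (by exact_mod_cast H.pos)) (hT.c1.pos _ _ (lbs F H).1 (kn F H))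

theorem p_onto (F : Fam V P pt d D k) : Function.Surjective F.p := fun y =>
  let ⟨a, ha, h⟩ := F.pk_onto y
  ⟨F.pu a 1, (F.p_pu a 1 ha one_ne_zero).trans h⟩

theorem conn_K (F : Fam V P pt d D k) (h : ConnectedSpace F.U.X) : ConnectedSpace F.K.X :=
  (p_onto F).connectedSpace F.p_hol.cont

theorem ex_of (hT : T.OK) (F : Fam V P pt d D k) (H : Hyp V P e pt d) {m : ℕ} (E : VB F.U.X)
    (hc : ConnectedSpace F.U.X)
    (h : (T.ns F.p_hol F.e_hol ((d : ℝ)⁻¹ • T.c1 V (O1 P pt)) (Tb F) E).OK0 n m) :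
    (T.ns F.p_hol F.e_hol ((d : ℝ)⁻¹ • T.c1 V (O1 P pt)) (Tb F) E).Ex n k := by
  have sp : Sub (k + 1) k F.p := ⟨F.p_hol, F.p_sbm⟩
  have se : Sub (k + 1) n F.e := ⟨F.e_hol, F.e_sbm⟩
  have ea := aa_eq hT F H E
  have kL := kc_lam hT F H
  have cK := conn_K F hc
  obtain ⟨o1, o2, -⟩ := o1p V P pt H.cone
  have d0 : (0 : ℝ) < d := by exact_mod_cast H.pos
  have kη := hT.po.smul _ (inv_pos.2 d0) (hT.c1.pos V _ o1 o2)
  set S := T.ns F.p_hol F.e_hol ((d : ℝ)⁻¹ • T.c1 V (O1 P pt)) (Tb F) E with hS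
  set w := (d : ℝ)⁻¹ • T.c1 F.K (Lam F)
  have p1 : T.pull F.p_hol (T.push F.p S.hh) = 1 := h.Tη
  have a : T.push F.p S.hh = 1 := by
    have g0 : T.Dg F.K 0 (T.push F.p S.hh) := by
      unfold CT.Dg
      rw [hT.pu.deg sp 1 rfl, show T.pr F.U (0 + 1) S.hh = S.hh from dg_pull hT F.e_hol h.dη]
    obtain ⟨c, hc'⟩ := hT.rg.h0 _ cK.toPreconnectedSpace _ g0
    rw [hc', AlgHom.commutes] at p1
    obtain ⟨D', hD, hD'⟩ := h.D
    have b : S.el ((-S.τ) ^ m * algebraMap ℝ _ c) = S.el ((-S.τ) ^ m * 1) := by rw [p1]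
    rw [mul_one, mul_comm, ← Algebra.smul_def, map_smul, hD'] at b
    have b2 := congrArg (fun x => S.GX.int (x * S.η ^ n)) b
    simp only [smul_mul_assoc, ← Algebra.smul_def, map_smul, smul_eq_mul] at b2
    have := mul_right_cancel₀ (mul_pos hD h.vol).ne' (b2.trans (one_mul _).symm)
    rw [hc', this, map_one]
  have pp : ∀ y, T.push F.p (S.hh * T.pull F.p_hol y) = y := fun y => by
    rw [hT.pu.proj sp, a, one_mul]
  have inj : ∀ y, T.pull F.p_hol y = 0 → y = 0 := fun y hy => by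
    rw [← pp y, hy, mul_zero, map_zero]
  have it : ∀ y, S.GU.int (S.hh * T.pull F.p_hol y) = T.int F.K y := fun y => by
    rw [← pp y, hT.pu.int sp, pp y]; rfl
  have t0 : ∀ y, S.T (T.pull F.p_hol y) = 0 := dem_pull hT sp
  have ker : ∀ x, S.T x = 0 → x = T.pull F.p_hol ((2 : ℝ)⁻¹ • T.push F.p (S.τ * x)) := fun x hx => by
    have b := h.lh x
    rw [hx, mul_zero, zero_add] at b
    rw [map_smul]
    change x = (2 : ℝ)⁻¹ • S.T (S.τ * x)
    rw [b, smul_smul, inv_mul_cancel₀ two_ne_zero, one_smul]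
  have dgp : ∀ i y, S.GU.Dg i (T.pull F.p_hol y) → T.Dg F.K i y := fun i y hy => by
    refine sub_eq_zero.1 (inj _ ?_)
    rw [map_sub, hT.rg.pull_pr]
    exact sub_eq_zero.2 hy
  have pw : ∀ j y, S.aa ^ j * T.pull F.p_hol y = T.pull F.p_hol (w ^ j * y) := fun j y => by
    rw [ea, map_mul, map_pow]
  have sq : ∀ j y, T.pull F.p_hol y * T.pull F.p_hol y * S.aa ^ j =
      T.pull F.p_hol (y * y * w ^ j) := fun j y => by rw [ea, map_mul, map_mul, map_pow]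
  have tτ : S.τ ∈ T.Ty F.U := hT.tp.c1 _ _ (lbs F H).2.1
  have wn : ∀ {l : ℕ} {Z : Mf l} {x : T.H Z}, T.Nn Z x → x ∈ T.Wp Z := fun hx => by
    have b := hT.po.wp_mul hx (hT.po.wp_one _)
    rwa [mul_one] at b
  refine ⟨?_, fun i j hij => ⟨fun x hx dx z => ?_, fun y hy dy => ?_⟩,
    fun i j hij x hx dx z u x0 => ?_,
    ⟨T.Ty V, T.Ty F.U, (T.Ty V).smul_mem (hT.tp.c1 _ _ o1) _, tτ,
      fun _ b => hT.tp.pull F.e_hol b, fun _ b => hT.tp.push se b,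
      fun _ b => hT.tp.pull F.p_hol (hT.tp.push sp b), fun j _ b => hT.tp.pr j b,
      fun j _ b => hT.tp.pr j b, hT.ho.hr kη, fun i j hij x tx hx dx z x0 => ?_⟩,
    ⟨T.Wp V, T.Wp F.U, hT.po.wp_one _, hT.po.wp_one _, wn (hT.po.mono kη fun _ => le_top),
      wn (nn_pull hT F.e_hol kη), ea ▸ wn (nn_pull hT F.p_hol kL),
      fun _ b c _ f => hT.po.wp_mul (hT.po.wp_nn b c) f,
      fun _ b c _ f => hT.po.wp_mul (hT.po.wp_nn b c) f, fun _ b => hT.po.wp_pull F.e_hol b,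
      fun _ b => hT.po.wp_push se b, fun _ b => hT.po.wp_pull F.p_hol (hT.po.wp_push sp b),
      fun _ b => hT.po.wp_int b, fun _ b => hT.po.wp_int b⟩⟩
  · rw [ea, ← map_pow, it]
    exact kc_vol hT kL cK.toNonempty.some
  · rw [ker x hx] at dx z ⊢
    rw [pw] at z
    rw [(hT.ho.hl kL i j hij).1 _ (dgp _ _ dx) (inj _ z), map_zero]
  · rw [ker y hy] at dy ⊢
    obtain ⟨x, dx, hx⟩ := (hT.ho.hl kL i j hij).2 _ (dgp _ _ dy)
    exact ⟨_, t0 x, dg_pull hT F.p_hol dx, by rw [pw, hx]⟩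
  · rw [ker x hx] at dx z u x0 ⊢
    rw [pw] at z
    rw [sq, it]
    refine hT.ho.one kL i j hij _ (dgp _ _ dx) (inj _ z) (fun b db zb => ?_)
      fun f => x0 (by rw [f, map_zero])
    obtain ⟨c, hc'⟩ := u _ (t0 b) (dg_pull hT F.p_hol db) (by rw [pw, zb, map_zero])
    exact ⟨c, sub_eq_zero.1 (inj _ (by rw [map_sub, map_smul, hc', sub_self]))⟩
  · have ty := (T.Ty F.K).smul_mem (hT.tp.push sp ((T.Ty F.U).mul_mem tτ tx)) (2 : ℝ)⁻¹
    rw [ker x hx] at dx z x0 ⊢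
    rw [pw] at z
    rw [sq, it]
    exact hT.ho.hr kL i j hij _ ty (dgp _ _ dx) (inj _ z) fun f => x0 (by rw [f, map_zero])

end Vale.Agent.P280Z.Ma
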