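import Vale.Agent.P280Z.Ma.Sk
import Vale.Agent.P280Z.Mp.Bf
import Vale.Agent.P280Z.Mp.Free
import Vale.Agent.P281Z.Mf.Loc

/-!
# P280Z, block Ma: the changes of parametrisation
-/

open scoped Manifold ContDiff Topology Matrix Matrix.Norms.Elementwise
open Set Filter
open Vale.Agent.P272.K Vale.Agent.P281Z Vale.Agent.P280Z.Mp
open Vale.Agent.P280Z.Pu (ap p1 p2)
open Vale.Agent.P277Z (Hol)

noncomputable section

namespace Vale.Agent.P280Z.Ma

namespace Gl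

variable {n N r e d D k : ℕ} {V : Mf n} {P : Eqs r N} {pt : Cm N → V.X}

theorem zz_ne (j : Fin 2) (t : ℂ) : zz j t ≠ 0 := fun h => one_ne_zero (α := ℂ) (by
  simpa only [zz, if_true, Pi.zero_apply] using congrFun h j)

theorem zz_self (j : Fin 2) (t : ℂ) : zz j t j = 1 := if_pos rfl

theorem ex_zz {z : Cm 2} (h : z ≠ 0) : ∃ (j : Fin 2) (t c : ℂ), z = c • zz j t := by
  by_cases h0 : z 0 = 0
  · have h1 : z 1 ≠ 0 := fun h1 => h (funext (Fin.forall_fin_two.2 ⟨h0, h1⟩))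
    exact ⟨1, 0, z 1, funext (Fin.forall_fin_two.2 ⟨by simp [zz, h0], by simp [zz]⟩)⟩
  · exact ⟨0, z 1 / z 0, z 0, funext (Fin.forall_fin_two.2
      ⟨by simp [zz], by simp [zz, mul_div_cancel₀ _ h0]⟩)⟩

theorem mv_ne (hd : 0 < d) {a : BF d N} {g : M2} (h : Nz (act a g)) {z : Cm 2} (hz : z ≠ 0) :
    g *ᵥ z ≠ 0 := fun q => h z hz (by
  rw [ev_act, q, ← zero_smul ℂ z, ev_arg, zero_pow hd.ne', zero_smul])

theorem det_ne (hd : 0 < d) {a : BF d N} {g : M2} (h : Nz (act a g)) : g.det ≠ 0 := fun q =>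
  let ⟨_, hz, q'⟩ := Matrix.exists_mulVec_eq_zero_iff.2 q
  mv_ne hd h hz q'

theorem crv_act {a : BF d N} {g : M2} (h : Crv P a) (hg : g.det ≠ 0) : Crv P (act a g) :=
  fun z hz => by
    rw [ev_act]
    exact h _ fun q => hg (Matrix.exists_mulVec_eq_zero_iff.1 ⟨z, hz, q⟩)

theorem act_inv (a : BF d N) {g : M2} (hg : g.det ≠ 0) : act (act a g) g⁻¹ = a := by
  rw [act_act, Matrix.mul_nonsing_inv _ hg.isUnit, act_one]

theorem inv_act (a : BF d N) {g : M2} (hg : g.det ≠ 0) : act (act a g⁻¹) g = a := by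
  rw [act_act, Matrix.nonsing_inv_mul _ hg.isUnit, act_one]

theorem uniq (hd : 0 < d) (hL : Low P d) {a : BF d N} (h : Crv P a) {g g' : M2} (hg : g.det ≠ 0)
    (q : act a g' = act a g) : ∃ ζ : ℂ, ζ ^ d = 1 ∧ g' = ζ • g := by
  obtain ⟨c, h1, h2⟩ := (free P a hd h).2 hL (g' * g⁻¹) (by rw [← act_act, q, act_inv a hg])
  refine ⟨c, h1, ?_⟩
  rw [← Matrix.nonsing_inv_mul_cancel_right g g' hg.isUnit, h2, Matrix.smul_mul, Matrix.one_mul]

theorem p1_ap (t : Cm k) (z : Cm 1) : p1 k 1 (ap t z) = t := funext fun i => Fin.append_left t z i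

theorem p2_ap (t : Cm k) (z : Cm 1) : p2 k 1 (ap t z) = z := funext fun i => Fin.append_right t z i

theorem ap_p (w : Cm (k + 1)) : ap (p1 k 1 w) (p2 k 1 w) = w := Fin.append_castAdd_natAdd

variable (F : Fam V P pt d D k) (a b : Ix F) (j : Fin 2) {x : F.U.X} {y : F.K.X}

theorem spec : Slice P D a.1 (ck F a).target (sl F a) ∧ ck F a ∈ atlas (Cm k) F.K.X ∧
    (∀ v ∈ (ck F a).target, (ck F a).symm v = F.pk (sl F a v)) ∧
    (∀ v ∈ (ck F a).target, F.M (sl F a v)) ∧ ∀ j, cu F a j ∈ atlas (Cm (k + 1)) F.U.X ∧ (cu F a j).target = p1 k 1 ⁻¹' (ck F a).target ∧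
      ∀ w ∈ (cu F a j).target,
        (cu F a j).symm w = F.pu (sl F a (p1 k 1 w)) (zz j (p2 k 1 w 0)) :=
  (F.chart a.1 a.2).choose_spec.choose_spec.choose_spec

theorem at_ck (h : y ∈ (ck F a).source) : At (ck F a) y := ⟨(spec F a).2.1, h⟩

theorem at_cu (h : x ∈ (cu F a j).source) : At (cu F a j) x := ⟨((spec F a).2.2.2.2 j).1, h⟩

theorem ra_m (h : y ∈ (ck F a).source) : F.M (ra F a y) :=
  (spec F a).2.2.2.1 _ ((ck F a).map_source h)

theorem ra_cd (h : y ∈ (ck F a).source) : CD P D (ra F a y) := F.cd _ (ra_m F a h)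

theorem pk_ra (h : y ∈ (ck F a).source) : F.pk (ra F a y) = y :=
  ((spec F a).2.2.1 _ ((ck F a).map_source h)).symm.trans ((ck F a).left_inv h)

theorem cu_src (h : x ∈ (cu F a j).source) : F.p x ∈ (ck F a).source ∧
    ck F a (F.p x) = p1 k 1 (cu F a j x) ∧ F.pu (ra F a (F.p x)) (rz F a j x) = x := by
  obtain ⟨-, -, h1, s, h2⟩ := spec F a
  obtain ⟨-, h3, h4⟩ := h2 j
  have hw := (cu F a j).map_source h
  have e1 := ((cu F a j).left_inv h).symm.trans (h4 _ hw)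
  rw [h3, mem_preimage] at hw
  have e2 : F.p x = (ck F a).symm (p1 k 1 (cu F a j x)) :=
    ((congrArg F.p e1).trans (F.p_pu _ _ (s _ hw) (zz_ne _ _))).trans (h1 _ hw).symm
  have e3 : ck F a (F.p x) = p1 k 1 (cu F a j x) := by rw [e2, (ck F a).right_inv hw]
  exact ⟨e2 ▸ (ck F a).map_target hw, e3, by rw [ra, e3]; exact e1.symm⟩

theorem cu_eq (h : x ∈ (cu F a j).source) :
    cu F a j x = ap (ck F a (F.p x)) (p2 k 1 (cu F a j x)) := by
  rw [(cu_src F a j h).2.1, ap_p]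

/-- the points with given fibre coordinate -/
theorem pu_zz (h : y ∈ (ck F a).source) (t : ℂ) :
    F.pu (ra F a y) (zz j t) ∈ (cu F a j).source ∧
      cu F a j (F.pu (ra F a y) (zz j t)) = ap (ck F a y) fun _ => t := by
  obtain ⟨-, h3, h4⟩ := (spec F a).2.2.2.2 j
  have hw : ap (ck F a y) (fun _ => t) ∈ (cu F a j).target := by
    rw [h3, mem_preimage, p1_ap]
    exact (ck F a).map_source h
  have e := h4 _ hw
  rw [p1_ap, p2_ap] at e
  rw [ra, ← e]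
  exact ⟨(cu F a j).map_target hw, (cu F a j).right_inv hw⟩

theorem rz_ne (x : F.U.X) : rz F a j x ≠ 0 := zz_ne _ _

theorem rz_self (x : F.U.X) : rz F a j x j = 1 := zz_self _ _

theorem ex_cu (hd : 0 < d) (h : F.p x ∈ (ck F a).source) : ∃ j, x ∈ (cu F a j).source := by
  obtain ⟨a', z, h1, h2, rfl⟩ := F.pu_onto x
  obtain ⟨g, hg⟩ := (F.pk_eq _ a' (ra_m F a h) h1).1 ((pk_ra F a h).trans (F.p_pu _ _ h1 h2))
  obtain ⟨j, t, c, q⟩ := ex_zz (mv_ne hd (hg ▸ (F.cd _ h1).1.nz) h2)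
  refine ⟨j, ?_⟩
  have := (pu_zz F a j h t).1
  rwa [(F.pu_eq _ a' _ z (ra_m F a h) h1 (zz_ne j t) h2).2 ⟨g, c, hg, q⟩] at this

theorem ex_ck (y : F.K.X) : ∃ a, y ∈ (ck F a).source := by
  obtain ⟨a, h, rfl⟩ := F.pk_onto y
  obtain ⟨s, -, h1, -⟩ := spec F ⟨a, h⟩
  have := (ck F ⟨a, h⟩).map_target s.mem
  rw [h1 _ s.mem, s.zero] at this
  exact ⟨_, this⟩

theorem gm_act (h : y ∈ (ck F a).source) (h' : y ∈ (ck F b).source) :
    ra F b y = act (ra F a y) (gm F a b y) := by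
  have q := (F.pk_eq _ _ (ra_m F a h) (ra_m F b h')).1 ((pk_ra F a h).trans (pk_ra F b h').symm)
  rw [gm, dif_pos q]
  exact q.choose_spec

theorem gm_det (hd : 0 < d) (h : y ∈ (ck F a).source) (h' : y ∈ (ck F b).source) :
    (gm F a b y).det ≠ 0 := det_ne hd (gm_act F a b h h' ▸ (ra_cd F b h').1.nz)

theorem ra_an (h : y ∈ (ck F a).source) : AnV k (ra F a) y :=
  (anV_chart (at_ck F a h)).cmp ((spec F a).1.an _ ((ck F a).map_source h))

theorem ra_hol (h : y ∈ (ck F a).source) (i : Fin (d + 1)) (l : Fin N) :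
    Hol k (fun y => ra F a y i l) y := fun c hc =>
  analyticAt_pi_iff.1 (analyticAt_pi_iff.1 (ra_an F a h c hc) i) l

theorem rz_hol (h : x ∈ (cu F a j).source) (i : Fin 2) : Hol (k + 1) (fun x => rz F a j x i) x := by
  by_cases q : i = j
  · simp only [rz, zz, if_pos q]
    exact fun _ _ => analyticAt_const
  · simp only [rz, zz, if_neg q]
    exact hol_chart (at_cu F a j h) _

theorem rz_an (h : x ∈ (cu F a j).source) : AnV (k + 1) (rz F a j) x := .pi (rz_hol F a j h)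

theorem gm_loc (hd : 0 < d) (hL : Low P d) (h : y ∈ (ck F a).source) (h' : y ∈ (ck F b).source) :
    ∃ g : F.K.X → M2, (∀ i j, Hol k (fun y' => g y' i j) y) ∧
      ∀ᶠ y' in 𝓝 y, ∃ ζ : ℂ, ζ ^ d = 1 ∧ gm F a b y' = ζ • g y' := by
  obtain ⟨s, -, h1, hm, -⟩ := spec F a
  have g0 := gm_det F a b hd h h'
  obtain ⟨vv, gg, v1, g1, v2, -, q⟩ := s.loc _ ((ck F a).map_source h)
  have e0 : sl F a (ck F a y) = act (ra F b y) (gm F a b y)⁻¹ := by
    rw [gm_act F a b h h', act_inv _ g0, ra]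
  rw [e0] at v1 g1 v2 q
  have hβ : AnV k (fun y' => act (ra F b y') (gm F a b y)⁻¹) y :=
    (ra_an F b h').cmp (G := fun u => act u (gm F a b y)⁻¹)
      (an_act' contDiffAt_id contDiffAt_const).analyticAt
  have hg : AnV k (fun y' => gg (act (ra F b y') (gm F a b y)⁻¹)) y := hβ.cmp g1
  refine ⟨fun y' => gg (act (ra F b y') (gm F a b y)⁻¹) * gm F a b y, fun i j c hc => ?_, ?_⟩
  · simp only [Matrix.mul_apply]
    exact Finset.analyticAt_fun_sum _ fun l _ =>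
      ((an_ent i l).contDiffAt.analyticAt.fun_comp (hg c hc)).mul analyticAt_const
  filter_upwards [hβ.cont.eventually q, (hβ.cmp v1).cont.eventually
    (s.opn.mem_nhds (mem_of_eq_of_mem v2 ((ck F a).map_source h))), (ck F a).open_source.mem_nhds h,
    (ck F b).open_source.mem_nhds h'] with y' k1 k2 k3 k4
  have c1 := ra_cd F b k4
  have e1 := congrArg (act · (gm F a b y)) (k1 (crv_act c1.1 (by
    rw [Matrix.det_nonsing_inv, Ring.inverse_eq_inv]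
    exact inv_ne_zero g0)))
  simp only [inv_act _ g0] at e1
  rw [act_act] at e1
  have e2 := ((F.pk_eq _ _ (hm _ k2) (ra_m F b k4)).2 ⟨_, e1⟩).trans (pk_ra F b k4)
  rw [← h1 _ k2] at e2
  rw [← (ck F a).right_inv k2, e2] at e1
  exact uniq hd hL (ra_cd F a k3).1 (det_ne hd (e1 ▸ c1.1.nz)) ((gm_act F a b k3 k4).symm.trans e1)

theorem gc_spec (hd : 0 < d) (hL : Low P d) (a b : Ix F × Fin 2) (h : x ∈ (cu F a.1 a.2).source)
    (h' : x ∈ (cu F b.1 b.2).source) :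
    gc F a b x ≠ 0 ∧ gm F a.1 b.1 (F.p x) *ᵥ rz F b.1 b.2 x = gc F a b x • rz F a.1 a.2 x := by
  obtain ⟨h1, -, h2⟩ := cu_src F _ _ h
  obtain ⟨h3, -, h4⟩ := cu_src F _ _ h'
  have c := ra_cd F _ h3
  obtain ⟨g, t, e1, e2⟩ := (F.pu_eq _ _ _ _ (ra_m F _ h1) (ra_m F _ h3) (rz_ne F _ _ x)
    (rz_ne F _ _ x)).1 (h2.trans h4.symm)
  obtain ⟨ζ, -, e3⟩ := uniq hd hL (ra_cd F _ h1).1 (det_ne hd (e1 ▸ c.1.nz))
    ((gm_act F _ _ h1 h3).symm.trans e1)
  have e4 : gm F a.1 b.1 (F.p x) *ᵥ rz F b.1 b.2 x = gc F a b x • rz F a.1 a.2 x := by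
    rw [gc, e3, Matrix.smul_mulVec, e2, smul_smul, Pi.smul_apply, rz_self, smul_eq_mul, mul_one]
  refine ⟨fun q => mv_ne hd (gm_act F _ _ h1 h3 ▸ c.1.nz) (rz_ne F b.1 b.2 x) ?_, e4⟩
  rw [e4, q, zero_smul]

end Gl

open Gl in
/-- row GLOC -/
theorem gloc : GLOC := fun F H =>
  ⟨fun a _ h => ⟨ra_m F a h, pk_ra F a h⟩,
    fun a j _ h => ⟨(cu_src F a j h).1, (cu_src F a j h).2.2⟩, fun a _ => ex_cu F a H.pos, ex_ck F,
    fun a b _ h h' => ⟨gm_det F a b H.pos h h', gm_act F a b h h', gm_loc F a b H.pos H.low h h'⟩,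
    fun a b _ => gc_spec F H.pos H.low a b⟩

end Vale.Agent.P280Z.Ma
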