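import Vale.Agent.P280Z.Ma.KerB
import Vale.Agent.P280Z.Ma.Gloc
import Vale.Agent.P280Z.Mp.Tub

/-!
# P280Z, block Ma, row KER: the kernel of the differential of the evaluation map
-/

open scoped Manifold ContDiff Topology Matrix Matrix.Norms.Elementwise
open Set Filter
open Vale.Agent.P272.K Vale.Agent.P281Z Vale.Agent.P280Z.Mp
open Vale.Agent.P280Z.Pu (ap p1 p2)
open Vale.Agent.P277Z.Slc (at_chartAt)

noncomputable section

namespace Vale.Agent.P280Z.Ma

namespace Ker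

variable {n N r e d D k : ℕ} {V : Mf n} {P : Eqs r N} {pt : Cm N → V.X}
  (F : Fam V P pt d D k) (a : Ix F) (j : Fin 2) {x : F.U.X}

theorem mem (hx : x ∈ (cu F a j).source) : pL k (cu F a j x) ∈ (ck F a).target := by
  have := (cu F a j).map_source hx
  rwa [((Gl.spec F a).2.2.2.2 j).2.1] at this

theorem an (hx : x ∈ (cu F a j).source) : AnalyticAt ℂ (sl F a) (pL k (cu F a j x)) :=
  (Gl.spec F a).1.an _ (mem F a j hx)

theorem ra_eq (hx : x ∈ (cu F a j).source) : ra F a (F.p x) = sl F a (pL k (cu F a j x)) :=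
  congrArg (sl F a) (Gl.cu_src F a j hx).2.1

theorem symm_eq {w : Cm (k + 1)} (hw : pL k w ∈ (ck F a).target) :
    (cu F a j).symm w = F.pu (sl F a (pL k w)) (zz j (tL k w)) :=
  ((Gl.spec F a).2.2.2.2 j).2.2 w (by rwa [((Gl.spec F a).2.2.2.2 j).2.1])

theorem A_inj (hx : x ∈ (cu F a j).source) :
    Function.Injective (A (sl F a) (pL k (cu F a j x))) :=
  (injective_iff_map_eq_zero _).2 fun q hq => by
    rw [show q = (q.1, q.2) from rfl, A_apply (an F a j hx)] at hq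
    obtain ⟨h1, h2⟩ := (Gl.spec F a).1.ind _ (mem F a j hx) _ _ hq
    exact Prod.ext h1 h2

theorem A_mem (H : Hyp V P e pt d) (hx : x ∈ (cu F a j).source) (q : M4 × Cm k) :
    A (sl F a) (pL k (cu F a j x)) q ∈ Tg P (sl F a (pL k (cu F a j x))) := by
  rw [show q = (q.1, q.2) from rfl, A_apply (an F a j hx)]
  exact add_mem (inf_mem (((Gl.spec F a).1.cd _ (mem F a j hx)).1.pv H.cone.hom) _)
    ((Gl.spec F a).1.tg _ (mem F a j hx) _)

theorem A_onto (hx : x ∈ (cu F a j).source) {b : BF d N}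
    (hb : b ∈ Tg P (sl F a (pL k (cu F a j x)))) : ∃ q, b = A (sl F a) (pL k (cu F a j x)) q := by
  obtain ⟨ξ, u, h⟩ := (Gl.spec F a).1.span _ (mem F a j hx) b hb
  exact ⟨(Matrix.of.symm ξ, u), h.trans (A_apply (an F a j hx) _ _).symm⟩

/-- multiplication with a fixed vector -/
def vL (z : Cm 2) : M4 →L[ℂ] Cm 2 := LinearMap.toContinuousLinearMap
  { toFun := fun ξ => Matrix.of ξ *ᵥ z
    map_add' := fun ξ η => Matrix.add_mulVec (Matrix.of ξ) (Matrix.of η) z
    map_smul' := fun c ξ => Matrix.smul_mulVec c (Matrix.of ξ) z }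

theorem quot {γ : ℂ → M4} {ξ : M4} (h : HasDerivAt γ ξ 0) (h0 : γ 0 = 0) (t : ℂ) :
    HasDerivAt (fun s => (zz j t + vL (zz j t) (γ s)) j.rev / (zz j t + vL (zz j t) (γ s)) j)
      (qL j t ξ) 0 ∧ ∀ᶠ s in 𝓝 (0 : ℂ), (zz j t + vL (zz j t) (γ s)) j ≠ 0 := by
  have h1 : HasDerivAt (fun s => zz j t + vL (zz j t) (γ s)) (vL (zz j t) ξ) 0 :=
    ((vL (zz j t)).hasFDerivAt.comp_hasDerivAt 0 h).const_add _
  have h2 := hasDerivAt_pi.1 h1
  have e1 : (zz j t + vL (zz j t) (γ 0)) j = 1 := by rw [h0, map_zero, add_zero, zz_self]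
  have e2 : (zz j t + vL (zz j t) (γ 0)) j.rev = t := by rw [h0, map_zero, add_zero, zz_rev]
  refine ⟨((h2 j.rev).fun_div (h2 j) (e1 ▸ one_ne_zero)).congr_deriv ?_,
    (h2 j).continuousAt.eventually_ne (e1 ▸ one_ne_zero)⟩
  rw [e1, e2, one_pow, div_one, mul_one]
  rfl

/-- the tangent vector of a family of curves with a fixed parameter -/
theorem key (hx : x ∈ (cu F a j).source) {α : ℂ → BF d N} {b : BF d N} (hα : HasDerivAt α b 0)
    (h0 : α 0 = sl F a (pL k (cu F a j x))) (hM : ∀ᶠ s in 𝓝 (0 : ℂ), F.M (α s)) :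
    ∃ q, b = A (sl F a) (pL k (cu F a j x)) q ∧ HasDerivAt
      (fun s => chartAt (Cm (k + 1)) x (F.pu (α s) (rz F a j x)))
      (fr (cu F a j) x (Q k j (tL k (cu F a j x)) q)) 0 := by
  obtain ⟨vv, gg, a1, a2, e1, e2, hev⟩ := (Gl.spec F a).1.loc _ (mem F a j hx)
  rw [← h0] at a1 a2 e1 e2 hev
  obtain ⟨u, hu⟩ : ∃ u, HasDerivAt (fun s => vv (α s)) u 0 :=
    ⟨_, a1.differentiableAt.hasFDerivAt.comp_hasDerivAt 0 hα⟩
  obtain ⟨γ, ξ, hγ, eγ⟩ : ∃ (γ : ℂ → M4) (ξ : M4), HasDerivAt γ ξ 0 ∧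
      ∀ s, gg (α s) = 1 + Matrix.of (γ s) :=
    ⟨fun s => Matrix.of.symm (gg (α s) - 1), _,
      (a2.differentiableAt.hasFDerivAt.comp_hasDerivAt 0 hα).sub_const 1,
      fun s => (add_sub_cancel _ _).symm⟩
  have g0 : γ 0 = 0 := by
    have := e2.symm.trans (eγ 0)
    exact left_eq_add.1 this
  have hact : ∀ᶠ s in 𝓝 (0 : ℂ), α s = act (sl F a (vv (α s))) (1 + Matrix.of (γ s)) := by
    filter_upwards [hα.continuousAt.eventually hev, hM] with s h1 h2
    rw [← eγ]
    exact h1 (F.cd _ h2).1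
  obtain ⟨q1, q2⟩ := quot j hγ g0 (tL k (cu F a j x))
  refine ⟨(ξ, u), ?_, ?_⟩
  · have h1 : HasFDerivAt (G (sl F a)) (A (sl F a) (pL k (cu F a j x))) (γ 0, vv (α 0)) := by
      rw [g0, e1]
      exact G_fd (an F a j hx)
    exact (hα.congr_of_eventuallyEq (hact.mono fun s h => h.symm)).unique
      (HasFDerivAt.comp_hasDerivAt (f := fun s => (γ s, vv (α s))) 0 h1 (hγ.prodMk hu))
  · have h1 := (aL k).hasFDerivAt.comp_hasDerivAt 0 (hu.prodMk q1)
    have h2 : HasFDerivAt (fun w => chartAt (Cm (k + 1)) x ((cu F a j).symm w)) (fr (cu F a j) x)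
        (cu F a j x) :=
      ((holM_id.at x).an (Gl.at_cu F a j hx) (at_chartAt x)).differentiableAt.hasFDerivAt
    refine (h2.comp_hasDerivAt_of_eq 0 h1 ?_).congr_of_eventuallyEq ?_
    · simp only [Function.comp, g0, map_zero, add_zero, zz_self, zz_rev, div_one, e1, aL_self]
    · have h3 : ∀ᶠ s in 𝓝 (0 : ℂ), vv (α s) ∈ (ck F a).target :=
        hu.continuousAt.eventually ((ck F a).open_target.mem_nhds (by
          show vv (α 0) ∈ _
          rw [e1]
          exact mem F a j hx))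
      filter_upwards [h3, hact, hM, q2] with s k1 k2 k3 k4
      refine congrArg _ ?_
      simp only [Function.comp]
      rw [symm_eq F a j (by rw [pL_aL]; exact k1), pL_aL, tL_aL]
      refine ((F.pu_eq _ _ _ _ ((Gl.spec F a).2.2.2.1 _ k1) k3 (zz_ne _ _) (Gl.rz_ne F a j x)).2
        ⟨_, (zz j (tL k (cu F a j x)) + vL (zz j (tL k (cu F a j x))) (γ s)) j, k2, ?_⟩).symm
      rw [Matrix.add_mulVec, Matrix.one_mulVec]
      refine two_ext j ?_ ?_
      · rw [Pi.smul_apply, zz_self, smul_eq_mul, mul_one]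
        rfl
      · rw [Pi.smul_apply, zz_rev, smul_eq_mul, mul_div_cancel₀ _ k4]
        rfl

/-- the differential of `e` -/
theorem de (H : Hyp V P e pt d) (hx : x ∈ (cu F a j).source) : ∃ L : Cm N →L[ℂ] Cm n,
    (∀ y, Df (k + 1) n F.e x (fr (cu F a j) x y) = L (T (sl F a) j (cu F a j x) y)) ∧
    L (ev (sl F a (pL k (cu F a j x))) (zz j (tL k (cu F a j x)))) = 0 ∧
    ∀ η, Jm P (ev (sl F a (pL k (cu F a j x))) (zz j (tL k (cu F a j x)))) *ᵥ η = 0 → L η = 0 →
      ∃ c : ℂ, η = c • ev (sl F a (pL k (cu F a j x))) (zz j (tL k (cu F a j x))) := by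
  have h1 : ∀ w, pL k w ∈ (ck F a).target → In P (ev (sl F a (pL k w)) (zz j (tL k w))) ∧
      F.e ((cu F a j).symm w) = pt (ev (sl F a (pL k w)) (zz j (tL k w))) := fun w hw =>
    ⟨((Gl.spec F a).1.cd _ hw).1 _ (zz_ne _ _), by
      rw [symm_eq F a j hw, F.e_pu _ _ ((Gl.spec F a).2.2.2.1 _ hw) (zz_ne _ _)]⟩
  obtain ⟨h2, h3⟩ := h1 _ (mem F a j hx)
  rw [(cu F a j).left_inv hx] at h3
  have h4 : At (chartAt (Cm n) (F.e x))
      (pt (ev (sl F a (pL k (cu F a j x))) (zz j (tL k (cu F a j x))))) := by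
    rw [← h3]
    exact at_chartAt (F.e x)
  obtain ⟨ρ, lam, a1, -, -, a2, -⟩ := H.cone.loc _ h2 _ h4
  obtain ⟨t1, -, t2⟩ := (tub V P pt H.cone _ h2).2 _ ρ h4 a1 (a2.mono fun y h h' => (h h').2)
  refine ⟨_, fun y => ?_, t1, t2⟩
  have h5 := T_fd j (an F a j hx)
  have h6 := df_comp (f := fun y => y) (g := F.e) (F.e_hol.at x) (holM_id.at x)
    (Gl.at_cu F a j hx) (at_chartAt x) (at_chartAt (F.e x))
  refine (congrArg (· y) h6).symm.trans (congrArg (· y) (HasFDerivAt.fderiv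
    ((a1.differentiableAt.hasFDerivAt.comp (cu F a j x) h5).congr_of_eventuallyEq ?_)))
  filter_upwards [h5.continuousAt.eventually a2, (pL k).continuous.continuousAt.eventually
    ((ck F a).open_target.mem_nhds (mem F a j hx))] with w k1 k2
  rw [(h1 w k2).2]
  exact (k1 (h1 w k2).1).2

/-- the tangent vector does not depend on the chart -/
theorem compat (H : Hyp V P e pt d) (a' : Ix F) (j' : Fin 2) (hx : x ∈ (cu F a j).source)
    (hx' : x ∈ (cu F a' j').source) (q : M4 × Cm k) :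
    ∃ q', act (A (sl F a) (pL k (cu F a j x)) q) (gm F a a' (F.p x)) =
      A (sl F a') (pL k (cu F a' j' x)) q' ∧
      fr (cu F a' j') x (Q k j' (tL k (cu F a' j' x)) q') =
        fr (cu F a j) x (Q k j (tL k (cu F a j x)) q) := by
  obtain ⟨-, -, -, -, g1, g2⟩ := gloc F H
  obtain ⟨g3, g4, -⟩ := g1 a a' _ (Gl.cu_src F a j hx).1 (Gl.cu_src F a' j' hx').1
  obtain ⟨-, g5⟩ := g2 (a, j) (a', j') x hx hx'
  have h1 : HasDerivAt (fun s : ℂ => ((0 : M4), pL k (cu F a j x)) + s • q) q 0 := by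
    simpa using ((hasDerivAt_id (0 : ℂ)).smul_const q).const_add ((0 : M4), pL k (cu F a j x))
  have h2 : HasDerivAt (fun s : ℂ => G (sl F a) (((0 : M4), pL k (cu F a j x)) + s • q))
      (A (sl F a) (pL k (cu F a j x)) q) 0 :=
    (G_fd (an F a j hx)).comp_hasDerivAt_of_eq 0 h1 (by rw [zero_smul, add_zero])
  have h0 : G (sl F a) (((0 : M4), pL k (cu F a j x)) + (0 : ℂ) • q) =
      sl F a (pL k (cu F a j x)) := by
    rw [zero_smul, add_zero]
    unfold G
    rw [show Matrix.of (0 : M4) = 0 from rfl, add_zero, act_one]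
  have hM : ∀ᶠ s in 𝓝 (0 : ℂ), F.M (G (sl F a) (((0 : M4), pL k (cu F a j x)) + s • q)) := by
    have c1 : ContinuousAt (fun s : ℂ => (((0 : M4), pL k (cu F a j x)) + s • q).2) 0 :=
      h1.continuousAt.snd
    have c2 : ContinuousAt (fun s : ℂ =>
        (1 + Matrix.of (((0 : M4), pL k (cu F a j x)) + s • q).1).det) 0 :=
      (continuous_id.matrix_det).continuousAt.comp (f := fun s : ℂ =>
        1 + Matrix.of (((0 : M4), pL k (cu F a j x)) + s • q).1)
        (continuousAt_const.add h1.continuousAt.fst)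
    filter_upwards [c1.eventually ((ck F a).open_target.mem_nhds (by
      simpa using mem F a j hx)), c2.eventually_ne (y := 0) (by
        simp [show Matrix.of (0 : M4) = 0 from rfl])] with s k1 k2
    exact F.inv _ _ ((Gl.spec F a).2.2.2.1 _ k1) k2
  obtain ⟨q₀, e1, d1⟩ := key F a j hx h2 h0 hM
  obtain ⟨q', e2, d2⟩ := key F a' j' hx'
    ((actL d N (gm F a a' (F.p x))).hasFDerivAt.comp_hasDerivAt 0 h2)
    (by rw [← ra_eq F a' j' hx', g4, ra_eq F a j hx, ← h0]; rfl)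
    (hM.mono fun s h => F.inv _ _ h g3)
  rw [← A_inj F a j hx e1] at d1
  refine ⟨q', e2, d2.unique (d1.congr_of_eventuallyEq (hM.mono fun s h => congrArg _ ?_))⟩
  exact ((F.pu_eq _ _ _ _ h (F.inv _ _ h g3) (Gl.rz_ne F a j x) (Gl.rz_ne F a' j' x)).2
    ⟨_, _, rfl, g5⟩).symm

/-- the multiples of the point of the cone -/
def Bq (σ : Cm k → BF d N) (j : Fin 2) (w : Cm (k + 1)) : ℂ →L[ℂ] Cm N :=
  (ContinuousLinearMap.id ℂ ℂ).smulRight (ev (σ (pL k w)) (zz j (tL k w)))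

/-- the correction -/
def Rq (d k : ℕ) (j : Fin 2) (t : ℂ) : ℂ →L[ℂ] M4 × Cm k :=
  (ContinuousLinearMap.id ℂ ℂ).smulRight (mL j ((d : ℂ)⁻¹ • zz j t), 0)

theorem Rq_sm (d k : ℕ) (j : Fin 2) : ContDiff ℂ ∞ (Rq d k j) :=
  contDiff_const.smulRight
    (((mL j).contDiff.comp ((an_zz j).const_smul _)).prodMk contDiff_const)

theorem Bq_sm (hx : x ∈ (cu F a j).source) : ContDiffAt ℂ ∞ (Bq (sl F a) j) (cu F a j x) :=
  contDiffAt_const.smulRight ((an_ev.of_le le_top).contDiffAt.comp (cu F a j x)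
    (f := fun w => (sl F a (pL k w), zz j (tL k w)))
    ((ContDiffAt.comp (g := sl F a) _ (an F a j hx).contDiffAt (pL k).contDiff.contDiffAt).prodMk
      ((an_zz j).comp (tL k).contDiff).contDiffAt))

theorem Bq_inj (hx : x ∈ (cu F a j).source) : Function.Injective (Bq (sl F a) j (cu F a j x)) :=
  smul_left_injective ℂ (((Gl.spec F a).1.cd _ (mem F a j hx)).1 _ (zz_ne _ _)).1

theorem sub_Rq (j : Fin 2) (t c : ℂ) (y : Cm (k + 1)) : K1 k j y - Rq d k j t c =
    (mL j (tL k y • Pi.single j.rev 1 - (c * (d : ℂ)⁻¹) • zz j t), pL k y) := by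
  refine Prod.ext ?_ ?_
  · show mL j _ - c • mL j _ = _
    rw [← map_smul, ← map_sub, smul_smul]
    rfl
  · show pL k y - c • 0 = _
    rw [smul_zero, sub_zero]

theorem Q_S (j : Fin 2) (t c : ℂ) (y : Cm (k + 1)) :
    Q k j t (mL j (tL k y • Pi.single j.rev 1 - c • zz j t), pL k y) = y := by
  have : j ≠ j.rev := by fin_cases j <;> decide
  rw [Q_apply, qL_apply, mL_zz]
  refine (congrArg (fun s => aL k (pL k y, s)) ?_).trans (aL_self y)
  simp [zz_self, zz_rev, Pi.single_eq_of_ne this, mul_comm]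

end Ker

open Ker in
theorem ker : KER := by
  intro n N r e d D k V P pt F H
  obtain ⟨Λ, hΛ⟩ := linv (M4 × Cm k) (BF d N)
  obtain ⟨Λ', hΛ'⟩ := linv ℂ (Cm N)
  refine ⟨fun a j w => (Q k j (tL k w)).comp (Λ (A (sl F a) (pL k w))),
    fun a j w => (A (sl F a) (pL k w)).comp (K1 k j - (Rq d k j (tL k w)).comp
      ((Λ' (Bq (sl F a) j w)).comp (T (sl F a) j w))), fun a j x hx => ?_,
    fun a j a' j' x hx hx' b hb => ?_⟩
  · obtain ⟨l1, l2⟩ := hΛ _ (A_inj F a j hx)
    obtain ⟨l3, l4⟩ := hΛ' _ (Bq_inj F a j hx)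
    obtain ⟨L, e1, e2, e3⟩ := de F a j H hx
    have hA : ContDiffAt ℝ ∞ (fun w => A (sl F a) (pL k w)) (cu F a j x) :=
      (ContDiffAt.comp (g := A (sl F a)) _ (A_sm (an F a j hx))
        (pL k).contDiff.contDiffAt).restrict_scalars ℝ
    have hd : (d : ℂ) ≠ 0 := Nat.cast_ne_zero.2 H.pos.ne'
    rw [ra_eq F a j hx]
    simp only [ContinuousLinearMap.comp_apply]
    refine ⟨cmpR (((Q_sm j).comp (tL k).contDiff).contDiffAt.restrict_scalars ℝ)
      (ContDiffAt.comp (g := Λ) _ l1 hA), cmpR hA (contDiffAt_const.sub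
        (cmpR (((Rq_sm d k j).comp (tL k).contDiff).contDiffAt.restrict_scalars ℝ)
          (cmpR (ContDiffAt.comp (g := Λ') _ l3 ((Bq_sm F a j hx).restrict_scalars ℝ))
            ((T_sm j (an F a j hx)).restrict_scalars ℝ)))), fun b hb h0 => ?_, fun y hy => ?_,
      fun b hb => ?_⟩
    · obtain ⟨q, rfl⟩ := A_onto F a j hx hb
      have h1 := congrArg L (h0.symm.trans (T_Q j (an F a j hx) q.1 q.2))
      rw [map_zero, map_add, map_smul, e2, smul_zero, add_zero] at h1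
      rw [l2, e1]
      exact h1.symm
    · obtain ⟨c, hc⟩ := e3 _ (A_mem F a j H hx (K1 k j y) _) ((e1 y).symm.trans hy)
      have h1 : Λ' (Bq (sl F a) j (cu F a j x)) (T (sl F a) j (cu F a j x) y) = c :=
        (congrArg _ hc).trans (l4 c)
      rw [sub_apply, ContinuousLinearMap.comp_apply, ContinuousLinearMap.comp_apply, h1, sub_Rq, l2]
      refine ⟨A_mem F a j H hx _, ?_, Q_S _ _ _ _⟩
      refine (T_Q j (an F a j hx) _ _).trans ?_
      have : j ≠ j.rev := by fin_cases j <;> decide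
      rw [Q_S, mL_zz, show T (sl F a) j (cu F a j x) y = _ from hc, ← add_smul]
      simp [zz_self, Pi.single_eq_of_ne this, hd]
    · constructor
      · intro h0
        obtain ⟨⟨ξ, u⟩, rfl⟩ := A_onto F a j hx hb
        rw [l2, Q_apply] at h0
        have h1 : u = 0 := (pL_aL _ _).symm.trans ((congrArg (pL k) h0).trans (map_zero _))
        have h2 := (tL_aL _ _).symm.trans ((congrArg (tL k) h0).trans (map_zero _))
        refine ⟨Matrix.of ξ, by rw [A_apply (an F a j hx), h1, map_zero, add_zero],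
          (Matrix.of ξ *ᵥ rz F a j x) j, two_ext j ?_ ?_⟩
        · rw [Pi.smul_apply, Gl.rz_self, smul_eq_mul, mul_one]
        · rw [Pi.smul_apply, smul_eq_mul, mul_comm]
          exact (sub_eq_zero.1 h2).trans (congrArg (· * _) (zz_rev j _).symm)
      · rintro ⟨ξ, h1, c, h2⟩
        have h3 : b = A (sl F a) (pL k (cu F a j x)) (Matrix.of.symm ξ, 0) := by
          rw [A_apply (an F a j hx), map_zero, add_zero]
          exact h1
        have h4 : qL j (tL k (cu F a j x)) (Matrix.of.symm ξ) = 0 := by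
          show (ξ *ᵥ rz F a j x) j.rev - tL k (cu F a j x) * (ξ *ᵥ rz F a j x) j = 0
          rw [h2, Pi.smul_apply, Pi.smul_apply, Gl.rz_self, smul_eq_mul, smul_eq_mul, mul_one,
            mul_comm, show rz F a j x j.rev = tL k (cu F a j x) from zz_rev j _, sub_self]
        rw [h3, l2, Q_apply, h4]
        exact map_zero _
  · rw [ra_eq F a j hx] at hb
    obtain ⟨q, rfl⟩ := A_onto F a j hx hb
    obtain ⟨q', e1, e2⟩ := compat F a j H a' j' hx hx' q
    simp only [ContinuousLinearMap.comp_apply]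
    rw [e1, (hΛ _ (A_inj F a j hx)).2, (hΛ _ (A_inj F a' j' hx')).2, e2]

theorem ker_of (_ : GLOC) (_ : TUB) : KER := ker

end Vale.Agent.P280Z.Ma
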