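import Vale.Agent.P280Z.Ma.Sk
import Vale.Agent.P280Z.Mp.Bf
import Mathlib.Analysis.Matrix.PosDef
import Mathlib.Analysis.Complex.RealDeriv

/-!
# P280Z, block Ma: the balanced parametrisation (row KN1)
-/

open scoped Topology Matrix Matrix.Norms.Elementwise ComplexOrder
open Set Filter
open Vale.Agent.P272.K Vale.Agent.P280Z.Mp

noncomputable section

namespace Vale.Agent.P280Z.Ma

namespace Kn1

variable {d N : ℕ}

theorem ch_ne (j : Fin (d + 1)) : (d.choose j : ℂ) ≠ 0 :=
  Nat.cast_ne_zero.2 (Nat.choose_pos j.is_le).ne'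

theorem ip_star (a b : BF d N) : star (ipB a b) = ipB b a := by
  simp only [ipB, star_sum, star_div₀, star_mul, star_star, star_natCast]

theorem ip_add (a a' b : BF d N) : ipB (a + a') b = ipB a b + ipB a' b := by
  simp only [ipB, Pi.add_apply, add_mul, add_div, Finset.sum_add_distrib]

theorem ip_smul (c : ℂ) (a b : BF d N) : ipB (c • a) b = c * ipB a b := by
  simp only [ipB, Pi.smul_apply, smul_eq_mul, Finset.mul_sum, mul_assoc, mul_div_assoc]

/-- the reproducing kernels -/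
def kr (d : ℕ) {N : ℕ} (y : Cm 2) (l : Fin N) : BF d N := fun j =>
  ((d.choose j : ℂ) * star (y 0 ^ (d - j.val) * y 1 ^ j.val)) • (Pi.single l 1 : Cm N)

theorem ip_kr (a : BF d N) (y : Cm 2) (l : Fin N) : ipB a (kr d y l) = ev a y l := by
  simp only [ipB, ev, Finset.sum_apply, Pi.smul_apply, smul_eq_mul]
  refine Finset.sum_congr rfl fun j _ => ?_
  rw [Finset.sum_eq_single l (fun k _ hk => by simp [kr, Pi.single_eq_of_ne hk])
    fun h => absurd (Finset.mem_univ _) h]
  simp only [kr, Pi.smul_apply, Pi.single_eq_same, smul_eq_mul, mul_one, star_mul, star_star,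
    star_natCast]
  field_simp [ch_ne j]

theorem ev_kr (y z : Cm 2) (l : Fin N) :
    ev (kr d y l) z = (star y ⬝ᵥ z) ^ d • (Pi.single l 1 : Cm N) := by
  simp only [ev, kr, smul_smul, ← Finset.sum_smul]
  refine congrArg (· • (Pi.single l 1 : Cm N)) ?_
  rw [dotProduct, Fin.sum_univ_two, add_comm (star y 0 * z 0), add_pow, Finset.sum_range]
  refine Finset.sum_congr rfl fun j _ => ?_
  simp only [Pi.star_apply, star_mul, star_pow, mul_pow]
  ring

theorem act_kr (y : Cm 2) (l : Fin N) (g : M2) : act (kr d y l) g = kr d (gᴴ *ᵥ y) l :=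
  ev_inj fun z => by
    rw [ev_act, ev_kr, ev_kr, Matrix.star_mulVec, Matrix.conjTranspose_conjTranspose,
      Matrix.dotProduct_mulVec]

theorem rep (φ : BF d N →ₗ[ℂ] ℂ) : ∃ c, ∀ a, φ a = ipB a c := by
  refine ⟨fun j l => star (φ (Pi.single j (Pi.single l 1))) * (d.choose j : ℂ), fun a => ?_⟩
  have e : a = ∑ j, ∑ l, a j l • (Pi.single j (Pi.single l 1) : BF d N) := by
    funext j l
    simp [Finset.sum_apply, Pi.single_apply, ite_apply]
  conv_lhs => rw [e]
  simp only [map_sum, map_smul, ipB, smul_eq_mul, star_mul, star_star, star_natCast]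
  refine Finset.sum_congr rfl fun j _ => Finset.sum_congr rfl fun l _ => ?_
  field_simp [ch_ne j]

theorem adj (a b : BF d N) (g : M2) : ipB (act a g) b = ipB a (act b gᴴ) := by
  obtain ⟨c, hc⟩ := rep (d := d) (N := N) ⟨⟨fun a => ipB (act a g) b, fun a a' => by
    rw [← ip_add, show act (a + a') g = act a g + act a' g from ev_inj fun z => by
      rw [ev_add, ev_act, ev_act, ev_act, ev_add]]⟩, fun c a => by
    show ipB (act (c • a) g) b = c * ipB (act a g) b
    rw [← ip_smul, show act (c • a) g = c • act a g from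
      ev_inj fun z => by rw [ev_smul, ev_act, ev_act, ev_smul]]⟩
  have hc' : ∀ a, ipB (act a g) b = ipB a c := hc
  rw [hc', show c = act b gᴴ from ev_inj fun y => funext fun l => by
    rw [← ip_kr, ← ip_star, ← hc', act_kr, ip_star, ip_kr, ev_act]]

theorem d_act (a : BF d N) (ξ : M2) (j : Fin (d + 1)) (l : Fin N) :
    HasDerivAt (fun s : ℝ => act a (1 + (s : ℂ) • ξ) j l) (inf a ξ j l) 0 := by
  have h1 : HasDerivAt (fun s : ℂ => ((a, 1 + s • ξ) : BF d N × M2)) (0, ξ) 0 := by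
    have h := ((hasDerivAt_id (0 : ℂ)).smul_const ξ).const_add (1 : M2)
    rw [one_smul] at h
    exact (hasDerivAt_const _ a).prodMk h
  have h2 := (an_act (d := d) (N := N)).differentiable (by simp) (a, 1 + (0 : ℂ) • ξ)
  have h3 := h2.hasFDerivAt.comp_hasDerivAt (0 : ℂ) h1
  rw [zero_smul, add_zero] at h3
  have h4 : HasDerivAt (fun s : ℂ => act a (1 + s • ξ) j l) (inf a ξ j l) ((0 : ℝ) : ℂ) :=
    hasDerivAt_pi.1 (hasDerivAt_pi.1 (h3.congr_deriv ((fd_act a 0 ξ).trans (zero_add _))) j) l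
  exact h4.comp_ofReal

theorem d_ip {α β : ℝ → BF d N} {α' β' : BF d N}
    (hα : ∀ j l, HasDerivAt (fun s => α s j l) (α' j l) 0)
    (hβ : ∀ j l, HasDerivAt (fun s => β s j l) (β' j l) 0) :
    HasDerivAt (fun s => ipB (α s) (β s)) (ipB α' (β 0) + ipB (α 0) β') 0 := by
  have h := HasDerivAt.fun_sum fun (j : Fin (d + 1)) (_ : j ∈ Finset.univ) =>
    HasDerivAt.fun_sum fun (l : Fin N) (_ : l ∈ Finset.univ) =>
      ((hα j l).fun_mul (hβ j l).star).div_const (d.choose j : ℂ)
  simp only [add_div, Finset.sum_add_distrib] at h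
  exact h

theorem ip_zero (a : BF d N) : ipB a 0 = 0 := by simp [ipB]

theorem zero_ip (a : BF d N) : ipB 0 a = 0 := by simp [ipB]

theorem d_left (a b : BF d N) (ξ : M2) :
    HasDerivAt (fun s : ℝ => ipB (act a (1 + (s : ℂ) • ξ)) b) (ipB (inf a ξ) b) 0 := by
  have h := d_ip (β := fun _ => b) (β' := 0) (d_act a ξ) fun j l => hasDerivAt_const _ _
  rwa [ip_zero, add_zero] at h

theorem adj' (a b : BF d N) (ξ : M2) : ipB (inf a ξ) b = ipB a (inf b ξᴴ) := by
  have h := d_ip (α := fun _ => a) (α' := 0) (fun j l => hasDerivAt_const _ _) (d_act b ξᴴ)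
  rw [zero_ip, zero_add] at h
  refine (d_left a b ξ).unique (h.congr_of_eventuallyEq (Eventually.of_forall fun s => ?_))
  simp only [adj, Matrix.conjTranspose_add, Matrix.conjTranspose_one, Matrix.conjTranspose_smul,
    Complex.star_def, Complex.conj_ofReal]

/-- the weights -/
def wt (a : BF d N) (j : Fin (d + 1)) : ℝ := ∑ l, ‖a j l‖ ^ 2 / (d.choose j : ℝ)

theorem wt_nonneg (a : BF d N) (j : Fin (d + 1)) : 0 ≤ wt a j :=
  Finset.sum_nonneg fun _ _ => by positivity

theorem ip_wt (a : BF d N) (c : Fin (d + 1) → ℂ) :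
    ipB (fun j => c j • a j) a = ∑ j, c j * wt a j := by
  simp only [ipB, wt, Pi.smul_apply, smul_eq_mul, Complex.ofReal_sum, Finset.mul_sum]
  refine Finset.sum_congr rfl fun j _ => Finset.sum_congr rfl fun l _ => ?_
  rw [mul_assoc, Complex.star_def, Complex.mul_conj']
  push_cast
  ring

theorem ip_self (a : BF d N) : (ipB a a).re = ∑ j, wt a j := by
  have h := ip_wt a fun _ => 1
  simp only [one_smul, one_mul] at h
  rw [show ipB a a = _ from h, ← Complex.ofReal_sum, Complex.ofReal_re]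

theorem ip_pos {a : BF d N} (h : a ≠ 0) : 0 < (ipB a a).re := by
  obtain ⟨j, hj⟩ := Function.ne_iff.1 h
  obtain ⟨l, hl⟩ := Function.ne_iff.1 hj
  rw [ip_self]
  refine Finset.sum_pos' (fun j _ => wt_nonneg a j) ⟨j, Finset.mem_univ _, ?_⟩
  refine Finset.sum_pos' (fun _ _ => by positivity) ⟨l, Finset.mem_univ _, ?_⟩
  exact div_pos (pow_pos (norm_pos_iff.2 hl) 2) (Nat.cast_pos.2 (Nat.choose_pos j.is_le))

theorem act_diag (a : BF d N) (x : Fin 2 → ℂ) :
    act a (Matrix.diagonal x) = fun j => (x 0 ^ (d - j.val) * x 1 ^ j.val) • a j :=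
  ev_inj fun z => by
    rw [ev_act]
    simp only [ev, Matrix.mulVec_diagonal, smul_smul, mul_pow]
    exact Finset.sum_congr rfl fun j _ => congrArg (· • a j) (by ring)

theorem bal_unit {a : BF d N} (h : Bal a) {u : M2} (hu : u * uᴴ = 1) : Bal (act a u) := fun ξ => by
  have h1 := d_left a a (u * ξ * uᴴ)
  rw [h, Matrix.trace_mul_cycle, mul_eq_one_comm.1 hu, one_mul] at h1
  refine (d_left _ _ ξ).unique (h1.congr_of_eventuallyEq (Eventually.of_forall fun s => ?_))
  have e := adj (act (act a u) (1 + (s : ℂ) • ξ)) a uᴴ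
  rw [Matrix.conjTranspose_conjTranspose] at e
  refine e.symm.trans ?_
  simp only [act_act, mul_add, add_mul, mul_one, hu, Matrix.mul_smul, Matrix.smul_mul]

theorem bal_diag {a : BF d N} (h : Bal a) (x : Fin 2 → ℝ) :
    ∑ j : Fin (d + 1), (((d - j.val : ℕ) : ℝ) * x 0 + (j.val : ℝ) * x 1) * wt a j = x 0 + x 1 := by
  have h1 := d_left a a (Matrix.diagonal fun i => (x i : ℂ))
  rw [h, Matrix.trace_diagonal, Fin.sum_univ_two] at h1
  have h0 : ∀ i, HasDerivAt (fun s : ℝ => 1 + s * x i) (x i) 0 := fun i => by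
    simpa using ((hasDerivAt_id (0 : ℝ)).mul_const (x i)).const_add 1
  have h2 := (HasDerivAt.fun_sum fun (j : Fin (d + 1)) (_ : j ∈ Finset.univ) =>
    (((h0 0).fun_pow (d - j.val)).fun_mul ((h0 1).fun_pow j.val)).mul_const (wt a j)).ofReal_comp
  have h3 := h1.unique (h2.congr_of_eventuallyEq (Eventually.of_forall fun s => by
    have e : (1 : M2) + (s : ℂ) • (Matrix.diagonal fun i => (x i : ℂ)) =
        Matrix.diagonal fun i => 1 + (s : ℂ) * x i := by
      rw [← Matrix.diagonal_one, ← Matrix.diagonal_smul, Matrix.diagonal_add]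
      rfl
    simp only [e, act_diag, ip_wt]
    push_cast
    rfl))
  simp only [zero_mul, add_zero, one_pow, mul_one, one_mul] at h3
  exact_mod_cast h3.symm

theorem min {a : BF d N} (h : Bal a) (g : M2) (hg : g.det ≠ 0) : Fk a 1 ≤ Fk a g := by
  have hP := Matrix.posSemidef_self_mul_conjTranspose g
  obtain ⟨u, lam, hu, h0, e⟩ : ∃ (u : M2) (lam : Fin 2 → ℝ), u * uᴴ = 1 ∧ (∀ i, 0 ≤ lam i) ∧
      g * gᴴ = u * (Matrix.diagonal fun i => (lam i : ℂ)) * uᴴ :=
    ⟨hP.1.eigenvectorUnitary, hP.1.eigenvalues, hP.1.eigenvectorUnitary.2.2,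
      hP.eigenvalues_nonneg, hP.1.spectral_theorem⟩
  have hd : ‖g.det‖ ^ 2 = lam 0 * lam 1 := by
    have h1 := congrArg Matrix.det e
    have h2 := congrArg Matrix.det hu
    rw [Matrix.det_mul, Matrix.det_one] at h2
    rw [Matrix.det_mul, Matrix.det_mul, Matrix.det_mul, Matrix.det_diagonal, Fin.prod_univ_two,
      mul_right_comm, h2, one_mul, Matrix.det_conjTranspose, Complex.star_def,
      Complex.mul_conj'] at h1
    exact_mod_cast h1
  have hp : 0 < lam 0 * lam 1 := hd ▸ pow_pos (norm_pos_iff.2 hg) 2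
  have p0 : 0 < lam 0 := (h0 0).lt_of_ne fun k => by simp [← k] at hp
  have p1 : 0 < lam 1 := (h0 1).lt_of_ne fun k => by simp [← k] at hp
  have e1 : (ipB a a).re = ∑ j, wt (act a u) j := by
    rw [← ip_self, adj, act_act, hu, act_one]
  have e2 : (ipB (act a g) (act a g)).re =
      ∑ j : Fin (d + 1), lam 0 ^ (d - j.val) * lam 1 ^ j.val * wt (act a u) j := by
    rw [adj, act_act, e, ← act_act, ← adj, ← act_act, ← ip_star, act_diag, ip_wt,
      Complex.star_def, Complex.conj_re]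
    exact_mod_cast rfl
  have e3 := bal_diag (bal_unit h hu) fun i => Real.log (lam i)
  rw [Fk, Fk, act_one, e1, e2, hd, Real.log_mul p0.ne' p1.ne', ← e3, Matrix.det_one, norm_one,
    one_pow, Real.log_one, sub_zero, le_sub_iff_add_le, ← Finset.sum_add_distrib]
  refine Finset.sum_le_sum fun j _ => ?_
  have e4 := Real.add_one_le_exp (((d - j.val : ℕ) : ℝ) * Real.log (lam 0) +
    (j.val : ℝ) * Real.log (lam 1))
  rw [Real.exp_add, Real.exp_nat_mul, Real.exp_nat_mul, Real.exp_log p0, Real.exp_log p1] at e4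
  nlinarith [mul_le_mul_of_nonneg_right e4 (wt_nonneg (act a u) j)]

theorem cont_n (a : BF d N) : Continuous fun g : M2 => (ipB (act a g) (act a g)).re := by
  have h : Continuous fun g : M2 => act a g :=
    an_act.continuous.comp (f := fun g : M2 => (a, g)) (by fun_prop)
  simp only [ip_self, wt]
  fun_prop

theorem low (a : BF d N) (ha : Nz a) :
    ∃ c : ℝ, 0 < c ∧ ∀ g : M2, c * (‖g‖ ^ d) ^ 2 ≤ (ipB (act a g) (act a g)).re := by
  have hn : (Metric.sphere (0 : M2) 1).Nonempty := NormedSpace.sphere_nonempty.2 zero_le_one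
  obtain ⟨g0, h0, h1⟩ := (isCompact_sphere (0 : M2) 1).exists_isMinOn hn (cont_n a).continuousOn
  refine ⟨_, ip_pos (a := act a g0) fun e => ?_, fun g => ?_⟩
  · have h2 : g0 = 0 := Matrix.ext fun i j => by
      have h3 : g0 *ᵥ Pi.single j 1 = 0 := by
        by_contra k
        exact ha _ k (by rw [← ev_act, e, ev_zero])
      simpa using congrFun h3 i
    simp [h2] at h0
  · obtain ⟨u, hu, e⟩ : ∃ u ∈ Metric.sphere (0 : M2) 1, g = (‖g‖ : ℂ) • u := by
      by_cases hz : g = 0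
      · exact ⟨g0, h0, by simp [hz]⟩
      · have h4 : (‖g‖ : ℂ) ≠ 0 := by simpa using hz
        exact ⟨(‖g‖ : ℂ)⁻¹ • g, by simp [norm_smul, hz], by rw [smul_inv_smul₀ h4]⟩
    have h5 : (ipB (act a g) (act a g)).re = (ipB (act a u) (act a u)).re * (‖g‖ ^ d) ^ 2 := by
      conv_lhs => rw [e, act_smul, ip_smul, ← ip_star, ip_smul, star_mul, ip_star]
      rw [← Complex.ofReal_pow, Complex.star_def, Complex.conj_ofReal, Complex.re_ofReal_mul,
        Complex.re_mul_ofReal]
      ring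
    rw [h5]
    exact mul_le_mul_of_nonneg_right (h1 hu) (by positivity)

theorem det_le (g : M2) : ‖g.det‖ ≤ 2 * ‖g‖ ^ 2 := by
  have h := fun i j => Matrix.norm_entry_le_entrywise_sup_norm g (i := i) (j := j)
  have k : ∀ i j i' j', ‖g i j * g i' j'‖ ≤ ‖g‖ ^ 2 := fun i j i' j' => by
    rw [norm_mul, sq]
    exact mul_le_mul (h _ _) (h _ _) (norm_nonneg _) (norm_nonneg _)
  rw [Matrix.det_fin_two]
  linarith [norm_sub_le (g 0 0 * g 1 1) (g 0 1 * g 1 0), k 0 0 1 1, k 0 1 1 0]

theorem d_det (ξ : M2) :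
    HasDerivAt (fun s : ℝ => ‖(1 + (s : ℂ) • ξ).det‖ ^ 2) (2 * ξ.trace.re) 0 := by
  have h0 : ∀ i j, HasDerivAt (fun s : ℝ => (1 + (s : ℂ) • ξ) i j) (ξ i j) 0 := fun i j => by
    simpa using ((Complex.ofRealCLM.hasDerivAt (x := 0)).mul_const (ξ i j)).const_add
      ((1 : M2) i j)
  have h1 : HasDerivAt (fun s : ℝ => (1 + (s : ℂ) • ξ).det) ξ.trace 0 := by
    have h := ((h0 0 0).fun_mul (h0 1 1)).fun_sub ((h0 0 1).fun_mul (h0 1 0))
    simp only [← Matrix.det_fin_two] at h
    refine h.congr_deriv ?_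
    simp [Matrix.trace_fin_two]
  have h2 := Complex.reCLM.hasFDerivAt.comp_hasDerivAt (0 : ℝ) (h1.fun_mul h1.star)
  refine (h2.congr_of_eventuallyEq (Eventually.of_forall fun s => ?_)).congr_deriv ?_
  · simp only [Function.comp_apply, Complex.reCLM_apply, Complex.star_def, Complex.mul_conj']
    exact_mod_cast rfl
  · simp [two_mul]

/-- the function which is maximised -/
def GG (a : BF d N) (g : M2) : ℝ := ‖g.det‖ ^ 2 * Real.exp (-(ipB (act a g) (act a g)).re)

theorem ex_max (a : BF d N) (hd : 0 < d) (ha : Nz a) : ∃ g : M2, ∀ g', GG a g' ≤ GG a g := by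
  obtain ⟨c, hc, h1⟩ := low a ha
  have hG : Continuous (GG a) :=
    ((continuous_id.matrix_det.norm).pow 2).mul (Real.continuous_exp.comp (cont_n a).neg)
  have G1 : 0 < GG a 1 := mul_pos (by simp) (Real.exp_pos _)
  have t0 : Tendsto (fun g : M2 => ‖g‖) (cocompact M2) atTop := tendsto_norm_cocompact_atTop
  have t2 := ((Real.tendsto_pow_mul_exp_neg_atTop_nhds_zero 4).comp
    (t0.const_mul_atTop hc)).const_mul (4 / c ^ 4)
  rw [mul_zero] at t2
  refine hG.exists_forall_ge' 1 ?_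
  filter_upwards [t2.eventually (gt_mem_nhds G1), t0.eventually_ge_atTop 1] with g k1 k2
  refine le_trans ?_ k1.le
  have k3 : c * ‖g‖ ≤ (ipB (act a g) (act a g)).re := by
    refine le_trans (mul_le_mul_of_nonneg_left ?_ hc.le) (h1 g)
    rw [← pow_mul]
    exact le_self_pow₀ k2 (by omega)
  have k4 : ‖g.det‖ ^ 2 ≤ 4 / c ^ 4 * (c * ‖g‖) ^ 4 := by
    refine (pow_le_pow_left₀ (norm_nonneg _) (det_le g) 2).trans_eq ?_
    field_simp
    ring
  rw [Function.comp_apply, ← mul_assoc]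
  exact mul_le_mul k4 (Real.exp_le_exp.2 (neg_le_neg k3)) (Real.exp_pos _).le (by positivity)

theorem d_n (a : BF d N) (ξ : M2) : HasDerivAt
    (fun s : ℝ => (ipB (act a (1 + (s : ℂ) • ξ)) (act a (1 + (s : ℂ) • ξ))).re)
    (2 * (ipB (inf a ξ) a).re) 0 := by
  have k1 := d_ip (d_act a ξ) (d_act a ξ)
  simp only [Complex.ofReal_zero, zero_smul, add_zero, act_one] at k1
  refine (Complex.reCLM.hasFDerivAt.comp_hasDerivAt (0 : ℝ) k1).congr_deriv ?_
  rw [Complex.reCLM_apply, Complex.add_re, ← ip_star (inf a ξ) a, Complex.star_def,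
    Complex.conj_re, two_mul]

theorem crit {a : BF d N} (h : ∀ g, GG a g ≤ GG a 1) (ξ : M2) :
    (ipB (inf a ξ) a).re = ξ.trace.re := by
  have k3 := (d_det ξ).fun_mul (d_n a ξ).fun_neg.exp
  have k4 : IsLocalMax (fun s : ℝ => GG a (1 + (s : ℂ) • ξ)) 0 := Eventually.of_forall fun s => by
    simpa using h (1 + (s : ℂ) • ξ)
  have k5 := k4.hasDerivAt_eq_zero k3
  simp only [Complex.ofReal_zero, zero_smul, add_zero, act_one, Matrix.det_one, norm_one, one_pow,
    one_mul] at k5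
  refine mul_left_cancel₀ (Real.exp_pos (-(ipB a a).re)).ne' ?_
  linarith

theorem ex (a : BF d N) (hd : 0 < d) (ha : Nz a) : ∃ g : M2, g.det ≠ 0 ∧ Bal (act a g) := by
  obtain ⟨g, hg⟩ := ex_max a hd ha
  have hg0 : g.det ≠ 0 := fun e => by
    have k := (mul_pos (by simp) (Real.exp_pos _) : 0 < GG a 1).trans_le (hg 1)
    simp [GG, e] at k
  have e : ∀ g', GG a (g * g') = ‖g.det‖ ^ 2 * GG (act a g) g' := fun g' => by
    rw [GG, GG, Matrix.det_mul, norm_mul, mul_pow, act_act, mul_assoc]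
  have key := crit (a := act a g) fun g' =>
    le_of_mul_le_mul_left (a := ‖g.det‖ ^ 2) (by
      rw [← e, ← e, mul_one]
      exact hg _) (pow_pos (norm_pos_iff.2 hg0) 2)
  refine ⟨g, hg0, fun ξ => Complex.ext (key ξ) ?_⟩
  have k := key (Complex.I • ξ)
  rw [show inf (act a g) (Complex.I • ξ) = Complex.I • inf (act a g) ξ from
    (infL (act a g)).map_smul _ _, ip_smul, Matrix.trace_smul, smul_eq_mul, Complex.I_mul_re,
    Complex.I_mul_re] at k
  exact neg_injective k

end Kn1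

/-- row KN1 -/
theorem kn1 : KN1 := ⟨Kn1.adj, Kn1.adj', Kn1.ex, fun _ => Kn1.min⟩

end Vale.Agent.P280Z.Ma
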