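import Vale.Agent.P280Z.Ma.KnaA
import Vale.Agent.P281Z.Hm.Calc

/-!
# P280Z, row KNA: the potential of Kempf and Ness
-/

open scoped ContDiff Topology Matrix Matrix.Norms.Elementwise ComplexOrder
open Set Filter
open Vale.Agent.P272.K Vale.Agent.P280Z.Mp
open Vale.Agent.P284Z (levi cHess_quad cHess_psd_iff diff_fderiv)
open Vale.Agent.P281Z.Hm (levi_comp levi_add levi_const levi_congr)

noncomputable section

namespace Vale.Agent.P280Z.Ma

namespace Kna

variable {d N : ℕ} {a : BF d N} {g : M2}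

/-- the potential -/
def mm (a : BF d N) : ℝ := sInf {t | ∃ g : M2, g.det ≠ 0 ∧ t = Fk a g}

theorem Fk_act (a : BF d N) (hg : g.det ≠ 0) {g' : M2} (hg' : g'.det ≠ 0) :
    Fk (act a g) g' = Fk a (g * g') + Real.log (‖g.det‖ ^ 2) := by
  rw [Fk, Fk, act_act, Matrix.det_mul, norm_mul, mul_pow,
    Real.log_mul (pow_ne_zero _ (norm_ne_zero_iff.2 hg)) (pow_ne_zero _ (norm_ne_zero_iff.2 hg'))]
  ring

theorem an_det : ContDiff ℂ ω fun g : M2 => g.det := by
  simp only [Matrix.det_fin_two]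
  exact ((an_ent 0 0).mul (an_ent 1 1)).sub ((an_ent 0 1).mul (an_ent 1 0))

theorem two_le : (2 : WithTop ℕ∞) ≤ ∞ := by norm_cast

theorem levi_re {E : Type} [NormedAddCommGroup E] [NormedSpace ℝ E] [NormedSpace ℂ E]
    [IsScalarTower ℝ ℂ E] {f : E → ℂ} {z : E} (hf : AnalyticAt ℂ f z) (w : E) :
    levi (fun y => (f y).re) z w = 0 := by
  rw [levi_comp (a := fun t : ℂ => t.re) Complex.reCLM.contDiff.contDiffAt hf, levi,
    show (fderiv ℝ fun t : ℂ => t.re) = fun _ => Complex.reCLM from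
      funext fun t => Complex.reCLM.fderiv]
  simp

theorem dv_Fk (y β : BF d N) (g : M2) : Dv (fun x => Fk x g) y β
    (ipB (act y g) (act β g) + ipB (act β g) (act y g)).re := by
  have h1 : Dv (fun x : BF d N => act x g) y β (act β g) :=
    dv_id.clm ((actL d N g).restrictScalars ℝ)
  have h2 := ((h1.ip h1).clm Complex.reCLM).add (dv_const (-Real.log (‖g.det‖ ^ 2)))
  rw [add_zero] at h2
  exact h2

variable (h : KN1)
include h

theorem least (hg : g.det ≠ 0) (hb : Bal (act a g)) :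
    IsLeast {t | ∃ g : M2, g.det ≠ 0 ∧ t = Fk a g} (Fk a g) := by
  refine ⟨⟨g, hg, rfl⟩, ?_⟩
  rintro _ ⟨g', hg', rfl⟩
  have h1 : (g⁻¹ * g').det ≠ 0 := by
    rw [Matrix.det_mul, Matrix.det_nonsing_inv, Ring.inverse_eq_inv']
    exact mul_ne_zero (inv_ne_zero hg) hg'
  have h2 := h.min _ hb _ h1
  rw [Fk_act a hg h1, Fk_act a hg (by simp), mul_one,
    Matrix.mul_nonsing_inv_cancel_left _ _ hg.isUnit] at h2
  linarith

theorem mm_eq (hg : g.det ≠ 0) (hb : Bal (act a g)) : mm a = Fk a g := (least h hg hb).csInf_eq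

variable (hd : 0 < d) (ha : Nz a)
include hd ha

theorem mm_le (hg : g.det ≠ 0) : mm a ≤ Fk a g := by
  obtain ⟨g', h1, h2⟩ := h.ex a hd ha
  rw [mm_eq h h1 h2]
  exact (least h h1 h2).2 ⟨g, hg, rfl⟩

theorem mm_act (hg : g.det ≠ 0) : mm (act a g) = mm a + Real.log (‖g.det‖ ^ 2) := by
  obtain ⟨g', h1, h2⟩ := h.ex _ hd (ha.act hg)
  rw [mm_eq h h1 h2, Fk_act a hg h1, mm_eq h (a := a) (g := g * g')
    (by rw [Matrix.det_mul]; exact mul_ne_zero hg h1) (by rwa [← act_act])]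

theorem gauge' (hb : Bal a) : ∃ γ : BF d N → M2, ContDiffAt ℝ ∞ γ a ∧ γ a = 1 ∧
    ∀ᶠ y in 𝓝 a, (γ y).det ≠ 0 ∧ mm y = Fk y (γ y) := by
  obtain ⟨γ, h1, h2, h3⟩ := gauge h hd ha hb
  refine ⟨γ, h1, h2, ?_⟩
  filter_upwards [h3, (an_det.continuous.continuousAt.comp h1.continuousAt).eventually_ne
    (y := 0) (by simp [h2])] with y h4 h5
  exact ⟨h5, mm_eq h h5 h4⟩

theorem sm_bal (hb : Bal a) : ContDiffAt ℝ ∞ mm a := by
  obtain ⟨γ, h1, h2, h3⟩ := gauge' h hd ha hb
  have h4 := sm_act contDiffAt_id h1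
  have h5 : ContDiffAt ℝ ∞ (fun y => (γ y).det) a :=
    ((an_det.of_le le_top).restrict_scalars ℝ).contDiffAt.comp a h1
  exact ((Complex.reCLM.contDiff.contDiffAt.comp a (sm_ip h4 h4)).sub
    ((h5.norm_sq ℝ).log (by simp [h2]))).congr_of_eventuallyEq (h3.mono fun y k => k.2)

theorem mm_mv (hg : g.det ≠ 0) :
    (fun y => mm (actL d N g y)) =ᶠ[𝓝 a] fun y => mm y + Real.log (‖g.det‖ ^ 2) :=
  ha.near.mono fun _ k => mm_act h hd k hg

theorem sm_mm : ContDiffAt ℝ ∞ mm a := by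
  obtain ⟨g, h1, h2⟩ := h.ex a hd ha
  refine ((ContDiffAt.comp (f := actL d N g) a (sm_bal h hd (ha.act h1) h2)
    ((actL d N g).restrictScalars ℝ).contDiff.contDiffAt).sub
    (contDiffAt_const (c := Real.log (‖g.det‖ ^ 2)))).congr_of_eventuallyEq ?_
  exact (mm_mv h hd ha h1).mono fun y k => eq_sub_of_add_eq k.symm

theorem env (hg : g.det ≠ 0) (e : mm a = Fk a g) (β : BF d N) :
    fderiv ℝ mm a β = (ipB (act a g) (act β g) + ipB (act β g) (act a g)).re := by
  obtain ⟨L, h1, h2⟩ := dv_Fk a β g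
  have h3 : IsLocalMin (fun x => Fk x g - mm x) a := ha.near.mono fun y k => by
    show Fk a g - mm a ≤ Fk y g - mm y
    rw [e, sub_self]
    exact sub_nonneg.2 (mm_le h hd k hg)
  have h4 := h3.hasFDerivAt_eq_zero
    (h1.sub ((sm_mm h hd ha).differentiableAt (by simp)).hasFDerivAt)
  rw [← sub_eq_zero.1 h4, h2]

theorem hess (hb : Bal a) {β : BF d N} (o : ∀ η, ipB (inf a η) β = 0) :
    fderiv ℝ (fderiv ℝ mm) a β β = 2 * (ipB β β).re := by
  obtain ⟨γ, h1, h2, h3⟩ := gauge' h hd ha hb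
  obtain ⟨ξ, k⟩ : ∃ ξ, Dv γ a β ξ := ⟨_, dv_of (h1.differentiableAt (by simp))⟩
  have u := dv_id.act k h2
  have v := (dv_const β).act k h2
  have h4 := (((u.ip v).add (v.ip u)).clm Complex.reCLM).eq
  have h5 := ((dv_of (v := β) (diff_fderiv ((sm_mm h hd ha).of_le two_le))).clm
    (ContinuousLinearMap.apply ℝ ℝ β)).eq
  have h6 : (fun y => fderiv ℝ mm y β) =ᶠ[𝓝 a] fun y =>
      (ipB (act y (γ y)) (act β (γ y)) + ipB (act β (γ y)) (act y (γ y))).re :=
    (h3.and ha.near).mono fun y k => env h hd k.2 k.1.1 k.1.2 β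
  refine h5.symm.trans ((congrArg (fun L : BF d N →L[ℝ] ℝ => L β) h6.fderiv_eq).trans
    (h4.trans ?_))
  have o' : ∀ η, ipB β (inf a η) = 0 := fun η => by rw [← ip_star, o, star_zero]
  have o2 : ipB (inf β ξ) a = 0 := by rw [h.adj', o']
  have o3 : ipB a (inf β ξ) = 0 := by rw [← ip_star, o2, star_zero]
  simp only [h2, act_one, zero_add, ip_add, ip_add', o, o', o2, o3, add_zero, Complex.reCLM_apply,
    Complex.add_re]
  ring

theorem lv_bal (hb : Bal a) {β : BF d N} (o : ∀ η, ipB (inf a η) β = 0) :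
    levi mm a β = 4 * (ipB β β).re := by
  rw [levi, hess h hd ha hb o, hess h hd ha hb fun η => by rw [ip_smul', o, mul_zero], ip_smul,
    ip_smul']
  simp
  ring

theorem lv_inf (b : BF d N) (ξ : M2) : levi mm a (b + inf a ξ) = levi mm a b := by
  have s := (sm_mm h hd ha).of_le two_le
  have a1 : AnalyticAt ℂ (fun q : BF d N × M2 => act q.1 q.2) (a, 1) :=
    an_act.contDiffAt.analyticAt
  have a2 : AnalyticAt ℂ (fun q : BF d N × M2 => q.2.det) (a, 1) :=
    (an_det.comp contDiff_snd).contDiffAt.analyticAt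
  have a3 : AnalyticAt ℂ (fun q : BF d N × M2 => 2 * Complex.log q.2.det) (a, 1) :=
    analyticAt_const.mul (a2.clog (by simp))
  have h1 := (levi_comp (a := mm) (by rwa [act_one]) a1 (b, ξ)).trans
    (congrArg₂ (levi mm) (act_one a) (fd_act a b ξ))
  have h2 := (levi_comp (a := mm) (g := fun q : BF d N × M2 => q.1) (z := (a, 1)) s analyticAt_fst
    (b, ξ)).trans (congrArg (fun L : BF d N × M2 →L[ℂ] BF d N => levi mm a (L (b, ξ))) fderiv_fst)
  have e : (fun q : BF d N × M2 => mm (act q.1 q.2)) =ᶠ[𝓝 (a, 1)]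
      fun q => mm q.1 + (2 * Complex.log q.2.det).re := by
    filter_upwards [continuousAt_fst.eventually (p := fun y : BF d N => Nz y) ha.near,
      a2.continuousAt.eventually_ne (y := 0) (by simp)] with q k1 k2
    rw [mm_act h hd k1 k2]
    simp [Complex.log_re]
  refine (h1.symm.trans (levi_congr e _)).trans ((levi_add
    (ContDiffAt.comp (f := Prod.fst) (a, (1 : M2)) s contDiffAt_fst)
    (Complex.reCLM.contDiff.contDiffAt.comp _ ((a3.contDiffAt (n := 2)).restrict_scalars ℝ))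
    _).trans ?_)
  exact (congrArg₂ (· + ·) h2 (levi_re a3 _)).trans (add_zero _)

theorem lv_act (hg : g.det ≠ 0) (b : BF d N) : levi mm (act a g) (act b g) = levi mm a b := by
  have h1 := levi_comp (a := mm) (g := actL d N g) (z := a)
    ((sm_mm h hd (ha.act hg)).of_le two_le) ((actL d N g).analyticAt a) b
  rw [ContinuousLinearMap.fderiv, levi_congr (mm_mv h hd ha hg),
    levi_add ((sm_mm h hd ha).of_le two_le) contDiffAt_const, levi_const, add_zero] at h1
  exact h1.symm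

theorem lv_pos {b : BF d N} (hb : ∀ ξ, inf a ξ + b ≠ 0) : 0 < levi mm a b := by
  obtain ⟨g, h1, h2⟩ := h.ex a hd ha
  obtain ⟨ξ, h3⟩ := orth hd (ha.act h1) (act b g)
  rw [← lv_act h hd ha h1, ← lv_inf h hd (ha.act h1) _ ξ, lv_bal h hd (ha.act h1) h2 h3]
  refine mul_pos four_pos (ip_pos fun e => hb (g * ξ * g⁻¹) ?_)
  rw [inf_act a (η := g * ξ * g⁻¹) (Matrix.nonsing_inv_mul_cancel_right _ _ h1.isUnit).symm] at e
  have h4 := congrArg (actL d N g⁻¹) e
  rw [map_add, map_zero] at h4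
  have h5 : ∀ x : BF d N, actL d N g⁻¹ (act x g) = x := fun x => (act_act x g g⁻¹).trans
    (by rw [Matrix.mul_nonsing_inv _ h1.isUnit, act_one])
  rwa [h5, h5, add_comm] at h4

end Kna

theorem kna_of (h : KN1) : KNA := by
  refine fun d N hd => ⟨Kna.mm, fun a g ha hg => Kna.mm_act h hd ha hg,
    fun a ha => Kna.sm_mm h hd ha, fun σ v ha hσ hi => ?_⟩
  have s := (Kna.sm_mm h hd ha).of_le Kna.two_le
  have s' : ContDiffAt ℝ 2 (fun y => Kna.mm (σ y)) v :=
    s.comp v ((hσ.contDiffAt (n := 2)).restrict_scalars ℝ)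
  have p : ∀ w, w ≠ 0 → 0 < levi (fun y => Kna.mm (σ y)) v w := fun w hw => by
    rw [levi_comp s hσ]
    exact Kna.lv_pos h hd ha fun ξ e => hw (hi ξ w e)
  refine Matrix.PosDef.of_dotProduct_mulVec_pos ((cHess_psd_iff s').2 fun w => ?_).isHermitian
    fun x hx => ?_
  · by_cases hw : w = 0
    · simp [hw, levi]
    · exact (p w hw).le
  · rw [cHess_quad s', Complex.zero_lt_real]
    linarith [p (star x) (star_ne_zero.2 hx)]

end Vale.Agent.P280Z.Ma
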