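import Vale.Agent.P280Z.Ma.Sk
import Vale.Agent.P280Z.Mp.Bf0
import Vale.Agent.P281Z.Pb.Api
import Vale.Agent.P281Z.Pb.Ps
import Vale.Agent.P281Z.Sc.Bd

/-!
# P280Z, block Ma: the hyperplane bundle
-/

open scoped Manifold ContDiff Topology Matrix
open Set Filter
open Vale.Agent.P272.K Vale.Agent.P285.H281.FD Vale.Agent.P281Z Vale.Agent.P280Z.Mp
open Vale.Agent.P277Z (Hol at_chart hol_comp)

noncomputable section

namespace Vale.Agent.P280Z.Ma

namespace O1p

variable {n N r e : ℕ} {V : Mf n} {P : Eqs r N} {pt : Cm N → V.X}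

theorem rp_spec (h : Cone V P e pt) (v : V.X) : In P (rp P pt v) ∧ pt (rp P pt v) = v := by
  rw [rp, dif_pos (h.onto v)]
  exact (h.onto v).choose_spec

theorem in_smul (h : Cone V P e pt) {x : Cm N} (hx : In P x) {c : ℂ} (hc : c ≠ 0) : In P (c • x) :=
  ⟨smul_ne_zero hc hx.1, by rw [Pv_smul h.hom, hx.2, smul_zero]⟩

theorem eq_rp (h : Cone V P e pt) {x : Cm N} (hx : In P x) {v : V.X} (k : pt x = v) :
    ∃ c : ℂ, c ≠ 0 ∧ x = c • rp P pt v :=
  let ⟨c, hc⟩ := h.inj _ x (rp_spec h v).1 hx ((rp_spec h v).2.trans k.symm)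
  ⟨c, fun h0 => hx.1 (by rw [hc, h0, zero_smul]), hc⟩

theorem loc (h : Cone V P e pt) {v : V.X} {i : Fin N} (hi : rp P pt v i ≠ 0) :
    (∀ᶠ y in 𝓝 v, rp P pt y i ≠ 0) ∧ ∀ l, Hol n (fun y => rp P pt y l / rp P pt y i) v := by
  have he := at_chart (n := n) v
  obtain ⟨-, lam, -, h1, h2, -, h3⟩ := h.loc _ (rp_spec h v).1 (chartAt (Cm n) v)
    (by rw [(rp_spec h v).2]; exact he)
  rw [(rp_spec h v).2] at h1 h2 h3
  have h4 : ∀ l, Hol n (fun y => lam (chartAt (Cm n) v y) l) v := fun l =>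
    hol_comp he (f := fun z => lam z l) (analyticAt_pi_iff.1 h1 l)
  have h5 : ∀ᶠ y in 𝓝 v, ∃ c : ℂ, c ≠ 0 ∧ lam (chartAt (Cm n) v y) = c • rp P pt y := by
    filter_upwards [((chartAt (Cm n) v).continuousAt he.2).eventually h3, at_near he] with y k1 k2
      using eq_rp h k1.1 (k1.2.trans k2.left_inv)
  have h6 : lam (chartAt (Cm n) v v) i ≠ 0 := h2 ▸ hi
  refine ⟨?_, fun l => ((h4 l).div (h4 i) h6).congr ?_⟩
  · filter_upwards [h5, (h4 i).ne_near h6] with y ⟨c, _, k1⟩ k2 k3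
    exact k2 (by rw [k1, Pi.smul_apply, k3, smul_zero])
  · filter_upwards [h5] with y ⟨c, k0, k1⟩
    rw [k1, smul_ratio k0]

end O1p

open O1p in
theorem o1p : O1P := by
  intro n N r e V P pt h
  have hL : IsLB n (O1 P pt) :=
    ⟨fun i => isOpen_iff_mem_nhds.2 fun v hv => (loc h hv).1,
      fun v => Function.ne_iff.1 (rp_spec h v).1.1,
      fun i j χ v he hi _ => ((loc h hi).2 j χ he).contDiffAt,
      fun i j v hi hj => div_ne_zero hj hi, fun i j l v _ hj _ =>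
        (mul_comm _ _).trans (div_mul_div_cancel₀ hj)⟩
  have hs : ∀ l : Fin N, IsSec n (O1 P pt) fun i v => rp P pt v l / rp P pt v (show Fin N from i) :=
    fun l => isSec_of (fun i v hi => (loc h hi).2 l) fun i j v _ hj =>
      ((mul_comm _ _).trans (div_mul_div_cancel₀ hj)).symm
  refine ⟨hL, Pb.pos_of_sec hL hs (fun i v hi => ⟨i, div_ne_zero hi hi⟩)
    fun (i : Fin N) v hi χ he ξ hξ => ?_, hs⟩
  have hi' : rp P pt v i ≠ 0 := hi
  by_contra! k
  obtain ⟨ρ, -, h1, -, -, h2, -⟩ := h.loc _ (rp_spec h v).1 χ (by rw [(rp_spec h v).2]; exact he)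
  have h3 : ∀ y, rp P pt y i ≠ 0 → rp P pt v i • (fun j => rp P pt y j / rp P pt y i /
      (rp P pt y i / rp P pt y i) : Cm N) = (rp P pt v i / rp P pt y i) • rp P pt y :=
    fun y hy => funext fun j => by
      simp only [Pi.smul_apply, smul_eq_mul]
      field_simp
  have h4 := h3 v hi'
  rw [div_self hi', one_smul, ← div_self hi'] at h4
  have h5 : AnV n (fun y => (fun j => rp P pt y j / rp P pt y i /
      (rp P pt y i / rp P pt y i) : Cm N)) v :=
    AnV.pi fun j => ((loc h hi').2 j).div ((loc h hi').2 i) (div_ne_zero hi' hi')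
  refine hξ (imm_id v χ χ he he ((dd_fac (G := fun w => ρ (rp P pt v i • w)) he h5 ?_ ?_
    (fderiv_ratio (s := fun y j => rp P pt y j / rp P pt y i) (loc h hi').2 (div_ne_zero hi' hi')
      he (k i · (div_ne_zero hi' hi')))).trans (map_zero _).symm))
  · exact AnalyticAt.fun_comp (g := ρ) (by rw [h4]; exact h1)
      (by fun_prop)
  · rw [← h4] at h2
    filter_upwards [(h5.cont.fun_const_smul (rp P pt v i)).eventually h2, (loc h hi').1]
      with y k1 k2
    have k3 := div_ne_zero hi' k2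
    rw [h3 y k2] at k1 ⊢
    rw [← (k1 (in_smul h (rp_spec h y).1 k3)).2, h.smul _ _ (rp_spec h y).1 k3, (rp_spec h y).2]

end Vale.Agent.P280Z.Ma
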