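import Vale.Agent.P280Z.Ma.Sk
import Vale.Agent.P280Z.Mp.Free
import Vale.Agent.P281Z.Sc.Bd

/-!
# P280Z, block Ma: the diagonal of the fibre square
-/

open scoped Manifold ContDiff Topology Matrix
open Set Filter
open Vale.Agent.P272.K Vale.Agent.P285.H281.FD Vale.Agent.P281Z Vale.Agent.P280Z.Mp
open Vale.Agent.P277Z.Slc (lin dd)
open Vale.Agent.P277.HD (pull)
open Vale.Agent.P277Z (Hol at_chart)
open Vale.Agent.P280Z.Pu (p1 p2)

noncomputable section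

namespace Vale.Agent.P280Z.Ma

namespace P1c

theorem lf_mv (g : M2) (y z : Cm 2) : lf (g *ᵥ y) (g *ᵥ z) = g.det * lf y z := by
  simp only [lf, Matrix.mulVec, dotProduct, Fin.sum_univ_two, Matrix.det_fin_two]
  ring

theorem lf_smul (c c' : ℂ) (y z : Cm 2) : lf (c • y) (c' • z) = c * c' * lf y z := by
  simp only [lf, Pi.smul_apply, smul_eq_mul]
  ring

theorem lf_self (y : Cm 2) : lf y y = 0 := by
  rw [lf]
  ring

theorem zz_self (j : Fin 2) (t : ℂ) : zz j t j = 1 := if_pos rfl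

theorem zz_ne (j : Fin 2) (t : ℂ) : zz j t ≠ 0 := fun h =>
  one_ne_zero ((zz_self j t).symm.trans (congrFun h j))

theorem lf_zz (j : Fin 2) : ∃ s : ℂ, s ≠ 0 ∧ ∀ t t', lf (zz j t) (zz j t') = s * (t' - t) := by
  fin_cases j
  · exact ⟨1, one_ne_zero, fun t t' => by simp [lf, zz]⟩
  · exact ⟨-1, by norm_num, fun t t' => by simp [lf, zz]⟩

theorem prop {y z : Cm 2} {j : Fin 2} (hj : y j = 1) (h : lf y z = 0) : z = z j • y := by
  rw [lf, sub_eq_zero] at h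
  funext i
  fin_cases i <;> fin_cases j <;> simp at hj ⊢
  · rw [hj, mul_one]
  · rw [mul_comm, h, hj, one_mul]
  · rw [mul_comm, ← h, hj, one_mul]
  · rw [hj, mul_one]

theorem scale {g : M2} {ζ : ℂ} (hζ : ζ ≠ 0) (y z : Cm 2) (i j : Fin 2) :
    (ζ • g).det / (((ζ • g) *ᵥ y) i * ((ζ • g) *ᵥ z) j) = g.det / ((g *ᵥ y) i * (g *ᵥ z) j) := by
  rw [Matrix.det_smul, Matrix.smul_mulVec, Matrix.smul_mulVec, Pi.smul_apply, Pi.smul_apply,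
    smul_eq_mul, smul_eq_mul, Fintype.card_fin, show ζ * (g *ᵥ y) i * (ζ * (g *ᵥ z) j) =
    ζ ^ 2 * ((g *ᵥ y) i * (g *ᵥ z) j) by ring, mul_div_mul_left _ _ (pow_ne_zero 2 hζ)]

theorem uniq {d N r : ℕ} {P : Eqs r N} {a : BF d N} (hd : 0 < d) (ha : Crv P a) (hL : Low P d)
    {g g' : M2} (hg : g'.det ≠ 0) (h : act a g = act a g') : ∃ ζ : ℂ, ζ ≠ 0 ∧ g = ζ • g' := by
  have hu : IsUnit g'.det := hg.isUnit
  obtain ⟨c, hc, e⟩ := (free P a hd ha).2 hL (g * g'⁻¹) (by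
    rw [← act_act, h, act_act, Matrix.mul_nonsing_inv _ hu, act_one])
  refine ⟨c, fun h0 => ?_, ?_⟩
  · rw [h0, zero_pow hd.ne'] at hc
    exact zero_ne_one hc
  · rw [← Matrix.nonsing_inv_mul_cancel_right g' g hu, e, Matrix.smul_mul, Matrix.one_mul]

theorem clm0 {m : ℕ} {s : ℂ} {L : Cm m →L[ℂ] ℂ} (hs : s ≠ 0) (h : s • L = 0) (v : Cm m) :
    L v = 0 := (mul_eq_zero.1 (congrArg (fun L : Cm m →L[ℂ] ℂ => L v) h)).resolve_left hs

theorem trv3 {n : ℕ} {X : Type} [TopologicalSpace X] [ChartedSpace (Cm n) X] {A B C : Bd X}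
    (θ : A.ι → B.ι → C.ι → X → ℂ)
    (h1 : ∀ a b c x, x ∈ A.U a → x ∈ B.U b → x ∈ C.U c → Hol n (θ a b c) x ∧ θ a b c x ≠ 0)
    (h2 : ∀ a b c a' b' c' x, x ∈ A.U a → x ∈ B.U b → x ∈ C.U c → x ∈ A.U a' → x ∈ B.U b' →
      x ∈ C.U c' → θ a b c x = A.g a a' x ^ 2 * (B.g b b' x)⁻¹ * (C.g c c' x)⁻¹ * θ a' b' c' x) :
    Trv n (lin ![A, B, C] ![2, -1, -1]) := by
  refine ⟨fun i => θ (i 0) (i 1) (i 2), isSec_of (fun i x hx => (h1 _ _ _ x (hx 0) (hx 1) (hx 2)).1)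
    fun i j x hi hj => ?_, fun x i hx => (h1 _ _ _ x (hx 0) (hx 1) (hx 2)).2⟩
  refine (h2 _ _ _ (j 0) (j 1) (j 2) x (hi 0) (hi 1) (hi 2) (hj 0) (hj 1) (hj 2)).trans
    (congrArg (· * _) ?_)
  refine Eq.trans ?_ (Fin.prod_univ_three fun a => (![A, B, C] a).g (i a) (j a) x ^
    (![2, -1, -1] : Fin 3 → ℤ) a).symm
  show _ = A.g (i 0) (j 0) x ^ (2 : ℤ) * B.g (i 1) (j 1) x ^ (-1 : ℤ) * C.g (i 2) (j 2) x ^ (-1 : ℤ)
  rw [zpow_ofNat, zpow_neg_one, zpow_neg_one]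

theorem trv2 {n : ℕ} {X : Type} [TopologicalSpace X] [ChartedSpace (Cm n) X] {A B : Bd X}
    (θ : A.ι → B.ι → X → ℂ)
    (h1 : ∀ a b x, x ∈ A.U a → x ∈ B.U b → Hol n (θ a b) x ∧ θ a b x ≠ 0)
    (h2 : ∀ a b a' b' x, x ∈ A.U a → x ∈ B.U b → x ∈ A.U a' → x ∈ B.U b' →
      θ a b x = A.g a a' x * (B.g b b' x)⁻¹ * θ a' b' x) : Trv n (lin ![A, B] ![1, -1]) := by
  refine ⟨fun i => θ (i 0) (i 1), isSec_of (fun i x hx => (h1 _ _ x (hx 0) (hx 1)).1)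
    fun i j x hi hj => ?_, fun x i hx => (h1 _ _ x (hx 0) (hx 1)).2⟩
  refine (h2 _ _ (j 0) (j 1) x (hi 0) (hi 1) (hj 0) (hj 1)).trans (congrArg (· * _) ?_)
  refine Eq.trans ?_ (Fin.prod_univ_two fun a => (![A, B] a).g (i a) (j a) x ^
    (![1, -1] : Fin 2 → ℤ) a).symm
  show _ = A.g (i 0) (j 0) x ^ (1 : ℤ) * B.g (i 1) (j 1) x ^ (-1 : ℤ)
  rw [zpow_one, zpow_neg_one]

variable {n N r e d D k : ℕ} {V : Mf n} {P : Eqs r N} {pt : Cm N → V.X} (F : Fam V P pt d D k)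

theorem spec (a : Ix F) : Slice P D a.1 (ck F a).target (sl F a) ∧
    ck F a ∈ atlas (Cm k) F.K.X ∧ (∀ v ∈ (ck F a).target, (ck F a).symm v = F.pk (sl F a v)) ∧
    (∀ v ∈ (ck F a).target, F.M (sl F a v)) ∧ ∀ j, cu F a j ∈ atlas (Cm (k + 1)) F.U.X ∧ (cu F a j).target = p1 k 1 ⁻¹' (ck F a).target ∧
      ∀ w ∈ (cu F a j).target, (cu F a j).symm w =
        F.pu (sl F a (p1 k 1 w)) (zz j (p2 k 1 w 0)) :=
  (F.chart a.1 a.2).choose_spec.choose_spec.choose_spec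

variable {F}

theorem at_cu {a : Ix F} {j : Fin 2} {x : F.U.X} (h : x ∈ (cu F a j).source) : At (cu F a j) x :=
  ⟨((spec F a).2.2.2.2 j).1, h⟩

theorem base {a : Ix F} {j : Fin 2} {x : F.U.X} (h : x ∈ (cu F a j).source) :
    p1 k 1 (cu F a j x) = ck F a (F.p x) := by
  obtain ⟨-, -, h1, hs, h2⟩ := spec F a
  obtain ⟨-, h3, h4⟩ := h2 j
  have h5 := (cu F a j).map_source h
  have h6 : p1 k 1 (cu F a j x) ∈ (ck F a).target := by rwa [h3] at h5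
  have h7 := h4 _ h5
  rw [(cu F a j).left_inv h] at h7
  have h8 : F.p x = (ck F a).symm (p1 k 1 (cu F a j x)) := by
    rw [h1 _ h6, ← F.p_pu _ _ (hs _ h6) (zz_ne j _), ← h7]
  rw [h8, (ck F a).right_inv h6]

theorem hol_rz {a : Ix F} {j : Fin 2} {x : F.U.X} (h : x ∈ (cu F a j).source) (i : Fin 2) :
    Hol (k + 1) (fun y => rz F a j y i) x := by
  by_cases hi : i = j
  · exact (P277Z.hol_const 1 x).congr (.of_forall fun y => (if_pos hi).symm)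
  · exact (hol_chart (at_cu h) (Fin.natAdd k 0)).congr (.of_forall fun y => (if_neg hi).symm)

variable (G : GLOC) (H : Hyp V P e pt d) {Z : Mf (k + 1 + 1)} {q1 q2 : Z.X → F.U.X}
  (C : Cart F.p F.p q1 q2)
include G H C

theorem two {h h' : (Dg F q1 q2).ι} {w : Z.X} (hw : w ∈ (Dg F q1 q2).U h)
    (hw' : w ∈ (Dg F q1 q2).U h') :
    (gc F (h.1, h.2.1) (h'.1, h'.2.1) (q1 w) ≠ 0 ∧ gm F h.1 h'.1 (F.p (q1 w)) *ᵥ
      rz F h'.1 h'.2.1 (q1 w) = gc F (h.1, h.2.1) (h'.1, h'.2.1) (q1 w) • rz F h.1 h.2.1 (q1 w)) ∧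
    (gc F (h.1, h.2.2) (h'.1, h'.2.2) (q2 w) ≠ 0 ∧ gm F h.1 h'.1 (F.p (q1 w)) *ᵥ
      rz F h'.1 h'.2.2 (q2 w) = gc F (h.1, h.2.2) (h'.1, h'.2.2) (q2 w) • rz F h.1 h.2.2 (q2 w)) ∧
    (gm F h.1 h'.1 (F.p (q1 w))).det ≠ 0 := by
  obtain ⟨-, g2, -, -, g5, g6⟩ := G F H
  refine ⟨g6 (h.1, h.2.1) (h'.1, h'.2.1) _ hw.1 hw'.1, ?_,
    (g5 _ _ _ (g2 _ _ _ hw.1).1 (g2 _ _ _ hw'.1).1).1⟩
  rw [← C.comm w]
  exact g6 (h.1, h.2.2) (h'.1, h'.2.2) _ hw.2 hw'.2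

omit G H in
theorem g_eq (h h' : (Dg F q1 q2).ι) (w : Z.X) : (Dg F q1 q2).g h h' w =
    (gm F h.1 h'.1 (F.p (q1 w))).det / ((gm F h.1 h'.1 (F.p (q1 w)) *ᵥ rz F h'.1 h'.2.1 (q1 w))
      h.2.1 * (gm F h.1 h'.1 (F.p (q1 w)) *ᵥ rz F h'.1 h'.2.2 (q2 w)) h.2.2) := by
  show _ / (_ * (gm F h.1 h'.1 (F.p (q2 w)) *ᵥ _) _) = _
  rw [C.comm w]
  rfl

theorem lb : IsLB (k + 1 + 1) (Dg F q1 q2) := by
  obtain ⟨g1, g2, g3, g4, g5, g6⟩ := G F H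
  refine ⟨fun h => ((cu F h.1 h.2.1).open_source.preimage C.sf'.hol.cont).inter
    ((cu F h.1 h.2.2).open_source.preimage C.hg'.cont), fun w => ?_,
    fun h h' c w hc hw hw' => ?_, fun h h' w hw hw' => ?_, fun h h' h'' w hw hw' hw'' => ?_⟩
  · obtain ⟨a, ha⟩ := g4 (F.p (q1 w))
    obtain ⟨j1, h1⟩ := g3 a _ ha
    obtain ⟨j2, h2⟩ := g3 a (q2 w) (by rwa [C.comm w])
    exact ⟨(a, j1, j2), h1, h2⟩
  · obtain ⟨-, -, g, hg, hζ⟩ := g5 h.1 h'.1 _ (g2 _ _ _ hw.1).1 (g2 _ _ _ hw'.1).1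
    have hp : HolM (k + 1 + 1) k fun w => F.p (q1 w) := F.p_hol.comp C.sf'.hol
    have k0 : ∀ i j, Hol (k + 1 + 1) (fun w => g (F.p (q1 w)) i j) w := fun i j => hp.hol (hg i j)
    have k1 : ∀ i, Hol (k + 1 + 1) (fun w => (g (F.p (q1 w)) *ᵥ rz F h'.1 h'.2.1 (q1 w)) i) w :=
      fun i => P277Z.Hol.sum Finset.univ fun j _ => (k0 i j).mul (C.sf'.hol.hol (hol_rz hw'.1 j))
    have k2 : ∀ i, Hol (k + 1 + 1) (fun w => (g (F.p (q1 w)) *ᵥ rz F h'.1 h'.2.2 (q2 w)) i) w :=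
      fun i => P277Z.Hol.sum Finset.univ fun j _ => (k0 i j).mul (C.hg'.hol (hol_rz hw'.2 j))
    have k3 : Hol (k + 1 + 1) (fun w => (g (F.p (q1 w))).det) w :=
      (((k0 0 0).mul (k0 1 1)).sub ((k0 0 1).mul (k0 1 0))).congr
        (.of_forall fun _ => (Matrix.det_fin_two _).symm)
    obtain ⟨⟨t1, t2⟩, ⟨t3, t4⟩, -⟩ := two G H C hw hw'
    obtain ⟨ζ, -, hz⟩ := hζ.self_of_nhds
    refine (((k3.div ((k1 h.2.1).mul (k2 h.2.2)) (mul_ne_zero (fun h0 => t1 ?_) fun h0 => t3 ?_)).congr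
      ?_) c hc).contDiffAt
    · have := congrFun t2 h.2.1
      rw [hz, Matrix.smul_mulVec, Pi.smul_apply, h0, smul_zero, Pi.smul_apply, rz, zz_self,
        smul_eq_mul, mul_one] at this
      exact this.symm
    · have := congrFun t4 h.2.2
      rw [hz, Matrix.smul_mulVec, Pi.smul_apply, h0, smul_zero, Pi.smul_apply, rz, zz_self,
        smul_eq_mul, mul_one] at this
      exact this.symm
    · filter_upwards [hp.cont.continuousAt.eventually hζ] with w' ⟨ζ', h1, h2⟩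
      rw [g_eq C, h2, scale]
      rintro rfl
      rw [zero_pow H.pos.ne'] at h1
      exact zero_ne_one h1
  · obtain ⟨⟨t1, -⟩, ⟨t3, -⟩, t5⟩ := two G H C hw hw'
    exact div_ne_zero t5 (mul_ne_zero t1 t3)
  · obtain ⟨⟨t1, t2⟩, ⟨t3, t4⟩, t5⟩ := two G H C hw hw'
    obtain ⟨⟨s1, s2⟩, ⟨s3, s4⟩, s5⟩ := two G H C hw' hw''
    have m := (g2 _ _ _ hw.1).1
    have m' := (g2 _ _ _ hw'.1).1
    have m'' := (g2 _ _ _ hw''.1).1
    obtain ⟨ζ, hζ, hz⟩ := uniq H.pos (F.cd _ (g1 _ _ m).1).1 H.low (g := gm F h.1 h''.1 (F.p (q1 w)))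
      (g' := gm F h.1 h'.1 (F.p (q1 w)) * gm F h'.1 h''.1 (F.p (q1 w)))
      (by rw [Matrix.det_mul]; exact mul_ne_zero t5 s5)
      (by rw [← act_act, ← (g5 _ _ _ m m').2.1, ← (g5 _ _ _ m' m'').2.1, ← (g5 _ _ _ m m'').2.1])
    rw [g_eq C h h'', hz, scale hζ, Matrix.det_mul, ← Matrix.mulVec_mulVec, ← Matrix.mulVec_mulVec,
      s2, s4, Matrix.mulVec_smul, Matrix.mulVec_smul, t2, t4]
    simp only [Pi.smul_apply, smul_eq_mul, rz, zz_self, mul_one]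
    show _ / _ * (_ / _) = _
    rw [div_mul_div_comm]
    congr 1
    ring

theorem sec : IsSec (k + 1 + 1) (Dg F q1 q2) (ds F q1 q2) := by
  refine isSec_of (fun h w hw => ?_) fun h h' w hw hw' => ?_
  · exact ((C.sf'.hol.hol (hol_rz hw.1 0)).mul (C.hg'.hol (hol_rz hw.2 1))).sub
      ((C.sf'.hol.hol (hol_rz hw.1 1)).mul (C.hg'.hol (hol_rz hw.2 0)))
  · obtain ⟨⟨t1, t2⟩, ⟨t3, t4⟩, t5⟩ := two G H C hw hw'
    have h1 := lf_mv (gm F h.1 h'.1 (F.p (q1 w))) (rz F h'.1 h'.2.1 (q1 w))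
      (rz F h'.1 h'.2.2 (q2 w))
    rw [t2, t4, lf_smul] at h1
    show lf _ _ = _ / _ * lf _ _
    rw [div_mul_eq_mul_div, ← h1, mul_div_cancel_left₀ _ (mul_ne_zero t1 t3)]

theorem zero_iff (w : Z.X) : ¬ NZ (Dg F q1 q2) (ds F q1 q2) w ↔ q1 w = q2 w := by
  obtain ⟨g1, g2, -⟩ := G F H
  obtain ⟨h, hw⟩ := (lb G H C).cover w
  constructor
  · intro h0
    rw [nz_iff (lb G H C) (fun a b => (sec G H C).change a b w) hw, not_not] at h0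
    have m := (g2 _ _ _ hw.1).1
    rw [← (g2 _ _ _ hw.1).2, ← (g2 _ _ _ hw.2).2, C.comm w]
    exact (F.pu_eq _ _ _ _ (g1 _ _ m).1 (g1 _ _ m).1 (zz_ne _ _) (zz_ne _ _)).2
      ⟨1, _, (act_one _).symm, (Matrix.one_mulVec _).trans (prop (zz_self _ _) h0)⟩
  · intro h0 h1
    refine h1 (h.1, h.2.1, h.2.1) ⟨hw.1, h0 ▸ hw.1⟩ ?_
    show lf _ _ = 0
    rw [← h0]
    exact lf_self _

omit G H in
theorem trans0 {a : Ix F} {j : Fin 2} {w : Z.X} (h1 : q1 w ∈ (cu F a j).source)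
    (h2 : q2 w ∈ (cu F a j).source) :
    dd (ds F q1 q2 (a, j, j)) (chartAt (Cm (k + 1 + 1)) w) w ≠ 0 := by
  intro h0
  have he := at_chart (n := k + 1 + 1) w
  obtain ⟨s, hs, hl⟩ := lf_zz j
  have k1 := fun i => (C.sf'.hol.at w).hol (hol_chart (at_cu h1) i)
  have k2 := fun i => (C.hg'.at w).hol (hol_chart (at_cu h2) i)
  have e1 : df q1 (chartAt (Cm (k + 1 + 1)) w) (cu F a j) w =
      df q2 (chartAt (Cm (k + 1 + 1)) w) (cu F a j) w := by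
    refine ContinuousLinearMap.ext fun v => funext fun i => ?_
    rw [df_apply (C.sf'.hol.at w) he (at_cu h1), df_apply (C.hg'.at w) he (at_cu h2)]
    refine Fin.addCases (m := k) (n := 1) (fun i => ?_) (fun i => ?_) i
    · refine congrArg (fun L : Cm (k + 1 + 1) →L[ℂ] ℂ => L v) (P277Z.Slc.dd_congr ?_ he)
      filter_upwards [C.sf'.hol.cont.continuousAt.eventually (at_near (at_cu h1)),
        C.hg'.cont.continuousAt.eventually (at_near (at_cu h2))] with w' m1 m2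
      have := (base m1.2).trans ((congrArg (ck F a) (C.comm w').symm).trans (base m2.2).symm)
      exact congrFun this i
    · obtain rfl : i = 0 := Subsingleton.elim _ _
      have e2 : ds F q1 q2 (a, j, j) = fun w => s * (cu F a j (q2 w) (Fin.natAdd k 0) -
          cu F a j (q1 w) (Fin.natAdd k 0)) := funext fun w => hl _ _
      rw [e2] at h0
      unfold dd at h0 ⊢
      rw [fderiv_const_mul ((k2 _ _ he).fun_sub (k1 _ _ he)).differentiableAt,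
        fderiv_fun_sub (k2 _ _ he).differentiableAt (k1 _ _ he).differentiableAt] at h0
      exact (sub_eq_zero.1 (clm0 hs h0 v)).symm
  have e3 : Function.Injective (df q1 (chartAt (Cm (k + 1 + 1)) w) (cu F a j) w) := by
    refine (injective_iff_map_eq_zero _).2 fun v hv => C.imm w v ?_ ?_
    · show df q1 _ _ w v = 0
      rw [df_comp (g := fun y => y) (holM_id.at _) (C.sf'.hol.at w) he (at_cu h1) (at_chart _),
        ContinuousLinearMap.comp_apply, hv, map_zero]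
    · show df q2 _ _ w v = 0
      rw [df_comp (g := fun y => y) (holM_id.at _) (C.hg'.at w) he (at_cu h2) (at_chart _),
        ContinuousLinearMap.comp_apply, ← e1, hv, map_zero]
  have := (Imm.of_chart (C.sf'.hol.at w) he (at_cu h1) e3).le
  omega

theorem trans {h : (Dg F q1 q2).ι} {w : Z.X} (hw : w ∈ (Dg F q1 q2).U h) (h0 : q1 w = q2 w)
    {c : Chart (k + 1 + 1) Z.X} (hc : At c w) : dd (ds F q1 q2 h) c w ≠ 0 := by
  have hw' : w ∈ (Dg F q1 q2).U (h.1, h.2.1, h.2.1) := ⟨hw.1, h0 ▸ hw.1⟩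
  have he := at_chart (n := k + 1 + 1) w
  intro h1
  refine trans0 C hw'.1 hw'.2 ?_
  have e1 : ∀ᶠ y in 𝓝 w, ds F q1 q2 h y =
      (Dg F q1 q2).g h (h.1, h.2.1, h.2.1) y * ds F q1 q2 (h.1, h.2.1, h.2.1) y := by
    filter_upwards [lb_near (lb G H C) hw, lb_near (lb G H C) hw'] with y m m'
      using (sec G H C).change _ _ y m m'
  rw [P277Z.Slc.dd_congr e1 hc, P277Z.Slc.dd_mul (lb_hol (lb G H C) hw hw')
    (sec_hol (sec G H C) hw') (by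
      show lf _ _ = 0
      rw [← h0]
      exact lf_self _) hc] at h1
  exact (P277Z.Slc.dd_chart (sec_hol (sec G H C) hw') hc he).trans
    (ContinuousLinearMap.ext fun v => clm0 ((lb G H C).ne_zero _ _ w hw hw') h1 _)

omit G H in
theorem tv1 (hT : IsLB (k + 1) (Tb F)) :
    Trv (k + 1 + 1) (lin ![Dg F q1 q2, pull q1 (Tb F), pull q2 (Tb F)] ![2, -1, -1]) := by
  refine trv3 (fun h b c w => (Tb F).g (h.1, h.2.1) b (q1 w) * (Tb F).g (h.1, h.2.2) c (q2 w))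
    (fun h b c w m1 m2 m3 => ⟨(C.sf'.hol.hol (lb_hol hT (a := (h.1, h.2.1)) m1.1 m2)).mul
      (C.hg'.hol (lb_hol hT (a := (h.1, h.2.2)) m1.2 m3)),
      mul_ne_zero (hT.ne_zero (h.1, h.2.1) _ _ m1.1 m2) (hT.ne_zero (h.1, h.2.2) _ _ m1.2 m3)⟩)
    fun h b c h' b' c' w m1 m2 m3 m1' m2' m3' => ?_
  have a1 := hT.cocycle (h.1, h.2.1) b b' _ m1.1 m2 m2'
  have a2 := hT.cocycle (h.1, h.2.1) (h'.1, h'.2.1) b' _ m1.1 m1'.1 m2'
  have b1 := hT.cocycle (h.1, h.2.2) c c' _ m1.2 m3 m3'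
  have b2 := hT.cocycle (h.1, h.2.2) (h'.1, h'.2.2) c' _ m1.2 m1'.2 m3'
  have n1 := hT.ne_zero b b' _ m2 m2'
  have n2 := hT.ne_zero c c' _ m3 m3'
  have e1 : (Dg F q1 q2).g h h' w ^ 2 = (Tb F).g (h.1, h.2.1) (h'.1, h'.2.1) (q1 w) *
      (Tb F).g (h.1, h.2.2) (h'.1, h'.2.2) (q2 w) := by
    show (_ / _) ^ 2 = _ / _ * ((gm F h.1 h'.1 (F.p (q2 w))).det / _)
    rw [C.comm w, div_pow, div_mul_div_comm, mul_pow, sq]
  show _ = _ * ((Tb F).g b b' (q1 w))⁻¹ * ((Tb F).g c c' (q2 w))⁻¹ * _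
  rw [e1, (eq_mul_inv_iff_mul_eq₀ n1).2 (a1.trans a2.symm),
    (eq_mul_inv_iff_mul_eq₀ n2).2 (b1.trans b2.symm)]
  ring

theorem tv2 (hT : IsLB (k + 1) (Tb F)) {δ : F.U.X → Z.X} (hδ : HolM (k + 1) (k + 1 + 1) δ)
    (h1 : ∀ x, q1 (δ x) = x) (h2 : ∀ x, q2 (δ x) = x) :
    Trv (k + 1) (lin ![pull δ (Dg F q1 q2), Tb F] ![1, -1]) := by
  have hD := lb G H C
  have m : ∀ (b : (Tb F).ι) x, x ∈ (Tb F).U b → δ x ∈ (Dg F q1 q2).U (b.1, b.2, b.2) :=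
    fun b x hx => ⟨by rw [h1]; exact hx, by rw [h2]; exact hx⟩
  refine trv2 (fun h b x => (Dg F q1 q2).g h (b.1, b.2, b.2) (δ x))
    (fun h b x m1 m2 => ⟨hδ.hol (lb_hol hD m1 (m b x m2)), hD.ne_zero _ _ _ m1 (m b x m2)⟩)
    fun h b h' b' x m1 m2 m1' m2' => ?_
  have a1 := hD.cocycle h _ _ _ m1 (m b x m2) (m b' x m2')
  have a2 := hD.cocycle h h' _ _ m1 m1' (m b' x m2')
  have e1 : (Dg F q1 q2).g (b.1, b.2, b.2) (b'.1, b'.2, b'.2) (δ x) = (Tb F).g b b' x := by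
    show (gm F _ _ (F.p (q1 (δ x)))).det / (gc F _ _ (q1 (δ x)) * gc F _ _ (q2 (δ x))) = _ / _
    rw [h1, h2, sq]
    rfl
  show _ = (Dg F q1 q2).g h h' (δ x) * _ * _
  rw [mul_right_comm, a2, ← a1, e1, mul_inv_cancel_right₀ (hT.ne_zero b b' _ m2 m2')]

end P1c

open P1c in
theorem p1c_of (G : GLOC) (l : LBS) : P1C := by
  intro n N r e d D k V P pt F H Z q1 q2 C δ hδ h1 h2
  refine ⟨⟨rfl, lb G H C, sec G H C, ⟨hδ, fun x y h => by rw [← h1 x, h, h1], fun x => ?_, ?_⟩,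
    fun z a ha c hc => trans G H C ha (by rw [h1, h2]) hc⟩, tv1 C (l F H).2.1,
    tv2 G H C (l F H).2.1 hδ h1 h2⟩
  · exact Imm.of_comp (C.sf'.hol.at _) (hδ.at x) ((imm_id x).cng (.of_forall fun y => (h1 y).symm))
  · ext w
    rw [mem_ofPred_eq, zero_iff G H C]
    constructor
    · rintro ⟨x, rfl⟩
      rw [h1, h2]
    · intro h
      exact ⟨q1 w, (C.uniq (q1 w) (q1 w) rfl).unique ⟨h1 _, h2 _⟩ ⟨rfl, h.symm⟩⟩

end Vale.Agent.P280Z.Ma
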