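import Vale.Agent.P280Z.Ma.Nsx
import Vale.Agent.P280Z.Ma.O1p
import Vale.Agent.P280Z.Ma.Lbs
import Vale.Agent.P280Z.Ma.Gloc
import Vale.Agent.P280Z.Ma.P1c
import Vale.Agent.P280Z.Ma.Ker
import Vale.Agent.P280Z.Ma.Inv
import Vale.Agent.P280Z.Ma.Kn1
import Vale.Agent.P280Z.Ma.Kna
import Vale.Agent.P280Z.Ma.Kn
import Vale.Agent.P280Z.Ma.Up
import Vale.Agent.P280Z.Ma.Rel
import Vale.Agent.P280Z.Co.Vbl
import Vale.Agent.P280Z.Co.Fp

/-!
# P280Z, block Ma: all the rows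
-/

namespace Vale.Agent.P280Z.Ma

theorem lbs : LBS := lbs_of gloc o1p

theorem p1c : P1C := p1c_of gloc lbs

theorem inv : INV := inv_of vbl gloc lbs p1c ker

theorem p1x : P1X := p1x_of fp lbs p1c inv

theorem kn : KN := kn_of gloc (kna_of kn1)

theorem up : UP := up_of gloc lbs

theorem rel : REL := rel_of vbl

theorem lha : LHA := lha_of rel vbl

theorem nsx : NSX := nsx_of fp vbl o1p lbs p1x kn up rel lha

end Vale.Agent.P280Z.Ma
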