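import Vale.Agent.P280Z.Ma.Ns
import Vale.Agent.P280Z.Co.Defs
import Vale.Agent.P280Z.Mp.Defs

/-!
# P280Z: projective line bundles, the line bundles on a family of rational curves
-/

open scoped Manifold ContDiff Topology Matrix
open Set Filter
open Vale.Agent.P272.K Vale.Agent.P285.H281.FD Vale.Agent.P281Z Vale.Agent.P280Z.Mp
open Vale.Agent.P277Z.Slc (lin)
open Vale.Agent.P277.HD (pull)
open Vale.Agent.P280Z.Pu (p2)

noncomputable section

namespace Vale.Agent.P280Z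

/-- `L` has a section without zeros -/
def Trv (n : ℕ) {X : Type} [TopologicalSpace X] [ChartedSpace (Cm n) X] (L : Bd X) : Prop :=
  ∃ s, IsSec n L s ∧ ∀ x, NZ L s x

/-- a bundle of projective lines with the relative tangent bundle `Tb`, seen on the fibre square -/
structure P1D {u k : ℕ} {U : Mf u} {K : Mf k} (p : U.X → K.X) (Tb : Bd U.X) : Type 1 where
  U2 : Mf (u + 1)
  q1 : U2.X → U.X
  q2 : U2.X → U.X
  dg : U.X → U2.X
  D : Bd U2.X
  s : D.ι → U2.X → ℂ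
  dim : u = k + 1
  lb : IsLB u Tb
  cart : Cart p p q1 q2
  sub2 : Sub (u + 1) u q2
  cut : Cut D s dg
  h1 : ∀ x, q1 (dg x) = x
  h2 : ∀ x, q2 (dg x) = x
  tv1 : Trv (u + 1) (lin ![D, pull q1 Tb, pull q2 Tb] ![2, -1, -1])
  tv2 : Trv u (lin ![pull dg D, Tb] ![1, -1])

/-- `E ⊗ Tb^(1/2)` comes from the base -/
def P1D.Inv {u k : ℕ} {U : Mf u} {K : Mf k} {p : U.X → K.X} {Tb : Bd U.X} (Q : P1D p Tb)
    (E : VB U.X) : Prop :=
  ∃ φ, IsHom (u + 1) ((E.pull Q.q1).tw (lin ![pull Q.q1 Tb, Q.D] ![1, -1])) (E.pull Q.q2) φ ∧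
    ∀ w, Function.Bijective (φ w)

/-- `E` is the relative tangent bundle of `f`, of rank `r` -/
def IsRel {n m : ℕ} {V : Mf n} {W : Mf m} (f : V.X → W.X) (r : ℕ) (E : VB V.X) : Prop :=
  ∃ (ι : Type) (O : ι → Set V.X) (b : ι → ∀ x, (Fin r → ℂ) →ₗ[ℂ] LinearMap.ker (Df n m f x)),
    E = ⟨fun x => LinearMap.ker (Df n m f x), r, ι, O, b⟩ ∧
    Ses n ⟨fun x => LinearMap.ker (Df n m f x), r, ι, O, b⟩ (VB.tan n V.X) ((VB.tan m W.X).pull f)
      (fun x => (LinearMap.ker (Df n m f x)).subtype) (Df n m f)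

section fam
variable {n N r d D k : ℕ} {V : Mf n} {P : Eqs r N} {pt : Cm N → V.X}

open Classical in
/-- a point of the cone over `v` -/
def rp (P : Eqs r N) (pt : Cm N → V.X) (v : V.X) : Cm N :=
  if h : ∃ x, In P x ∧ pt x = v then h.choose else 0

/-- the hyperplane bundle -/
def O1 (P : Eqs r N) (pt : Cm N → V.X) : Bd V.X where
  ι := Fin N
  U i := {v | rp P pt v i ≠ 0}
  g i j v := rp P pt v j / rp P pt v i

variable (F : Fam V P pt d D k)

/-- indices of the slices -/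
abbrev Ix (F : Fam V P pt d D k) : Type := {a : BF d N // F.M a}

/-- the chosen slice -/
def sl (a : Ix F) : Cm k → BF d N := (F.chart a.1 a.2).choose

/-- the chosen chart of `K` -/
def ck (a : Ix F) : Chart k F.K.X := (F.chart a.1 a.2).choose_spec.choose

/-- the chosen charts of `U` -/
def cu (a : Ix F) : Fin 2 → Chart (k + 1) F.U.X := (F.chart a.1 a.2).choose_spec.choose_spec.choose

/-- the parametrisation of the curve `y` in the slice `a` -/
def ra (a : Ix F) (y : F.K.X) : BF d N := sl F a (ck F a y)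

/-- the homogeneous fibre coordinates of `x` in the chart `(a, j)` -/
def rz (a : Ix F) (j : Fin 2) (x : F.U.X) : Cm 2 := zz j (p2 k 1 (cu F a j x) 0)

open Classical in
/-- the change of parametrisation -/
def gm (a b : Ix F) (y : F.K.X) : M2 :=
  if h : ∃ g : M2, ra F b y = act (ra F a y) g then h.choose else 1

/-- the factor in `g z_b = c z_a` -/
def gc (a b : Ix F × Fin 2) (x : F.U.X) : ℂ := (gm F a.1 b.1 (F.p x) *ᵥ rz F b.1 b.2 x) a.2

/-- the positive line bundle on the space of curves -/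
def Lam : Bd F.K.X where
  ι := Ix F
  U a := (ck F a).source
  g a b y := (gm F a b y).det⁻¹ ^ d

/-- the relative tangent bundle of the universal curve -/
def Tb : Bd F.U.X where
  ι := Ix F × Fin 2
  U a := (cu F a.1 a.2).source
  g a b x := (gm F a.1 b.1 (F.p x)).det / gc F a b x ^ 2

end fam

namespace CT
variable (T : CT)

/-- the grading and the integral of `V` -/
def ga {n : ℕ} (V : Mf n) : GA (T.H V) := ⟨T.pr V, T.int V⟩

/-- `p^* p_*` -/
def dem {u k : ℕ} {U : Mf u} {K : Mf k} {p : U.X → K.X} (hp : HolM u k p) : T.H U →ₗ[ℝ] T.H U :=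
  (T.pull hp).toLinearMap.comp (T.push p)

/-- the numerical structure of `K ← U → V` -/
def ns {n u k : ℕ} {V : Mf n} {U : Mf u} {K : Mf k} {p : U.X → K.X} {e : U.X → V.X}
    (hp : HolM u k p) (he : HolM u n e) (η : T.H V) (Tb : Bd U.X) (E : VB U.X) :
    NS (T.H V) (T.H U) where
  GX := T.ga V
  GU := T.ga U
  es := T.pull he
  el := T.push e
  T := T.dem hp
  η := η
  τ := T.c1 U Tb
  pX := T.ps V (VB.tan n V.X)
  pE := T.ps U E
  pK j := T.pull hp (T.ps K (VB.tan k K.X) j)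

end CT

/-- the standing hypotheses on a family -/
structure Hyp {n N r : ℕ} (V : Mf n) (P : Eqs r N) (e : ℕ) (pt : Cm N → V.X) (d : ℕ) : Prop where
  cone : Cone V P e pt
  pos : 0 < d
  low : Low P d
  gen : ∀ a : BF d N, Crv P a → Gen P a

/-- row O1P: the hyperplane bundle is positive and generated by the coordinates -/
def O1P : Prop := ∀ {n N r e : ℕ} (V : Mf n) (P : Eqs r N) (pt : Cm N → V.X), Cone V P e pt →
  IsLB n (O1 P pt) ∧ Pos n (O1 P pt) ∧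
    ∀ l : Fin N, IsSec n (O1 P pt) fun i v => rp P pt v l / rp P pt v (show Fin N from i)

/-- row GLOC: the changes of parametrisation are locally holomorphic up to roots of unity -/
def GLOC : Prop := ∀ {n N r e d D k : ℕ} {V : Mf n} {P : Eqs r N} {pt : Cm N → V.X}
  (F : Fam V P pt d D k), Hyp V P e pt d →
  (∀ a y, y ∈ (ck F a).source → F.M (ra F a y) ∧ F.pk (ra F a y) = y) ∧
  (∀ a j x, x ∈ (cu F a j).source → F.p x ∈ (ck F a).source ∧
    F.pu (ra F a (F.p x)) (rz F a j x) = x) ∧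
  (∀ a x, F.p x ∈ (ck F a).source → ∃ j, x ∈ (cu F a j).source) ∧
  (∀ y, ∃ a, y ∈ (ck F a).source) ∧
  (∀ a b y, y ∈ (ck F a).source → y ∈ (ck F b).source → (gm F a b y).det ≠ 0 ∧
    ra F b y = act (ra F a y) (gm F a b y) ∧
    ∃ g : F.K.X → M2, (∀ i j, P277Z.Hol k (fun y' => g y' i j) y) ∧
      ∀ᶠ y' in 𝓝 y, ∃ ζ : ℂ, ζ ^ d = 1 ∧ gm F a b y' = ζ • g y') ∧
  ∀ (a b : Ix F × Fin 2) x, x ∈ (cu F a.1 a.2).source → x ∈ (cu F b.1 b.2).source →
    gc F a b x ≠ 0 ∧ gm F a.1 b.1 (F.p x) *ᵥ rz F b.1 b.2 x = gc F a b x • rz F a.1 a.2 x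

/-- row LBS: the line bundles and the relation `d τ = 2 H - Λ` -/
def LBS : Prop := ∀ {n N r e d D k : ℕ} {V : Mf n} {P : Eqs r N} {pt : Cm N → V.X}
  (F : Fam V P pt d D k), Hyp V P e pt d → IsLB k (Lam F) ∧ IsLB (k + 1) (Tb F) ∧
    Trv (k + 1) (lin ![pull F.e (O1 P pt), pull F.p (Lam F), Tb F] ![2, -1, -(d : ℤ)])

/-- row P1X: the fibre square, its diagonal, and the invariance of the relative tangent bundle
of `e` -/
def P1X : Prop := ∀ {n N r e d D k : ℕ} {V : Mf n} {P : Eqs r N} {pt : Cm N → V.X}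
  (F : Fam V P pt d D k), Hyp V P e pt d →
  ∃ Q : P1D F.p (Tb F), ∀ (m : ℕ) (E : VB F.U.X), IsRel F.e m E → Q.Inv E

/-- row KN: the space of curves is projective -/
def KN : Prop := ∀ {n N r e d D k : ℕ} {V : Mf n} {P : Eqs r N} {pt : Cm N → V.X}
  (F : Fam V P pt d D k), Hyp V P e pt d → Pos k (Lam F)

/-- row UP: the universal curve is projective -/
def UP : Prop := ∀ {n N r e d D k : ℕ} {V : Mf n} {P : Eqs r N} {pt : Cm N → V.X}
  (F : Fam V P pt d D k), Hyp V P e pt d → Pos k (Lam F) →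
  ∃ c : ℕ, Pos (k + 1) ((Tb F).mul (pull F.p ((Lam F).pow c)))

/-- row REL: adjunction and relative tangent bundles -/
structure REL : Prop where
  ex : ∀ {n m : ℕ} {V : Mf n} {W : Mf m} (f : V.X → W.X) (r : ℕ), Sub n m f → n = m + r →
    ∃ E, IsRel f r E
  ps : ∀ (T : CT), T.OK → ∀ {n m : ℕ} {V : Mf n} {W : Mf m} {f : V.X → W.X} (hf : HolM n m f)
    {r : ℕ} {E : VB V.X}, IsRel f r E → IsVB n E ∧ E.r = r ∧ ∀ j,
      T.ps V (VB.tan n V.X) j = T.ps V E j + T.pull hf (T.ps W (VB.tan m W.X) j)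
  bc : ∀ (T : CT), T.OK → ∀ {n m n' m' : ℕ} {V : Mf n} {W : Mf m} {V' : Mf n'} {W' : Mf m'}
    {f : V.X → W.X} {g : W'.X → W.X} {f' : V'.X → W'.X} {g' : V'.X → V.X} (h : Cart f g f' g')
    {r : ℕ} {E : VB V.X} {E' : VB V'.X}, IsRel f r E → IsRel f' r E' →
    ∀ j, T.ps V' E' j = T.pull h.hg' (T.ps V E j)
  adj : ∀ (T : CT), T.OK → ∀ {m n : ℕ} {V : Mf m} {Z : Mf n} {L : Bd V.X} {s : L.ι → V.X → ℂ}
    {i : Z.X → V.X} (h : Cut L s i) (j : ℕ), T.pull h.emb.hol (T.ps V (VB.tan m V.X) j) =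
      T.ps Z (VB.tan n Z.X) j + T.pull h.emb.hol (T.c1 V L) ^ j
  one : ∀ (T : CT), T.OK → ∀ {n : ℕ} (V : Mf n) (E : VB V.X), IsVB n E → E.r = 1 →
    ∀ j, T.ps V E j = T.ps V E 1 ^ j

/-- row LHA: the theorem of Leray and Hirsch for bundles of projective lines -/
def LHA : Prop := ∀ (T : CT), T.OK → ∀ {u k : ℕ} {U : Mf u} {K : Mf k} {p : U.X → K.X}
  {Tb : Bd U.X} (Q : P1D p Tb), U.Kah →
  (∀ b, T.c1 U Tb * T.dem Q.cart.hg b + T.dem Q.cart.hg (T.c1 U Tb * b) = (2 : ℝ) • b) ∧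
  T.dem Q.cart.hg (T.c1 U Tb) = 2 ∧
  (∀ j, T.ps U (VB.tan u U.X) j =
    T.c1 U Tb ^ j + T.pull Q.cart.hg (T.ps K (VB.tan k K.X) j)) ∧
  ∀ E, IsVB u E → Q.Inv E → ∀ l, T.dem Q.cart.hg (∑ j ∈ Finset.range (l + 1),
    (l.choose j : ℝ) • (T.ps U E j * ((2 : ℝ)⁻¹ • T.c1 U Tb) ^ (l - j))) = 0

/-- **the output of the block Ma** -/
def NSX : Prop := ∀ (T : CT), T.OK → ∀ {n N r e d D k : ℕ} {V : Mf n} {P : Eqs r N}
  {pt : Cm N → V.X} (F : Fam V P pt d D k), Hyp V P e pt d → ConnectedSpace V.X →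
  Nonempty F.U.X → ∀ m, k + 1 = n + m → ∀ E, IsRel F.e m E →
  (T.ns F.p_hol F.e_hol ((d : ℝ)⁻¹ • T.c1 V (O1 P pt)) (Tb F) E).OK0 n m ∧ F.U.Kah ∧ F.K.Kah ∧
    T.dem F.p_hol (T.pull F.e_hol (T.ps V (VB.tan n V.X) 1)) = algebraMap ℝ _ ((m : ℝ) + 2) ∧
    ∀ (Z : Mf m) (i : Z.X → F.U.X) (x : V.X) (h : Emb m (k + 1) i (F.e ⁻¹' {x})),
      T.Kc Z (T.pull h.hol (-T.c1 F.U (Tb F)))

end Vale.Agent.P280Z
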