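import Mathlib.Analysis.InnerProductSpace.Adjoint
import Mathlib.Analysis.InnerProductSpace.EuclideanDist
import Mathlib.Analysis.Calculus.ContDiff.Operations
import Mathlib.Analysis.Calculus.ContDiff.RestrictScalars
import Mathlib.Analysis.Complex.Basic

/-!
# P280Z, block Ma: a smooth left inverse of injective complex linear maps
-/

open scoped ContDiff

noncomputable section

namespace Vale.Agent.P280Z.Ma.Ker

variable {X E G H : Type} [NormedAddCommGroup X] [NormedSpace ℝ X] [NormedAddCommGroup E]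
  [NormedSpace ℂ E] [NormedAddCommGroup G] [NormedSpace ℂ G] [NormedAddCommGroup H]
  [NormedSpace ℂ H] {x : X}

theorem cmpR {g : X → G →L[ℂ] H} {f : X → E →L[ℂ] G} (hg : ContDiffAt ℝ ∞ g x)
    (hf : ContDiffAt ℝ ∞ f x) : ContDiffAt ℝ ∞ (fun w => (g w).comp (f w)) x :=
  ((isBoundedBilinearMap_comp (𝕜 := ℂ) (E := E) (F := G) (G := H)).contDiff.restrict_scalars
    ℝ).contDiffAt.comp x (f := fun w => (g w, f w)) (hg.prodMk hf)

theorem euc {m l : ℕ} : ∃ Λ : (EuclideanSpace ℂ (Fin m) →L[ℂ] EuclideanSpace ℂ (Fin l)) →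
    EuclideanSpace ℂ (Fin l) →L[ℂ] EuclideanSpace ℂ (Fin m),
    ∀ A : EuclideanSpace ℂ (Fin m) →L[ℂ] EuclideanSpace ℂ (Fin l), Function.Injective A →
      ContDiffAt ℝ ∞ Λ A ∧ ∀ u, Λ A (A u) = u := by
  have ha : ContDiff ℝ ∞ fun A : EuclideanSpace ℂ (Fin m) →L[ℂ] EuclideanSpace ℂ (Fin l) =>
      ContinuousLinearMap.adjoint A := by
    refine IsBoundedLinearMap.contDiff ⟨⟨fun A B => map_add _ A B, fun r A => ?_⟩, 1, one_pos,
      fun A => by rw [LinearIsometryEquiv.norm_map, one_mul]⟩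
    rw [← Complex.coe_smul, LinearIsometryEquiv.map_smulₛₗ, ← Complex.coe_smul]
    simp
  refine ⟨fun A => (Ring.inverse ((ContinuousLinearMap.adjoint A).comp A)).comp
    (ContinuousLinearMap.adjoint A), fun A hA => ?_⟩
  have hu : IsUnit ((ContinuousLinearMap.adjoint A).comp A) := by
    have hi : Function.Injective ((ContinuousLinearMap.adjoint A).comp A) := by
      refine (injective_iff_map_eq_zero _).2 fun u hu => hA ?_
      have := ContinuousLinearMap.adjoint_inner_left A u (A u)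
      rw [ContinuousLinearMap.comp_apply] at hu
      rw [hu, inner_zero_left] at this
      rw [map_zero, inner_self_eq_zero.1 this.symm]
    exact ContinuousLinearMap.isUnit_iff_bijective.2 ⟨hi,
      (LinearMap.injective_iff_surjective (f := ((ContinuousLinearMap.adjoint A).comp A :
        EuclideanSpace ℂ (Fin m) →ₗ[ℂ] EuclideanSpace ℂ (Fin m)))).1 hi⟩
  refine ⟨cmpR ?_ ha.contDiffAt, fun u => ?_⟩
  · obtain ⟨U, hU⟩ := hu
    have h1 := (contDiffAt_ringInverse (n := ∞) ℂ U).restrict_scalars ℝ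
    rw [hU] at h1
    exact h1.comp A (f := fun B : EuclideanSpace ℂ (Fin m) →L[ℂ] EuclideanSpace ℂ (Fin l) =>
      (ContinuousLinearMap.adjoint B).comp B) (cmpR ha.contDiffAt contDiffAt_id)
  · exact congrArg (fun T : EuclideanSpace ℂ (Fin m) →L[ℂ] EuclideanSpace ℂ (Fin m) => T u)
      (Ring.inverse_mul_cancel _ hu)

variable (E G) in
/-- a smooth left inverse -/
theorem linv [FiniteDimensional ℂ E] [FiniteDimensional ℂ G] :
    ∃ Λ : (E →L[ℂ] G) → G →L[ℂ] E, ∀ A : E →L[ℂ] G, Function.Injective A →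
      ContDiffAt ℝ ∞ Λ A ∧ ∀ u, Λ A (A u) = u := by
  obtain ⟨Λ, h⟩ := euc (m := Module.finrank ℂ E) (l := Module.finrank ℂ G)
  let a : E ≃L[ℂ] EuclideanSpace ℂ (Fin (Module.finrank ℂ E)) :=
    ContinuousLinearEquiv.ofFinrankEq (by simp)
  let b : G ≃L[ℂ] EuclideanSpace ℂ (Fin (Module.finrank ℂ G)) :=
    ContinuousLinearEquiv.ofFinrankEq (by simp)
  let Φ : (E →L[ℂ] G) → _ := fun B => b.toContinuousLinearMap.comp
    (B.comp a.symm.toContinuousLinearMap)
  have hΦ : ∀ A, ContDiffAt ℝ ∞ Φ A := fun A =>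
    cmpR contDiffAt_const (cmpR (g := fun B : E →L[ℂ] G => B) contDiffAt_id contDiffAt_const)
  refine ⟨fun A => a.symm.toContinuousLinearMap.comp ((Λ (Φ A)).comp b.toContinuousLinearMap),
    fun A hA => ?_⟩
  obtain ⟨h1, h2⟩ := h (Φ A) (b.injective.comp (hA.comp a.symm.injective))
  refine ⟨cmpR contDiffAt_const (cmpR (h1.comp A (hΦ A)) contDiffAt_const), fun u => ?_⟩
  have : Λ (Φ A) (b (A (a.symm (a u)))) = a u := h2 (a u)
  rw [a.symm_apply_apply] at this
  show a.symm (Λ (Φ A) (b (A u))) = u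
  rw [this, a.symm_apply_apply]

end Vale.Agent.P280Z.Ma.Ker
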