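import Vale.Agent.P280Z.Ma.KerA
import Vale.Agent.P280Z.Mp.Bf

/-!
# P280Z, block Ma: tangent vectors of deformations in a slice
-/

open scoped ContDiff Topology Matrix Matrix.Norms.Elementwise
open Set Filter
open Vale.Agent.P272.K Vale.Agent.P280Z.Mp
open Vale.Agent.P280Z.Pu (ap p1 p2)

noncomputable section

namespace Vale.Agent.P280Z.Ma.Ker

variable {d N r k D : ℕ} {P : Eqs r N} {σ : Cm k → BF d N} {v : Cm k}

/-- arrays of four numbers -/
abbrev M4 : Type := Fin 2 → Fin 2 → ℂ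

theorem p1_ap (u : Cm k) (z : Cm 1) : p1 k 1 (ap u z) = u := funext fun i => Fin.append_left u z i

theorem p2_ap (u : Cm k) (z : Cm 1) : p2 k 1 (ap u z) = z := funext fun i => Fin.append_right u z i

theorem cm_ext {w w' : Cm (k + 1)} (h1 : p1 k 1 w = p1 k 1 w') (h2 : p2 k 1 w 0 = p2 k 1 w' 0) :
    w = w' := funext fun i => Fin.addCases (fun i => congrFun h1 i)
      (fun i => by rw [Subsingleton.elim i 0]; exact h2) i

/-- the base coordinates -/
def pL (k : ℕ) : Cm (k + 1) →L[ℂ] Cm k :=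
  ContinuousLinearMap.pi fun i => ContinuousLinearMap.proj (Fin.castAdd 1 i)

/-- the fibre coordinate -/
def tL (k : ℕ) : Cm (k + 1) →L[ℂ] ℂ := ContinuousLinearMap.proj (Fin.natAdd k 0)

/-- the point with given coordinates -/
def aL (k : ℕ) : Cm k × ℂ →L[ℂ] Cm (k + 1) := ContinuousLinearMap.pi fun i => Fin.addCases
  (motive := fun _ => Cm k × ℂ →L[ℂ] ℂ)
  (fun i => (ContinuousLinearMap.proj i).comp (ContinuousLinearMap.fst ℂ _ _))
  (fun _ => ContinuousLinearMap.snd ℂ _ _) i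

theorem pL_aL (u : Cm k) (s : ℂ) : pL k (aL k (u, s)) = u := funext fun i => by
  simp [pL, aL]

theorem tL_aL (u : Cm k) (s : ℂ) : tL k (aL k (u, s)) = s := by
  show Fin.addCases (motive := fun _ => Cm k × ℂ →L[ℂ] ℂ) _ _ (Fin.natAdd k 0) (u, s) = s
  rw [Fin.addCases_right]
  rfl

theorem aL_self (w : Cm (k + 1)) : aL k (pL k w, tL k w) = w :=
  cm_ext (pL_aL _ _) (tL_aL _ _)

theorem zz_self (j : Fin 2) (t : ℂ) : zz j t j = 1 := if_pos rfl

theorem zz_rev (j : Fin 2) (t : ℂ) : zz j t j.rev = t := if_neg (by fin_cases j <;> decide)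

theorem zz_ne (j : Fin 2) (t : ℂ) : zz j t ≠ 0 := fun h => one_ne_zero ((zz_self j t).symm.trans
  (congrFun h j))

theorem two_ext (j : Fin 2) {y y' : Cm 2} (h1 : y j = y' j) (h2 : y j.rev = y' j.rev) : y = y' :=
  funext fun i => by fin_cases i <;> fin_cases j <;> assumption

/-- the matrix `y ⊗ e_j` -/
def mL (j : Fin 2) : Cm 2 →L[ℂ] M4 := LinearMap.toContinuousLinearMap
  { toFun := fun y => Matrix.of.symm (Matrix.vecMulVec y (Pi.single j 1))
    map_add' := fun y y' => Matrix.add_vecMulVec y y' _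
    map_smul' := fun c y => Matrix.smul_vecMulVec c y _ }

theorem mL_zz (j : Fin 2) (y : Cm 2) (t : ℂ) : Matrix.of (mL j y) *ᵥ zz j t = y := by
  show Matrix.vecMulVec y (Pi.single j 1) *ᵥ zz j t = y
  rw [Matrix.vecMulVec_mulVec, single_dotProduct, zz_self]
  simp

/-- the motion of the fibre coordinate -/
def qL (j : Fin 2) (t : ℂ) : M4 →L[ℂ] ℂ := LinearMap.toContinuousLinearMap
  { toFun := fun ξ => (Matrix.of ξ *ᵥ zz j t) j.rev - t * (Matrix.of ξ *ᵥ zz j t) j
    map_add' := fun ξ η => by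
      simp only [← Matrix.of_add_of, Matrix.add_mulVec, Pi.add_apply]; ring
    map_smul' := fun c ξ => by
      simp only [← Matrix.smul_of, Matrix.smul_mulVec, Pi.smul_apply, smul_eq_mul,
        RingHom.id_apply]; ring }

theorem qL_apply (j : Fin 2) (t : ℂ) (ξ : M4) :
    qL j t ξ = (Matrix.of ξ *ᵥ zz j t) j.rev - t * (Matrix.of ξ *ᵥ zz j t) j := rfl

theorem an_zz (j : Fin 2) : ContDiff ℂ ∞ (zz j) := contDiff_pi.2 fun i => by
  unfold zz
  split_ifs
  exacts [contDiff_const, contDiff_id]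

theorem qL_sm (j : Fin 2) : ContDiff ℂ ∞ (qL j) := contDiff_clm_apply_iff.2 fun ξ => by
  have h : ContDiff ℂ ∞ fun t => Matrix.of ξ *ᵥ zz j t :=
    (an_mv.of_le le_top).comp (f := fun t => (Matrix.of ξ, zz j t))
      (contDiff_const.prodMk (an_zz j))
  exact (contDiff_pi.1 h _).sub (contDiff_id.mul (contDiff_pi.1 h _))

/-- the tangent vector in the chart -/
def Q (k : ℕ) (j : Fin 2) (t : ℂ) : M4 × Cm k →L[ℂ] Cm (k + 1) :=
  (aL k).comp ((ContinuousLinearMap.snd ℂ _ _).prod ((qL j t).comp (ContinuousLinearMap.fst ℂ _ _)))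

theorem Q_apply (j : Fin 2) (t : ℂ) (ξ : M4) (u : Cm k) : Q k j t (ξ, u) = aL k (u, qL j t ξ) := rfl

theorem Q_sm (j : Fin 2) : ContDiff ℂ ∞ (Q k j) := contDiff_clm_apply_iff.2 fun q =>
  (aL k).contDiff.comp (contDiff_const.prodMk ((qL_sm j).clm_apply contDiff_const))

/-- the orbit map of a slice -/
def G (σ : Cm k → BF d N) (q : M4 × Cm k) : BF d N := act (σ q.2) (1 + Matrix.of q.1)

/-- its differential -/
def A (σ : Cm k → BF d N) (v : Cm k) : M4 × Cm k →L[ℂ] BF d N := fderiv ℂ (G σ) (0, v)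

/-- the matrix of an array -/
def oL : M4 →L[ℂ] M2 := ContinuousLinearMap.id ℂ M4

theorem G_an (h : AnalyticAt ℂ σ v) (g : M4) : AnalyticAt ℂ (G σ) (g, v) :=
  (an_act' (a := fun q : M4 × Cm k => σ q.2) (g := fun q => 1 + Matrix.of q.1)
    (ContDiffAt.comp (g := σ) (g, v) h.contDiffAt contDiffAt_snd)
    (contDiffAt_const.add (oL.contDiff.contDiffAt.comp _ contDiffAt_fst))).analyticAt

theorem G_fd (h : AnalyticAt ℂ σ v) : HasFDerivAt (G σ) (A σ v) (0, v) :=
  (G_an h 0).differentiableAt.hasFDerivAt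

theorem A_sm (h : AnalyticAt ℂ σ v) : ContDiffAt ℂ ∞ (A σ) v :=
  ContDiffAt.comp (g := fderiv ℂ (G σ)) (f := fun v => ((0 : M4), v)) v
    (G_an h 0).fderiv.contDiffAt (contDiffAt_const.prodMk contDiffAt_id)

theorem A_apply (h : AnalyticAt ℂ σ v) (ξ : M4) (u : Cm k) :
    A σ v (ξ, u) = inf (σ v) (Matrix.of ξ) + fderiv ℂ σ v u := by
  have h1 : HasFDerivAt (fun q : M4 × Cm k => (σ q.2, 1 + oL q.1)) (((fderiv ℂ σ v).comp
      (ContinuousLinearMap.snd ℂ _ _)).prod (oL.comp (ContinuousLinearMap.fst ℂ _ _))) (0, v) :=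
    (HasFDerivAt.comp (g := σ) ((0 : M4), v) h.differentiableAt.hasFDerivAt hasFDerivAt_snd).prodMk
      ((oL.comp (ContinuousLinearMap.fst ℂ M4 (Cm k))).hasFDerivAt.const_add (1 : M2))
  have h3 : HasFDerivAt (fun q : BF d N × M2 => act q.1 q.2)
      (fderiv ℂ (fun q : BF d N × M2 => act q.1 q.2) (σ v, 1)) (σ v, 1 + oL 0) := by
    rw [map_zero, add_zero]
    exact (an_act.differentiable (by simp) _).hasFDerivAt
  have h2 := HasFDerivAt.comp (g := fun q : BF d N × M2 => act q.1 q.2) ((0 : M4), v) h3 h1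
  exact ((congrArg (· (ξ, u)) h2.fderiv).trans (fd_act _ _ _)).trans (add_comm _ _)

theorem ev_A (h : AnalyticAt ℂ σ v) (ξ : M4) (u : Cm k) (z : Cm 2) : ev (A σ v (ξ, u)) z =
    fderiv ℂ (ev (σ v)) z (Matrix.of ξ *ᵥ z) + ev (fderiv ℂ σ v u) z := by
  rw [A_apply h, ev_add, ev_inf]

/-- substitution is linear -/
def actL (d N : ℕ) (g : M2) : BF d N →L[ℂ] BF d N := LinearMap.toContinuousLinearMap
  { toFun := fun a => act a g
    map_add' := fun a b => ev_inj fun z => by rw [ev_add, ev_act, ev_act, ev_act, ev_add]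
    map_smul' := fun c a => ev_inj fun z => by
      rw [RingHom.id_apply, ev_smul, ev_act, ev_act, ev_smul] }

/-- the lift of a tangent vector of the chart -/
def K1 (k : ℕ) (j : Fin 2) : Cm (k + 1) →L[ℂ] M4 × Cm k :=
  ((mL j).comp ((tL k).smulRight (Pi.single j.rev 1))).prod (pL k)

theorem K1_apply (j : Fin 2) (y : Cm (k + 1)) :
    K1 k j y = (mL j (tL k y • Pi.single j.rev 1), pL k y) := rfl

/-- the differential of the evaluation -/
def T (σ : Cm k → BF d N) (j : Fin 2) (w : Cm (k + 1)) : Cm (k + 1) →L[ℂ] Cm N :=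
  (evL d N (zz j (tL k w))).comp ((A σ (pL k w)).comp (K1 k j))

theorem G_K1 (j : Fin 2) (w w' : Cm (k + 1)) : ev (σ (pL k w')) (zz j (tL k w')) =
    ev (G σ (((0 : M4), pL k w) + K1 k j (w' - w))) (zz j (tL k w)) := by
  rw [K1_apply, Prod.mk_add_mk, zero_add, ← map_add, add_sub_cancel]
  unfold G
  rw [ev_act, Matrix.add_mulVec, Matrix.one_mulVec, mL_zz]
  refine congrArg _ (two_ext j ?_ ?_)
  · have : j ≠ j.rev := by fin_cases j <;> decide
    simp [zz_self, Pi.single_eq_of_ne this]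
  · simp [zz_rev]

theorem T_fd {w : Cm (k + 1)} (j : Fin 2) (h : AnalyticAt ℂ σ (pL k w)) :
    HasFDerivAt (fun w' => ev (σ (pL k w')) (zz j (tL k w'))) (T σ j w) w := by
  have h1 : HasFDerivAt (fun w' => ((0 : M4), pL k w) + K1 k j (w' - w)) (K1 k j) w :=
    (HasFDerivAt.comp (g := K1 k j) (f := fun w' => w' - w) w (K1 k j).hasFDerivAt
      ((hasFDerivAt_id w).sub_const w)).const_add ((0 : M4), pL k w)
  have h2 : HasFDerivAt (G σ) (A σ (pL k w)) (((0 : M4), pL k w) + K1 k j (w - w)) := by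
    rw [sub_self, map_zero, add_zero]
    exact G_fd h
  have h3 := HasFDerivAt.comp (g := G σ)
    (f := fun w' => ((0 : M4), pL k w) + K1 k j (w' - w)) w h2 h1
  have h4 := HasFDerivAt.comp (g := evL d N (zz j (tL k w))) w (evL d N _).hasFDerivAt h3
  simp only [G_K1 (σ := σ) j w]
  exact h4

theorem T_sm {w : Cm (k + 1)} (j : Fin 2) (h : AnalyticAt ℂ σ (pL k w)) :
    ContDiffAt ℂ ∞ (T σ j) w := by
  have h1 : ContDiff ℂ ∞ (evL d N) := contDiff_clm_apply_iff.2 fun a =>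
    (an_ev2 a).of_le le_top
  exact (h1.comp ((an_zz j).comp (tL k).contDiff)).contDiffAt.clm_comp
    ((ContDiffAt.comp (g := A σ) w (A_sm h) (pL k).contDiff.contDiffAt).clm_comp contDiffAt_const)

/-- the value of a deformation at the point -/
theorem T_Q {w : Cm (k + 1)} (j : Fin 2) (h : AnalyticAt ℂ σ (pL k w)) (ξ : M4) (u : Cm k) :
    ev (A σ (pL k w) (ξ, u)) (zz j (tL k w)) = T σ j w (Q k j (tL k w) (ξ, u)) +
      ((Matrix.of ξ *ᵥ zz j (tL k w)) j * d) • ev (σ (pL k w)) (zz j (tL k w)) := by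
  show _ = ev (A σ (pL k w) (K1 k j (aL k (u, qL j (tL k w) ξ)))) (zz j (tL k w)) + _
  rw [K1_apply, pL_aL, tL_aL, ev_A h, ev_A h, mL_zz, mul_smul, ← euler, ← map_smul, add_right_comm,
    ← map_add]
  refine congrArg (fun y => fderiv ℂ _ _ y + _) (two_ext j ?_ ?_)
  · have : j ≠ j.rev := by fin_cases j <;> decide
    simp [zz_self, Pi.single_eq_of_ne this]
  · simp [zz_rev, qL_apply, mul_comm]

end Vale.Agent.P280Z.Ma.Ker
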