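import Vale.Agent.P280Z.Ma.Sk
import Vale.Agent.P280Z.Mp.Bf
import Vale.Agent.P280Z.Mp.Free
import Mathlib.Analysis.Calculus.ImplicitContDiff

/-!
# P280Z, row KNA: the balanced gauge depends smoothly on the form
-/

open scoped ContDiff Topology Matrix Matrix.Norms.Elementwise
open Set Filter
open Vale.Agent.P272.K Vale.Agent.P280Z.Mp

noncomputable section

namespace Vale.Agent.P280Z.Ma.Kna

variable {d N : ℕ}

theorem ip_add (a a' b : BF d N) : ipB (a + a') b = ipB a b + ipB a' b := by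
  simp only [ipB, Pi.add_apply, add_mul, add_div, Finset.sum_add_distrib]

theorem ip_smul (c : ℂ) (a b : BF d N) : ipB (c • a) b = c * ipB a b := by
  simp only [ipB, Pi.smul_apply, smul_eq_mul, Finset.mul_sum, mul_assoc, mul_div_assoc]

theorem ip_star (a b : BF d N) : star (ipB a b) = ipB b a := by
  simp only [ipB, star_sum, star_div₀, star_mul', star_star, star_natCast, mul_comm]

theorem ip_add' (a b b' : BF d N) : ipB a (b + b') = ipB a b + ipB a b' := by
  rw [← ip_star, ip_add, star_add, ip_star, ip_star]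

theorem ip_smul' (c : ℂ) (a b : BF d N) : ipB a (c • b) = star c * ipB a b := by
  rw [← ip_star, ip_smul, star_mul', ip_star]

theorem ip_pos {a : BF d N} (h : a ≠ 0) : 0 < (ipB a a).re := by
  obtain ⟨j, hj⟩ := Function.ne_iff.1 h
  obtain ⟨l, hl⟩ := Function.ne_iff.1 hj
  have e : ∀ (j : Fin (d + 1)) l, (a j l * star (a j l) / (d.choose j : ℂ)).re =
      Complex.normSq (a j l) / (d.choose j : ℝ) := fun j l => by
    rw [show star (a j l) = starRingEnd ℂ (a j l) from rfl, Complex.mul_conj, Complex.div_natCast_re,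
      Complex.ofReal_re]
  have n : ∀ (j : Fin (d + 1)) l, 0 ≤ Complex.normSq (a j l) / (d.choose j : ℝ) := fun j l =>
    div_nonneg (Complex.normSq_nonneg _) (Nat.cast_nonneg _)
  simp only [ipB, Complex.re_sum, e]
  exact Finset.sum_pos' (fun j _ => Finset.sum_nonneg fun l _ => n j l) ⟨j, Finset.mem_univ _,
    Finset.sum_pos' (fun l _ => n j l) ⟨l, Finset.mem_univ _, div_pos (Complex.normSq_pos.2 hl)
      (Nat.cast_pos.2 (Nat.choose_pos j.is_le))⟩⟩

/-- the product with a fixed form -/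
def ipl (b : BF d N) : BF d N →ₗ[ℂ] ℂ :=
  ⟨⟨fun a => ipB a b, fun a a' => ip_add a a' b⟩, fun c a => ip_smul c a b⟩

theorem rs (c : ℝ) (a : BF d N) : c • a = (c : ℂ) • a := rfl

/-- the inner product as a real bilinear map -/
def ipL (d N : ℕ) : BF d N →L[ℝ] BF d N →L[ℝ] ℂ :=
  LinearMap.toContinuousLinearMap (LinearMap.toContinuousLinearMap.toLinearMap ∘ₗ
    LinearMap.mk₂ ℝ ipB ip_add (fun c a b => by rw [rs, ip_smul, Complex.real_smul]) ip_add'
      fun c a b => by rw [rs, ip_smul', Complex.real_smul, Complex.star_def, Complex.conj_ofReal])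

theorem ipL_apply (a b : BF d N) : ipL d N a b = ipB a b := rfl

/-- substitution as a linear map -/
def actL (d N : ℕ) (g : M2) : BF d N →L[ℂ] BF d N :=
  LinearMap.toContinuousLinearMap ⟨⟨fun a => act a g, fun a b => ev_inj fun z => by
    simp only [ev_add, ev_act]⟩, fun c a => ev_inj fun z => by
    simp only [ev_smul, ev_act, RingHom.id_apply]⟩

theorem dev (a : BF d N) (z : Cm 2) : DifferentiableAt ℂ (ev a) z :=
  (an_ev2 a).differentiable (by simp) z

/-- the infinitesimal substitution as a linear map of the form -/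
def infA (d N : ℕ) (ξ : M2) : BF d N →L[ℂ] BF d N :=
  LinearMap.toContinuousLinearMap ⟨⟨fun a => inf a ξ, fun a b => ev_inj fun z => by
    rw [ev_add, ev_inf, ev_inf, ev_inf, funext (ev_add a b), fderiv_fun_add (dev a z) (dev b z)]
    rfl⟩, fun c a => ev_inj fun z => by
    rw [RingHom.id_apply, ev_smul, ev_inf, ev_inf, funext (ev_smul c a),
      fderiv_fun_const_smul (dev a z)]
    rfl⟩

theorem inf_act (a : BF d N) {g ξ η : M2} (h : g * ξ = η * g) :
    inf (act a g) ξ = act (inf a η) g := ev_inj fun z => by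
  rw [ev_act, ev_inf, ev_inf, funext (ev_act a g), Matrix.mulVec_mulVec, ← h,
    ← Matrix.mulVec_mulVec]
  exact congrArg (· (ξ *ᵥ z)) ((dev a _).hasFDerivAt.comp z
    (LinearMap.toContinuousLinearMap (Matrix.toLin' g)).hasFDerivAt).fderiv

theorem inf_inj (hd : 0 < d) {a : BF d N} (ha : Nz a) {ξ : M2} (h : inf a ξ = 0) : ξ = 0 :=
  Free.part1 hd ha fun z => by rw [← ev_inf, h, ev_zero]

/-- the matrix units -/
abbrev eu (i j : Fin 2) : M2 := Matrix.single i j 1

theorem eu_ct (i j : Fin 2) : (eu i j)ᴴ = eu j i := by simp [Matrix.conjTranspose_single]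

theorem lin0 (φ : M2 →ₗ[ℂ] ℂ) (h : ∀ i j, φ (eu i j) = 0) (ξ : M2) : φ ξ = 0 := by
  rw [Matrix.matrix_eq_sum_single ξ]
  simp only [map_sum]
  refine Finset.sum_eq_zero fun i _ => Finset.sum_eq_zero fun j _ => ?_
  rw [show Matrix.single i j (ξ i j) = ξ i j • eu i j by simp, map_smul, h, smul_zero]

theorem herm {c : Fin 2 → Fin 2 → ℂ} {y : M2} (hc : ∀ i j, star (c j i) = c i j)
    (h : ∀ i j, c i j + (y i j - star (y j i)) = 0) : (∀ i j, c i j = 0) ∧ yᴴ = y := by
  have h1 : ∀ i j, c i j = 0 := fun i j => by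
    have h2 := congrArg star (h j i)
    rw [star_add, star_sub, star_star, hc, star_zero] at h2
    linear_combination (h i j + h2) / 2
  exact ⟨h1, Matrix.ext fun i j => by
    rw [Matrix.conjTranspose_apply]
    linear_combination h1 i j - h i j⟩

theorem orth (hd : 0 < d) {a : BF d N} (ha : Nz a) (b : BF d N) :
    ∃ ξ, ∀ η, ipB (inf a η) (b + inf a ξ) = 0 := by
  let T : M2 →ₗ[ℂ] M2 := LinearMap.pi fun i => LinearMap.pi fun j => ipl (inf a (eu i j)) ∘ₗ infL a
  have k : ∀ β : BF d N, (∀ i j, ipB β (inf a (eu i j)) = 0) → ∀ η, ipB (inf a η) β = 0 :=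
    fun β h => lin0 (ipl β ∘ₗ infL a) fun i j => (ip_star _ _).symm.trans (star_eq_zero.2 (h i j))
  have h1 : Function.Injective T := (injective_iff_map_eq_zero T).2 fun ξ h => by
    by_contra h0
    have h2 := ip_pos fun e => h0 (inf_inj hd ha e)
    rw [k (inf a ξ) (fun i j => congrFun (congrFun h i) j) ξ] at h2
    exact lt_irrefl _ h2
  obtain ⟨ξ, h⟩ := LinearMap.injective_iff_surjective.1 h1
    (Matrix.of fun i j => -ipB b (inf a (eu i j)))
  refine ⟨ξ, k _ fun i j => ?_⟩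
  rw [ip_add]
  exact add_eq_zero_iff_eq_neg'.2 (congrFun (congrFun h i) j)

section der
variable {E F G : Type} [NormedAddCommGroup E] [NormedSpace ℝ E] [NormedAddCommGroup F]
  [NormedSpace ℝ F] [NormedAddCommGroup G] [NormedSpace ℝ G] {x v : E}

/-- the derivative of `f` at `x` along `v` is `w` -/
def Dv (f : E → F) (x v : E) (w : F) : Prop := ∃ L : E →L[ℝ] F, HasFDerivAt f L x ∧ L v = w

theorem Dv.eq {f : E → F} {w : F} (h : Dv f x v w) : fderiv ℝ f x v = w := by
  obtain ⟨L, h, e⟩ := h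
  rw [h.fderiv, e]

theorem dv_of {f : E → F} (h : DifferentiableAt ℝ f x) : Dv f x v (fderiv ℝ f x v) :=
  ⟨_, h.hasFDerivAt, rfl⟩

theorem dv_const (c : F) : Dv (fun _ => c) x v 0 := ⟨_, hasFDerivAt_const c x, rfl⟩

theorem dv_id : Dv (fun y => y) x v v := ⟨_, hasFDerivAt_id x, rfl⟩

theorem Dv.clm {f : E → F} {w : F} (h : Dv f x v w) (L : F →L[ℝ] G) :
    Dv (fun y => L (f y)) x v (L w) := by
  obtain ⟨A, h, rfl⟩ := h
  exact ⟨_, L.hasFDerivAt.comp x h, rfl⟩

theorem Dv.add {f g : E → F} {w w' : F} (h : Dv f x v w) (h' : Dv g x v w') :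
    Dv (fun y => f y + g y) x v (w + w') := by
  obtain ⟨A, h, rfl⟩ := h
  obtain ⟨B, h', rfl⟩ := h'
  exact ⟨_, h.add h', rfl⟩

theorem Dv.ip {f g : E → BF d N} {w w' : BF d N} (h : Dv f x v w) (h' : Dv g x v w') :
    Dv (fun y => ipB (f y) (g y)) x v (ipB (f x) w' + ipB w (g x)) := by
  obtain ⟨A, h, rfl⟩ := h
  obtain ⟨B, h', rfl⟩ := h'
  exact ⟨_, (ipL d N).hasFDerivAt_of_bilinear h h', rfl⟩

theorem Dv.act {f : E → BF d N} {g : E → M2} {w : BF d N} {ξ : M2} (h : Dv f x v w)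
    (h' : Dv g x v ξ) (h1 : g x = 1) :
    Dv (fun y => act (f y) (g y)) x v (w + inf (f x) ξ) := by
  obtain ⟨A, h, rfl⟩ := h
  obtain ⟨B, h', rfl⟩ := h'
  have h2 := ((an_act (d := d) (N := N)).differentiable (by simp)
    (f x, g x)).hasFDerivAt.restrictScalars ℝ
  refine ⟨_, HasFDerivAt.comp (f := fun y => (f y, g y)) x h2 (h.prodMk h'), ?_⟩
  rw [h1]
  exact fd_act _ _ _

theorem sm_ip {n : WithTop ℕ∞} {f g : E → BF d N} (h : ContDiffAt ℝ n f x)
    (h' : ContDiffAt ℝ n g x) : ContDiffAt ℝ n (fun y => ipB (f y) (g y)) x :=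
  ((ipL d N).contDiff.contDiffAt.comp x h).clm_apply h'

theorem sm_act {n : WithTop ℕ∞} {f : E → BF d N} {g : E → M2} (h : ContDiffAt ℝ n f x)
    (h' : ContDiffAt ℝ n g x) : ContDiffAt ℝ n (fun y => act (f y) (g y)) x :=
  ContDiffAt.comp (g := fun q : BF d N × M2 => act q.1 q.2) (f := fun y => (f y, g y)) x
    ((an_act.of_le le_top).restrict_scalars ℝ).contDiffAt (h.prodMk h')

end der

/-- the skew part -/
def sk (i j : Fin 2) : M2 →L[ℝ] ℂ :=
  LinearMap.toContinuousLinearMap ⟨⟨fun g => g i j - star (g j i), fun g g' => by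
    simp only [Matrix.add_apply, star_add]
    ring⟩, fun c g => by simp [mul_sub]⟩

/-- the equation of the balanced hermitian gauge -/
def Gq (q : BF d N × M2) : M2 := Matrix.of fun i j =>
  (ipB (inf (act q.1 q.2) (eu i j)) (act q.1 q.2) + -(eu i j).trace) + sk i j q.2

theorem sm_Gq (q : BF d N × M2) : ContDiffAt ℝ ∞ Gq q :=
  (contDiffAt_pi (Φ := fun y : BF d N × M2 => (Gq y : Fin 2 → Fin 2 → ℂ))).2 fun i =>
    contDiffAt_pi.2 fun j =>
      ((sm_ip (((infA d N (eu i j)).restrictScalars ℝ).contDiff.contDiffAt.comp q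
        (sm_act contDiffAt_fst contDiffAt_snd)) (sm_act contDiffAt_fst contDiffAt_snd)).add
        contDiffAt_const).add ((sk i j).contDiff.contDiffAt.comp q contDiffAt_snd)

theorem fd_Gq (a : BF d N) (X : M2) (i j : Fin 2) : fderiv ℝ Gq (a, (1 : M2)) (0, X) i j =
    (ipB (inf a (eu i j)) (inf a X) + ipB (inf (inf a X) (eu i j)) a) + sk i j X := by
  have h1 : Dv (fun q : BF d N × M2 => act q.1 q.2) (a, 1) (0, X) (0 + inf a X) :=
    Dv.act (f := fun q : BF d N × M2 => q.1) (g := fun q : BF d N × M2 => q.2)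
      ⟨_, hasFDerivAt_fst, rfl⟩ ⟨_, hasFDerivAt_snd, rfl⟩ rfl
  have h2 := (((h1.clm ((infA d N (eu i j)).restrictScalars ℝ)).ip h1).add
    (dv_const (-(eu i j).trace))).add ((dv_id.clm (.snd ℝ _ _)).clm (sk i j))
  let p : M2 →L[ℝ] ℂ := (ContinuousLinearMap.proj (R := ℝ) (φ := fun _ : Fin 2 => ℂ) j).comp
    (ContinuousLinearMap.proj (R := ℝ) (φ := fun _ : Fin 2 => Fin 2 → ℂ) i)
  have h3 := (dv_of (v := ((0, X) : BF d N × M2))
    ((sm_Gq (a, (1 : M2))).differentiableAt (by simp))).clm p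
  refine h3.eq.symm.trans (h2.eq.trans ?_)
  simp only [zero_add, add_zero, act_one]
  rfl

theorem inv_of (L : M2 →L[ℝ] M2) (h : Function.Injective L) : L.IsInvertible :=
  ⟨(LinearEquiv.ofInjectiveEndo L.toLinearMap h).toContinuousLinearEquiv, rfl⟩

variable (h : KN1)
include h

theorem bal_of {q : BF d N × M2} (e : Gq q = 0) : Bal (act q.1 q.2) := fun ξ =>
  sub_eq_zero.1 (lin0 (ipl _ ∘ₗ infL _ - Matrix.traceLinearMap _ ℂ ℂ)
    (fun i j => (sub_eq_add_neg _ _).trans ((herm (y := q.2) (c := fun i j =>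
      ipB (inf (act q.1 q.2) (eu i j)) (act q.1 q.2) + -(eu i j).trace) (fun i j => by
        rw [star_add, star_neg, ← Matrix.trace_conjTranspose, h.adj', ip_star, eu_ct])
      fun i j => congrFun (congrFun e i) j).1 i j)) ξ)

theorem gauge (hd : 0 < d) {a : BF d N} (ha : Nz a) (hb : Bal a) : ∃ γ : BF d N → M2,
    ContDiffAt ℝ ∞ γ a ∧ γ a = 1 ∧ ∀ᶠ y in 𝓝 a, Bal (act y (γ y)) := by
  set L := fderiv ℝ Gq (a, (1 : M2)) ∘L .inr ℝ (BF d N) M2 with hL
  have h1 : Function.Injective L := (injective_iff_map_eq_zero L).2 fun X e => by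
    obtain ⟨h2, h3⟩ := herm (y := X) (c := fun i j =>
      ipB (inf a (eu i j)) (inf a X) + ipB (inf (inf a X) (eu i j)) a) (fun i j => by
        rw [star_add, h.adj' (inf a X), h.adj' (inf a X), ip_star, ip_star, eu_ct, eu_ct, add_comm])
      fun i j => (fd_Gq a X i j).symm.trans (congrFun (congrFun e i) j)
    have h4 : ipB (inf a X) (inf a X) + ipB (inf (inf a X) X) a = 0 :=
      lin0 (ipl (inf a X) ∘ₗ infL a + ipl a ∘ₗ infL (inf a X)) h2 X
    rw [h.adj' (inf a X), h3] at h4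
    by_contra h0
    have h5 := ip_pos fun e => h0 (inf_inj hd ha e)
    have h6 := congrArg Complex.re h4
    rw [Complex.add_re, Complex.zero_re] at h6
    linarith
  have hi : L.IsInvertible := inv_of L h1
  have h0 : Gq (a, (1 : M2)) = 0 := Matrix.ext fun i j => by
    show (ipB (inf (act a 1) (eu i j)) (act a 1) + -(eu i j).trace) +
      ((1 : M2) i j - star ((1 : M2) j i)) = 0
    rw [act_one, hb, ← Matrix.conjTranspose_apply, Matrix.conjTranspose_one]
    simp
  have hs := sm_Gq (a, (1 : M2))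
  have hn : (∞ : WithTop ℕ∞) ≠ 0 := by simp
  refine ⟨hs.implicitFunction hn hi, hs.contDiffAt_implicitFunction hn hi,
    hs.implicitFunction_apply_self hn hi, ?_⟩
  filter_upwards [hs.eventually_apply_implicitFunction hn hi] with y hy
  exact bal_of h (q := (y, hs.implicitFunction hn hi y)) (hy.trans h0)

end Vale.Agent.P280Z.Ma.Kna
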