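import Vale.Agent.P231.ChW.Newton

/-!
# P280Z: the numerical structure of a family of rational curves (pure algebra)
-/

open Vale.Agent.P231.ChW (NewtonRec)

noncomputable section

namespace Vale.Agent.P280Z

/-- a grading and an integral -/
structure GA (A : Type) [CommRing A] [Algebra ℝ A] where
  pr : ℕ → A →ₗ[ℝ] A
  int : A →ₗ[ℝ] ℝ

namespace GA
variable {A : Type} [CommRing A] [Algebra ℝ A] (G : GA A)

/-- elements of degree `k` -/
def Dg (k : ℕ) (a : A) : Prop := G.pr k a = a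

/-- a graded algebra with Poincaré duality, of dimension `n` -/
structure OK (n : ℕ) : Prop where
  pr_pr : ∀ j k a, G.pr j (G.pr k a) = if j = k then G.pr k a else 0
  pr_sum : ∀ a, ∑ k ∈ Finset.range (n + 1), G.pr k a = a
  pr_zero : ∀ k a, n < k → G.pr k a = 0
  dg_one : G.Dg 0 1
  dg_mul : ∀ j k a b, G.Dg j a → G.Dg k b → G.Dg (j + k) (a * b)
  int_pr : ∀ a, G.int (G.pr n a) = G.int a
  pd : ∀ a, (∀ b, G.int (a * b) = 0) → a = 0

end GA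

/-- `A` is the ring of `X`, `B` the ring of the universal curve `U`; `es`, `el` are the pull back
and the push forward by `e : U → X`, `T` is `p^* p_*` for `p : U → K`, `η` has degree one on the
curves, `τ` is the class of the relative tangent bundle of `p`; `pX`, `pE`, `pK` are the power sums
of the Chern roots of `T_X`, `T_e`, `p^* T_K` -/
structure NS (A B : Type) [CommRing A] [Algebra ℝ A] [CommRing B] [Algebra ℝ B] where
  GX : GA A
  GU : GA B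
  es : A →ₐ[ℝ] B
  el : B →ₗ[ℝ] A
  T : B →ₗ[ℝ] B
  η : A
  τ : B
  pX : ℕ → A
  pE : ℕ → B
  pK : ℕ → B

namespace NS
variable {A B : Type} [CommRing A] [Algebra ℝ A] [CommRing B] [Algebra ℝ B] (S : NS A B)

/-- the axioms that hold for every Picard number; `n = dim X`, `r` is the dimension of the fibres
of `e` -/
structure OK0 (n r : ℕ) : Prop where
  gx : S.GX.OK n
  gu : S.GU.OK (n + r)
  h0 : ∀ a, S.GX.Dg 0 a → ∃ c : ℝ, a = algebraMap ℝ A c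
  es_pr : ∀ k a, S.es (S.GX.pr k a) = S.GU.pr k (S.es a)
  el_pr : ∀ k b, S.GX.pr k (S.el b) = S.el (S.GU.pr (k + r) b)
  proj : ∀ b a, S.el (b * S.es a) = S.el b * a
  el_int : ∀ b, S.GX.int (S.el b) = S.GU.int b
  T_pr : ∀ k b, S.GU.pr k (S.T b) = S.T (S.GU.pr (k + 1) b)
  T_mul : ∀ b c, S.T (b * S.T c) = S.T b * S.T c
  T_int : ∀ b c, S.GU.int (S.T b * c) = S.GU.int (b * S.T c)
  lh : ∀ b, S.τ * S.T b + S.T (S.τ * b) = (2 : ℝ) • b
  dη : S.GX.Dg 1 S.η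
  dτ : S.GU.Dg 1 S.τ
  Tη : S.T (S.es S.η) = 1
  Tτ : S.T S.τ = 2
  vol : 0 < S.GX.int (S.η ^ n)
  hl : ∀ k j, k + k + j = n → (∀ a, S.GX.Dg k a → S.η ^ j * a = 0 → a = 0) ∧
    ∀ b, S.GX.Dg (k + j) b → ∃ a, S.GX.Dg k a ∧ S.η ^ j * a = b
  hr : ∀ k j, k + k + j = n → ∀ a, S.GX.Dg k a → S.η ^ (j + 1) * a = 0 →
    (∀ b, S.GX.Dg k b → S.η ^ (j + 1) * b = 0 → ∃ c : ℝ, b = c • a) → a ≠ 0 →
    0 < (-1) ^ k * S.GX.int (a * a * S.η ^ j)
  dX : ∀ k, S.GX.Dg k (S.pX k)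
  dE : ∀ k, S.GU.Dg k (S.pE k)
  dK : ∀ k, S.GU.Dg k (S.pK k)
  X0 : S.pX 0 = n
  E0 : S.pE 0 = r
  ses : ∀ k, S.pE k + S.es (S.pX k) = S.τ ^ k + S.pK k
  TK : ∀ k, S.T (S.pK k) = 0
  inv : ∀ k, S.T (∑ j ∈ Finset.range (k + 1),
    (k.choose j : ℝ) • (S.pE j * ((2 : ℝ)⁻¹ • S.τ) ^ (k - j))) = 0
  rank : ∀ e, NewtonRec ℝ S.pE e → ∀ j, r < j → e j = 0
  D : ∃ D : ℝ, 0 < D ∧ S.el ((-S.τ) ^ r) = algebraMap ℝ A D

/-- the axioms for second Betti number one -/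
structure OK (n r : ℕ) : Prop extends S.OK0 n r where
  b2 : ∀ a, S.GX.Dg 1 a → ∃ c : ℝ, a = c • S.η
  c1 : S.pX 1 = ((r : ℝ) + 2) • S.η

end NS

end Vale.Agent.P280Z
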