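import Vale.Agent.P280Z.Ma.Defs

/-!
# P280Z, block Ma: smaller rows
-/

open scoped Manifold ContDiff Topology Matrix ComplexOrder
open Set Filter
open Vale.Agent.P272.K Vale.Agent.P285.H281.FD Vale.Agent.P281Z Vale.Agent.P280Z.Mp
open Vale.Agent.P277Z.Slc (lin)
open Vale.Agent.P277.HD (pull)

noncomputable section

namespace Vale.Agent.P280Z.Ma

section fam
variable {n N r d D k : ℕ} {V : Mf n} {P : Eqs r N} {pt : Cm N → V.X} (F : Fam V P pt d D k)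

/-- the bundle of the diagonal of the fibre square -/
def Dg {Z : Type} (q1 q2 : Z → F.U.X) : Bd Z where
  ι := Ix F × Fin 2 × Fin 2
  U h := {w | q1 w ∈ (cu F h.1 h.2.1).source ∧ q2 w ∈ (cu F h.1 h.2.2).source}
  g h h' w := (gm F h.1 h'.1 (F.p (q1 w))).det /
    (gc F (h.1, h.2.1) (h'.1, h'.2.1) (q1 w) * gc F (h.1, h.2.2) (h'.1, h'.2.2) (q2 w))

/-- the equation of the diagonal -/
def ds {Z : Type} (q1 q2 : Z → F.U.X) (h : (Dg F q1 q2).ι) (w : Z) : ℂ :=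
  lf (rz F h.1 h.2.1 (q1 w)) (rz F h.1 h.2.2 (q2 w))

end fam

/-- row P1C: the diagonal -/
def P1C : Prop := ∀ {n N r e d D k : ℕ} {V : Mf n} {P : Eqs r N} {pt : Cm N → V.X}
  (F : Fam V P pt d D k), Hyp V P e pt d → ∀ (Z : Mf (k + 1 + 1)) (q1 q2 : Z.X → F.U.X),
  Cart F.p F.p q1 q2 → ∀ δ : F.U.X → Z.X, HolM (k + 1) (k + 1 + 1) δ → (∀ x, q1 (δ x) = x) →
  (∀ x, q2 (δ x) = x) → Cut (Dg F q1 q2) (ds F q1 q2) δ ∧
    Trv (k + 1 + 1) (lin ![Dg F q1 q2, pull q1 (Tb F), pull q2 (Tb F)] ![2, -1, -1]) ∧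
    Trv (k + 1) (lin ![pull δ (Dg F q1 q2), Tb F] ![1, -1])

/-- the frame of the tangent bundle given by the chart `c` -/
abbrev fr {m : ℕ} {X : Type} [TopologicalSpace X] [ChartedSpace (Cm m) X] (c : Chart m X) (x : X) :
    Cm m →L[ℂ] Cm m := df (fun y : X => y) c (chartAt (Cm m) x) x

/-- row KER: the kernel of the differential of `e`; `J a j w b` is the tangent vector, in the chart
`(a, j)`, of the deformation `b` of the curve at the fixed parameter -/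
def KER : Prop := ∀ {n N r e d D k : ℕ} {V : Mf n} {P : Eqs r N} {pt : Cm N → V.X}
  (F : Fam V P pt d D k), Hyp V P e pt d →
  ∃ (J : Ix F → Fin 2 → Cm (k + 1) → BF d N →L[ℂ] Cm (k + 1))
    (S : Ix F → Fin 2 → Cm (k + 1) → Cm (k + 1) →L[ℂ] BF d N),
    (∀ a j x, x ∈ (cu F a j).source →
      ContDiffAt ℝ ∞ (J a j) (cu F a j x) ∧ ContDiffAt ℝ ∞ (S a j) (cu F a j x) ∧
      (∀ b ∈ Tg P (ra F a (F.p x)), ev b (rz F a j x) = 0 →
        Df (k + 1) n F.e x (fr (cu F a j) x (J a j (cu F a j x) b)) = 0) ∧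
      (∀ v, Df (k + 1) n F.e x (fr (cu F a j) x v) = 0 →
        S a j (cu F a j x) v ∈ Tg P (ra F a (F.p x)) ∧
        ev (S a j (cu F a j x) v) (rz F a j x) = 0 ∧
        J a j (cu F a j x) (S a j (cu F a j x) v) = v) ∧
      ∀ b ∈ Tg P (ra F a (F.p x)), J a j (cu F a j x) b = 0 ↔
        ∃ ξ : M2, b = inf (ra F a (F.p x)) ξ ∧ ∃ c : ℂ, ξ *ᵥ rz F a j x = c • rz F a j x) ∧
    ∀ a j a' j' x, x ∈ (cu F a j).source → x ∈ (cu F a' j').source →
      ∀ b ∈ Tg P (ra F a (F.p x)),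
        fr (cu F a' j') x (J a' j' (cu F a' j' x) (act b (gm F a a' (F.p x)))) =
          fr (cu F a j) x (J a j (cu F a j x) b)

/-- row INV: the relative tangent bundle of `e` along the curves -/
def INV : Prop := ∀ {n N r e d D k : ℕ} {V : Mf n} {P : Eqs r N} {pt : Cm N → V.X}
  (F : Fam V P pt d D k), Hyp V P e pt d → ∀ (Z : Mf (k + 1 + 1)) (q1 q2 : Z.X → F.U.X),
  Cart F.p F.p q1 q2 → ∀ (m : ℕ) (E : VB F.U.X), IsRel F.e m E →
  ∃ φ, IsHom (k + 1 + 1) ((E.pull q1).tw (lin ![pull q1 (Tb F), Dg F q1 q2] ![1, -1]))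
    (E.pull q2) φ ∧ ∀ w, Function.Bijective (φ w)

/-- the invariant inner product of binary forms -/
def ipB {d N : ℕ} (a b : BF d N) : ℂ :=
  ∑ j : Fin (d + 1), ∑ l, a j l * star (b j l) / (d.choose j : ℂ)

/-- the function which is minimised along the orbits -/
def Fk {d N : ℕ} (a : BF d N) (g : M2) : ℝ :=
  (ipB (act a g) (act a g)).re - Real.log (‖g.det‖ ^ 2)

/-- balanced forms -/
def Bal {d N : ℕ} (a : BF d N) : Prop := ∀ ξ : M2, ipB (inf a ξ) a = ξ.trace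

/-- row KN1: existence of the balanced parametrisation -/
structure KN1 : Prop where
  adj : ∀ {d N : ℕ} (a b : BF d N) (g : M2), ipB (act a g) b = ipB a (act b gᴴ)
  adj' : ∀ {d N : ℕ} (a b : BF d N) (ξ : M2), ipB (inf a ξ) b = ipB a (inf b ξᴴ)
  ex : ∀ {d N : ℕ} (a : BF d N), 0 < d → Nz a → ∃ g : M2, g.det ≠ 0 ∧ Bal (act a g)
  min : ∀ {d N : ℕ} (a : BF d N), Bal a → ∀ g : M2, g.det ≠ 0 → Fk a 1 ≤ Fk a g

/-- row KNA: the potential of Kempf and Ness -/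
def KNA : Prop := ∀ d N : ℕ, 0 < d → ∃ m : BF d N → ℝ,
  (∀ a (g : M2), Nz a → g.det ≠ 0 → m (act a g) = m a + Real.log (‖g.det‖ ^ 2)) ∧
  (∀ a, Nz a → ContDiffAt ℝ ∞ m a) ∧
  ∀ {k : ℕ} (σ : Cm k → BF d N) (v : Cm k), Nz (σ v) → AnalyticAt ℂ σ v →
    (∀ ξ u, inf (σ v) ξ + fderiv ℂ σ v u = 0 → u = 0) → (cHess (fun y => m (σ y)) v).PosDef

end Vale.Agent.P280Z.Ma
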